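import Vale.Agent.P226.Basic

/-!
Laws of linear images, the density and the polar decomposition of the standard Gaussian measure.
-/

open MeasureTheory ProbabilityTheory Set
open scoped RealInnerProductSpace

namespace Vale.Agent.P226.Geo

/-- The standard normal law on the line. -/
noncomputable abbrev N1 : Measure ℝ := gaussianReal 0 1

/-- Product of standard normal laws. -/
noncomputable abbrev piN (k : ℕ) : Measure (Fin k → ℝ) := Measure.pi fun _ => N1

lemma gam_eq_map (d : ℕ) : gam d = (piN d).map (WithLp.toLp 2) :=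
  (map_pi_eq_stdGaussian (ι := Fin d)).symm

/-- Coordinates along an orthonormal family are independent standard normal variables. -/
lemma map_inner {d k : ℕ} (e : Fin k → Eu d) (he : Orthonormal ℝ e) :
    (gam d).map (fun x i => ⟪e i, x⟫) = piN k := by
  have hm : Measurable fun x : Eu d => WithLp.toLp 2 (fun i => ⟪e i, x⟫) := by fun_prop
  have h : (gam d).map (fun x => WithLp.toLp 2 (fun i => ⟪e i, x⟫)) = gam k := by
    refine Measure.ext_of_charFun ?_
    funext t
    rw [charFun_apply, integral_map hm.aemeasurable (by fun_prop)]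
    have he' : ∀ x : Eu d, ⟪WithLp.toLp 2 (fun i => ⟪e i, x⟫), t⟫ = ⟪x, ∑ i, t i • e i⟫ := by
      intro x
      rw [inner_sum, PiLp.inner_apply]
      refine Finset.sum_congr rfl fun i _ => ?_
      rw [real_inner_smul_right, real_inner_comm (e i) x]
      simp [mul_comm]
    simp only [he', ← charFun_apply, charFun_stdGaussian]
    have hn : ‖∑ i, t i • e i‖ ^ 2 = ‖t‖ ^ 2 := by
      rw [← real_inner_self_eq_norm_sq, he.inner_sum, EuclideanSpace.norm_sq_eq]
      simp [sq]
    rw [← Complex.ofReal_pow, ← Complex.ofReal_pow, hn]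
  have h' := congrArg (fun μ => μ.map (WithLp.ofLp : Eu k → Fin k → ℝ)) h
  simp only [gam_eq_map k] at h'
  rw [Measure.map_map (by fun_prop) hm, Measure.map_map (by fun_prop) (by fun_prop)] at h'
  simpa [Function.comp_def] using h'

lemma map_inner_one {d : ℕ} (e : Eu d) (he : ‖e‖ = 1) :
    (gam d).map (fun x => ⟪e, x⟫) = N1 := by
  have ho : Orthonormal ℝ (fun _ : Fin 1 => e) :=
    ⟨fun _ => he, fun i j hij => absurd (Subsingleton.elim i j) hij⟩
  have h := congrArg (fun μ => μ.map (Function.eval 0)) (map_inner _ ho)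
  rw [Measure.map_map (by fun_prop) (by fun_prop), Measure.pi_map_eval] at h
  simpa [Function.comp_def] using h

lemma map_inner_two {d : ℕ} (e f : Eu d) (he : Orthonormal ℝ ![e, f]) :
    (gam d).map (fun x => (⟪e, x⟫, ⟪f, x⟫)) = N1.prod N1 := by
  have h := congrArg (fun μ => μ.map (MeasurableEquiv.piFinTwo fun _ : Fin 2 => ℝ)) (map_inner _ he)
  rw [Measure.map_map (by fun_prop) (by fun_prop),
    (measurePreserving_piFinTwo fun _ : Fin 2 => N1).map_eq] at h
  simpa [Function.comp_def] using h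

lemma map_inner_three {d : ℕ} (e f g : Eu d) (he : Orthonormal ℝ ![e, f, g]) :
    (gam d).map (fun x => (⟪e, x⟫, (⟪f, x⟫, ⟪g, x⟫))) = N1.prod (N1.prod N1) := by
  have h3 := measurePreserving_piFinSuccAbove (fun _ : Fin 3 => N1) 0
  have h2 := (MeasurePreserving.id N1).prod (measurePreserving_piFinTwo fun _ : Fin 2 => N1)
  have h := congrArg (fun μ => μ.map (Prod.map id (MeasurableEquiv.piFinTwo fun _ : Fin 2 => ℝ) ∘
    MeasurableEquiv.piFinSuccAbove (fun _ : Fin 3 => ℝ) 0)) (map_inner _ he)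
  rw [(h2.comp h3).map_eq, Measure.map_map (h2.comp h3).measurable (by fun_prop)] at h
  simpa [Function.comp_def, Fin.tail] using h

lemma gaussianPDF_prod (d : ℕ) (y : Fin d → ℝ) :
    ∏ i, gaussianPDFReal 0 1 (y i) =
      (Real.sqrt (2 * Real.pi))⁻¹ ^ d * Real.exp (-(∑ i, y i ^ 2) / 2) := by
  simp only [gaussianPDFReal, sub_zero, NNReal.coe_one, mul_one, Finset.prod_mul_distrib,
    Finset.prod_const, Finset.card_univ, Fintype.card_fin, ← Real.exp_sum, ← Finset.sum_div,
    Finset.sum_neg_distrib]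

lemma piN_eq_withDensity (d : ℕ) :
    piN d = volume.withDensity (fun y => ENNReal.ofReal (∏ i, gaussianPDFReal 0 1 (y i))) := by
  refine Measure.pi_eq fun s hs => ?_
  rw [withDensity_apply _ (MeasurableSet.univ_pi hs),
    ← ofReal_integral_eq_lintegral_ofReal, volume_pi, Measure.restrict_pi_pi,
    integral_fintype_prod_eq_prod, ENNReal.ofReal_prod_of_nonneg]
  · refine Finset.prod_congr rfl fun i _ => ?_
    rw [gaussianReal_apply_eq_integral 0 one_ne_zero]
  · exact fun i _ => setIntegral_nonneg (hs i) fun x _ => gaussianPDFReal_nonneg 0 1 x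
  · refine Integrable.integrableOn ?_
    exact Integrable.fintype_prod fun _ => integrable_gaussianPDFReal 0 1
  · exact Filter.Eventually.of_forall fun y =>
      Finset.prod_nonneg fun i _ => gaussianPDFReal_nonneg 0 1 (y i)

/-- Radial profile of the Gaussian density. -/
noncomputable def rad (d : ℕ) (r : ℝ) : ℝ :=
  (Real.sqrt (2 * Real.pi))⁻¹ ^ d * Real.exp (-r ^ 2 / 2)

lemma rad_nonneg (d : ℕ) (r : ℝ) : 0 ≤ rad d r := by unfold rad; positivity

lemma gam_eq_withDensity (d : ℕ) :
    gam d = volume.withDensity (fun x => ENNReal.ofReal (rad d ‖x‖)) := by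
  ext s hs
  have hm : Measurable fun x : Eu d => ENNReal.ofReal (rad d ‖x‖) := by unfold rad; fun_prop
  rw [gam_eq_map, Measure.map_apply (by fun_prop) hs, piN_eq_withDensity,
    withDensity_apply _ (WithLp.measurable_toLp 2 _ hs), withDensity_apply _ hs,
    ← (PiLp.volume_preserving_toLp (Fin d)).setLIntegral_comp_preimage hs hm]
  refine setLIntegral_congr_fun (WithLp.measurable_toLp 2 _ hs) fun y _ => ?_
  simp only [rad, gaussianPDF_prod, EuclideanSpace.norm_sq_eq]
  simp [sq_abs]

lemma integral_gam (d : ℕ) (f : Eu d → ℝ) :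
    ∫ x, f x ∂(gam d) = ∫ x, rad d ‖x‖ * f x := by
  have hm : Measurable fun x : Eu d => ENNReal.ofReal (rad d ‖x‖) := by unfold rad; fun_prop
  rw [gam_eq_withDensity, integral_withDensity_eq_integral_toReal_smul hm
    (Filter.Eventually.of_forall fun x => ENNReal.ofReal_lt_top)]
  simp [ENNReal.toReal_ofReal, rad_nonneg]

/-- `A` is invariant under positive dilations. -/
def IsCone {d : ℕ} (A : Set (Eu d)) : Prop :=
  ∀ (r : ℝ) (x : Eu d), 0 < r → x ∈ A → r • x ∈ A

lemma IsCone.smul_mem_iff {d : ℕ} {A : Set (Eu d)} (hA : IsCone A) {r : ℝ} (hr : 0 < r)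
    (x : Eu d) : r • x ∈ A ↔ x ∈ A := by
  refine ⟨fun h => ?_, hA r x hr⟩
  simpa [smul_smul, hr.ne'] using hA r⁻¹ (r • x) (inv_pos.2 hr) h

lemma isCone_univ (d : ℕ) : IsCone (univ : Set (Eu d)) := fun _ _ _ _ => trivial

lemma IsCone.compl {d : ℕ} {A : Set (Eu d)} (hA : IsCone A) : IsCone Aᶜ := by
  intro r x hr hx
  rwa [mem_compl_iff, hA.smul_mem_iff hr]

/-- Polar decomposition of a radial integral over a cone. -/
lemma cone_integral_vol {d : ℕ} (hd : 0 < d) {A : Set (Eu d)} (hAm : MeasurableSet A)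
    (hA : IsCone A) (h : ℝ → ℝ) :
    ∫ x in A, h ‖x‖ =
      (volume : Measure (Eu d)).toSphere.real {θ | (θ : Eu d) ∈ A} *
        ∫ r in Ioi (0 : ℝ), r ^ (d - 1) * h r := by
  have : Nonempty (Fin d) := ⟨⟨0, hd⟩⟩
  set μ : Measure (Eu d) := volume
  set S : Set (Metric.sphere (0 : Eu d) 1) := {θ | (θ : Eu d) ∈ A} with hS
  have hSm : MeasurableSet S := measurable_subtype_coe hAm
  calc ∫ x in A, h ‖x‖ ∂μ
      = ∫ x : ({(0)}ᶜ : Set (Eu d)), A.indicator (fun y => h ‖y‖) x.1 ∂(μ.comap (↑)) := by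
        rw [integral_subtype_comap (measurableSet_singleton _).compl
          fun x => A.indicator (fun y => h ‖y‖) x, restrict_compl_singleton,
          integral_indicator hAm]
    _ = ∫ p, S.indicator (fun _ => (1 : ℝ)) p.1 * h p.2
          ∂μ.toSphere.prod (.volumeIoiPow (Module.finrank ℝ (Eu d) - 1)) := by
        rw [← μ.measurePreserving_homeomorphUnitSphereProd.integral_comp
          (Homeomorph.measurableEmbedding _) (fun p => S.indicator (fun _ => (1 : ℝ)) p.1 * h p.2)]
        refine integral_congr_ae (Filter.Eventually.of_forall fun x => ?_)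
        have hx : x.1 ≠ 0 := x.2
        have hmem : (homeomorphUnitSphereProd (Eu d) x).1 ∈ S ↔ x.1 ∈ A := by
          simp only [hS, mem_setOf_eq, homeomorphUnitSphereProd_apply_fst_coe]
          exact hA.smul_mem_iff (inv_pos.2 (norm_pos_iff.2 hx)) _
        by_cases hxA : x.1 ∈ A
        · simp [hxA, hmem.2 hxA]
        · simp [hxA, mt hmem.1 hxA]
    _ = _ := by
      rw [integral_prod_mul (S.indicator fun _ => (1 : ℝ)) (fun r : Ioi (0 : ℝ) => h r.1),
        integral_indicator_const _ hSm, smul_eq_mul, mul_one]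
      congr 1
      simp only [Measure.volumeIoiPow, ENNReal.ofReal]
      rw [integral_withDensity_eq_integral_smul,
        integral_subtype_comap measurableSet_Ioi fun a =>
          Real.toNNReal (a ^ (Module.finrank ℝ (Eu d) - 1)) • h a]
      · refine setIntegral_congr_fun measurableSet_Ioi fun x hx => ?_
        simp [finrank_euclideanSpace, NNReal.smul_def, pow_nonneg (mem_Ioi.1 hx).le]
      · exact (measurable_subtype_coe.pow_const _).real_toNNReal

/-- Radial integrals over a cone factor through the mass of the cone. -/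
lemma cone_integral {d : ℕ} (hd : 0 < d) {A : Set (Eu d)} (hAm : MeasurableSet A)
    (hA : IsCone A) (g : ℝ → ℝ) :
    ∫ x in A, g ‖x‖ ∂(gam d) = (gam d).real A * ∫ x, g ‖x‖ ∂(gam d) := by
  have key : ∀ (B : Set (Eu d)), MeasurableSet B → IsCone B → ∀ g : ℝ → ℝ,
      ∫ x in B, g ‖x‖ ∂(gam d) = (volume : Measure (Eu d)).toSphere.real {θ | (θ : Eu d) ∈ B} *
        ∫ r in Ioi (0 : ℝ), r ^ (d - 1) * (rad d r * g r) := by
    intro B hBm hB g
    rw [← integral_indicator hBm, integral_gam,
      ← cone_integral_vol hd hBm hB (fun r => rad d r * g r), ← integral_indicator hBm]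
    exact integral_congr_ae (Filter.Eventually.of_forall fun x => by
      by_cases hx : x ∈ B <;> simp [hx])
  have h1 : (gam d).real A = ∫ x in A, (fun _ : ℝ => (1 : ℝ)) ‖x‖ ∂(gam d) := by
    rw [setIntegral_const]; simp
  have h2 : (1 : ℝ) = ∫ x in (univ : Set (Eu d)), (fun _ : ℝ => (1 : ℝ)) ‖x‖ ∂(gam d) := by
    simp
  replace h1 := h1.trans (key A hAm hA fun _ => 1)
  replace h2 := h2.trans (key univ MeasurableSet.univ (isCone_univ d) fun _ => 1)
  rw [← setIntegral_univ (μ := gam d), key A hAm hA g, key univ MeasurableSet.univ (isCone_univ d) g,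
    h1]
  linear_combination ((volume : Measure (Eu d)).toSphere.real {θ | (θ : Eu d) ∈ A} *
    ∫ r in Ioi (0 : ℝ), r ^ (d - 1) * (rad d r * g r)) * h2

/-- `∫_0^∞ r^n exp(-r^2/2)`. -/
noncomputable def mom (n : ℕ) : ℝ := ∫ r in Ioi (0 : ℝ), r ^ n * Real.exp (-r ^ 2 / 2)

lemma mom_eq_Gamma (n : ℕ) :
    mom n = (1 / 2 : ℝ) ^ (-((n : ℝ) + 1) / 2) * (1 / 2) * Real.Gamma (((n : ℝ) + 1) / 2) := by
  have := integral_rpow_mul_exp_neg_mul_rpow (p := 2) (q := (n : ℝ)) (b := 1 / 2) (by norm_num)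
    (by linarith [(Nat.cast_nonneg n : (0 : ℝ) ≤ n)]) (by norm_num)
  rw [← this, mom]
  refine setIntegral_congr_fun measurableSet_Ioi fun r hr => ?_
  simp only [Real.rpow_natCast, Real.rpow_two]
  ring_nf

lemma mom_add_two (n : ℕ) : mom (n + 2) = (n + 1) * mom n := by
  simp only [mom_eq_Gamma]
  have h := Real.Gamma_add_one (show (((n : ℝ) + 1) / 2) ≠ 0 by positivity)
  rw [show (((n + 2 : ℕ) : ℝ) + 1) / 2 = ((n : ℝ) + 1) / 2 + 1 by push_cast; ring, h,
    show -(((n + 2 : ℕ) : ℝ) + 1) / 2 = -((n : ℝ) + 1) / 2 + (-1 : ℝ) by push_cast; ring,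
    Real.rpow_add (by norm_num : (0 : ℝ) < 1 / 2), Real.rpow_neg_one]
  ring

lemma mom_zero : mom 0 = Real.sqrt (Real.pi / 2) := by
  have h := integral_gaussian_Ioi (1 / 2)
  rw [mom, show Real.pi / 2 = Real.pi / (1 / 2) / 4 by ring, Real.sqrt_div' _ (by norm_num),
    show Real.sqrt 4 = 2 by rw [show (4 : ℝ) = 2 ^ 2 by norm_num, Real.sqrt_sq (by norm_num)],
    ← h]
  refine setIntegral_congr_fun measurableSet_Ioi fun r _ => ?_
  simp only [pow_zero, one_mul]
  ring_nf

lemma mom_one : mom 1 = 1 := by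
  rw [mom_eq_Gamma]
  norm_num [Real.rpow_neg_one]

/-- Law of the norm. -/
lemma integral_norm_gam {d : ℕ} (hd : 0 < d) (g : ℝ → ℝ) :
    ∫ x, g ‖x‖ ∂(gam d) =
      (∫ r in Ioi (0 : ℝ), r ^ (d - 1) * Real.exp (-r ^ 2 / 2) * g r) / mom (d - 1) := by
  set σ := (volume : Measure (Eu d)).toSphere.real {θ | (θ : Eu d) ∈ (univ : Set (Eu d))}
  have key : ∀ g : ℝ → ℝ, ∫ x, g ‖x‖ ∂(gam d) = σ * (Real.sqrt (2 * Real.pi))⁻¹ ^ d *
      ∫ r in Ioi (0 : ℝ), r ^ (d - 1) * Real.exp (-r ^ 2 / 2) * g r := by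
    intro g
    rw [integral_gam, ← setIntegral_univ (μ := (volume : Measure (Eu d))),
      cone_integral_vol hd MeasurableSet.univ (isCone_univ d) (fun r => rad d r * g r), mul_assoc]
    congr 1
    rw [← integral_const_mul]
    refine setIntegral_congr_fun measurableSet_Ioi fun r _ => ?_
    simp only [rad]
    ring
  have h1 := key fun _ => 1
  simp only [mul_one, integral_const, probReal_univ, smul_eq_mul] at h1
  have hm : mom (d - 1) ≠ 0 := by
    intro h0
    rw [mom] at h0
    rw [h0, mul_zero] at h1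
    exact one_ne_zero h1
  rw [key g, eq_div_iff hm, mom]
  linear_combination (-(∫ r in Ioi (0 : ℝ), r ^ (d - 1) * Real.exp (-r ^ 2 / 2) * g r)) * h1

end Vale.Agent.P226.Geo
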