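import Mathlib

/-!
Basic objects for the propeller problem.

`gpdf` is the standard normal density, `gQ` its upper tail, `gh u = φ u (φ u - u Q u)`.
-/

open MeasureTheory ProbabilityTheory
open scoped RealInnerProductSpace

namespace Vale.Agent.P226

/-- Euclidean space of dimension `d`. -/
abbrev Eu (d : ℕ) := EuclideanSpace ℝ (Fin d)

/-- Standard Gaussian measure on `Eu d`. -/
noncomputable abbrev gam (d : ℕ) : Measure (Eu d) := stdGaussian (Eu d)

/-- Standard normal density. -/
noncomputable def gpdf (u : ℝ) : ℝ := (Real.sqrt (2 * Real.pi))⁻¹ * Real.exp (-u ^ 2 / 2)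

/-- Standard normal upper tail. -/
noncomputable def gQ (u : ℝ) : ℝ := (gaussianReal 0 1).real (Set.Ici u)

/-- The deletion gain profile. -/
noncomputable def gh (u : ℝ) : ℝ := gpdf u * (gpdf u - u * gQ u)

/-- The conjectured optimal value. -/
noncomputable def c2 : ℝ := 9 / (8 * Real.pi)

end Vale.Agent.P226
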