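import Vale.Agent.P226.Series

/-!
Rational brackets at the nodes used in the case analysis.
-/

open Set

namespace Vale.Agent.P226

lemma gpdf_0_23 : gpdf 0.23 ∈ Icc (0.3885285 : ℝ) 0.3885286 :=
  gpdf_mem (el := 0.973896737) (eh := 0.973896738) 6 7 (by decide) (by decide)
    (by norm_num [expS, Finset.sum_range_succ, Nat.factorial]) (by norm_num [expS, Finset.sum_range_succ, Nat.factorial])
    (by norm_num) (by norm_num) (by norm_num)

lemma gQ_0_23 : gQ 0.23 ∈ Icc (0.4090458 : ℝ) 0.4090459 :=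
  gQ_mem (tl := 0.227988156) (th := 0.227988157) 6 7 (by decide) (by decide) (by norm_num)
    (by norm_num [tailS, Finset.sum_range_succ, Nat.factorial]) (by norm_num [tailS, Finset.sum_range_succ, Nat.factorial])
    (by norm_num) (by norm_num) (by norm_num) (by norm_num)

lemma gh_0_23 : gh 0.23 ≤ 0.1144015 :=
  gh_le (by norm_num) gpdf_0_23 gQ_0_23.1 (by norm_num) (by norm_num)

lemma gpdf_0_316 : gpdf 0.316 ∈ Icc (0.3795129 : ℝ) 0.3795130 :=
  gpdf_mem (el := 0.951297915) (eh := 0.951297916) 6 7 (by decide) (by decide)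
    (by norm_num [expS, Finset.sum_range_succ, Nat.factorial]) (by norm_num [expS, Finset.sum_range_succ, Nat.factorial])
    (by norm_num) (by norm_num) (by norm_num)

lemma gQ_0_316 : gQ 0.316 ∈ Icc (0.3760012 : ℝ) 0.3760013 :=
  gQ_mem (tl := 0.310818762) (th := 0.310818763) 6 7 (by decide) (by decide) (by norm_num)
    (by norm_num [tailS, Finset.sum_range_succ, Nat.factorial]) (by norm_num [tailS, Finset.sum_range_succ, Nat.factorial])
    (by norm_num) (by norm_num) (by norm_num) (by norm_num)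

lemma gh_0_316 : gh 0.316 ≤ 0.0989378 :=
  gh_le (by norm_num) gpdf_0_316 gQ_0_316.1 (by norm_num) (by norm_num)

lemma gpdf_0_36 : gpdf 0.36 ∈ Icc (0.3739106 : ℝ) 0.3739107 :=
  gpdf_mem (el := 0.937254895) (eh := 0.937254896) 6 7 (by decide) (by decide)
    (by norm_num [expS, Finset.sum_range_succ, Nat.factorial]) (by norm_num [expS, Finset.sum_range_succ, Nat.factorial])
    (by norm_num) (by norm_num) (by norm_num)

lemma gQ_0_36 : gQ 0.36 ∈ Icc (0.3594235 : ℝ) 0.3594236 :=
  gQ_mem (tl := 0.352372862) (th := 0.352372863) 6 7 (by decide) (by decide) (by norm_num)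
    (by norm_num [tailS, Finset.sum_range_succ, Nat.factorial]) (by norm_num [tailS, Finset.sum_range_succ, Nat.factorial])
    (by norm_num) (by norm_num) (by norm_num) (by norm_num)

lemma gh_0_36 : gh 0.36 ≤ 0.0914280 :=
  gh_le (by norm_num) gpdf_0_36 gQ_0_36.1 (by norm_num) (by norm_num)

lemma gpdf_0_45 : gpdf 0.45 ∈ Icc (0.3605269 : ℝ) 0.3605270 :=
  gpdf_mem (el := 0.903707077) (eh := 0.903707078) 8 9 (by decide) (by decide)
    (by norm_num [expS, Finset.sum_range_succ, Nat.factorial]) (by norm_num [expS, Finset.sum_range_succ, Nat.factorial])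
    (by norm_num) (by norm_num) (by norm_num)

lemma gQ_0_45 : gQ 0.45 ∈ Icc (0.3263552 : ℝ) 0.3263553 :=
  gQ_mem (tl := 0.435262914) (th := 0.435262915) 8 9 (by decide) (by decide) (by norm_num)
    (by norm_num [tailS, Finset.sum_range_succ, Nat.factorial]) (by norm_num [tailS, Finset.sum_range_succ, Nat.factorial])
    (by norm_num) (by norm_num) (by norm_num) (by norm_num)

lemma gh_0_45 : gh 0.45 ≤ 0.0770328 :=
  gh_le (by norm_num) gpdf_0_45 gQ_0_45.1 (by norm_num) (by norm_num)

lemma gpdf_0_52 : gpdf 0.52 ∈ Icc (0.3484925 : ℝ) 0.3484926 :=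
  gpdf_mem (el := 0.873541185) (eh := 0.873541186) 8 9 (by decide) (by decide)
    (by norm_num [expS, Finset.sum_range_succ, Nat.factorial]) (by norm_num [expS, Finset.sum_range_succ, Nat.factorial])
    (by norm_num) (by norm_num) (by norm_num)

lemma gQ_0_52 : gQ 0.52 ∈ Icc (0.3015317 : ℝ) 0.3015318 :=
  gQ_mem (tl := 0.497486032) (th := 0.497486033) 8 9 (by decide) (by decide) (by norm_num)
    (by norm_num [tailS, Finset.sum_range_succ, Nat.factorial]) (by norm_num [tailS, Finset.sum_range_succ, Nat.factorial])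
    (by norm_num) (by norm_num) (by norm_num) (by norm_num)

lemma gh_0_52 : gh 0.52 ≤ 0.0668047 :=
  gh_le (by norm_num) gpdf_0_52 gQ_0_52.1 (by norm_num) (by norm_num)

lemma gpdf_0_53 : gpdf 0.53 ∈ Icc (0.3466677 : ℝ) 0.3466678 :=
  gpdf_mem (el := 0.868967112) (eh := 0.868967113) 8 9 (by decide) (by decide)
    (by norm_num [expS, Finset.sum_range_succ, Nat.factorial]) (by norm_num [expS, Finset.sum_range_succ, Nat.factorial])
    (by norm_num) (by norm_num) (by norm_num)

lemma gQ_0_53 : gQ 0.53 ∈ Icc (0.2980559 : ℝ) 0.2980560 :=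
  gQ_mem (tl := 0.506198627) (th := 0.506198628) 8 9 (by decide) (by decide) (by norm_num)
    (by norm_num [tailS, Finset.sum_range_succ, Nat.factorial]) (by norm_num [tailS, Finset.sum_range_succ, Nat.factorial])
    (by norm_num) (by norm_num) (by norm_num) (by norm_num)

lemma gh_0_53 : gh 0.53 ≤ 0.0654156 :=
  gh_le (by norm_num) gpdf_0_53 gQ_0_53.1 (by norm_num) (by norm_num)

lemma gpdf_0_55 : gpdf 0.55 ∈ Icc (0.3429438 : ℝ) 0.3429439 :=
  gpdf_mem (el := 0.859632763) (eh := 0.859632764) 8 9 (by decide) (by decide)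
    (by norm_num [expS, Finset.sum_range_succ, Nat.factorial]) (by norm_num [expS, Finset.sum_range_succ, Nat.factorial])
    (by norm_num) (by norm_num) (by norm_num)

lemma gQ_0_55 : gQ 0.55 ∈ Icc (0.2911596 : ℝ) 0.2911597 :=
  gQ_mem (tl := 0.523485033) (th := 0.523485034) 8 9 (by decide) (by decide) (by norm_num)
    (by norm_num [tailS, Finset.sum_range_succ, Nat.factorial]) (by norm_num [tailS, Finset.sum_range_succ, Nat.factorial])
    (by norm_num) (by norm_num) (by norm_num) (by norm_num)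

lemma gh_0_55 : gh 0.55 ≤ 0.0626923 :=
  gh_le (by norm_num) gpdf_0_55 gQ_0_55.1 (by norm_num) (by norm_num)

lemma gpdf_0_595 : gpdf 0.595 ∈ Icc (0.3342215 : ℝ) 0.3342217 :=
  gpdf_mem (el := 0.837769312) (eh := 0.837769313) 8 9 (by decide) (by decide)
    (by norm_num [expS, Finset.sum_range_succ, Nat.factorial]) (by norm_num [expS, Finset.sum_range_succ, Nat.factorial])
    (by norm_num) (by norm_num) (by norm_num)

lemma gQ_0_595 : gQ 0.595 ∈ Icc (0.2759217 : ℝ) 0.2759218 :=
  gQ_mem (tl := 0.561680913) (th := 0.561680914) 8 9 (by decide) (by decide) (by norm_num)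
    (by norm_num [tailS, Finset.sum_range_succ, Nat.factorial]) (by norm_num [tailS, Finset.sum_range_succ, Nat.factorial])
    (by norm_num) (by norm_num) (by norm_num) (by norm_num)

lemma gh_0_595 : gh 0.595 ≤ 0.0568339 :=
  gh_le (by norm_num) gpdf_0_595 gQ_0_595.1 (by norm_num) (by norm_num)

lemma gpdf_0_605 : gpdf 0.605 ∈ Icc (0.3322222 : ℝ) 0.3322223 :=
  gpdf_mem (el := 0.832757746) (eh := 0.832757747) 8 9 (by decide) (by decide)
    (by norm_num [expS, Finset.sum_range_succ, Nat.factorial]) (by norm_num [expS, Finset.sum_range_succ, Nat.factorial])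
    (by norm_num) (by norm_num) (by norm_num)

lemma gQ_0_605 : gQ 0.605 ∈ Icc (0.2725894 : ℝ) 0.2725895 :=
  gQ_mem (tl := 0.570033593) (th := 0.570033594) 8 9 (by decide) (by decide) (by norm_num)
    (by norm_num [tailS, Finset.sum_range_succ, Nat.factorial]) (by norm_num [tailS, Finset.sum_range_succ, Nat.factorial])
    (by norm_num) (by norm_num) (by norm_num) (by norm_num)

lemma gh_0_605 : gh 0.605 ≤ 0.0555827 :=
  gh_le (by norm_num) gpdf_0_605 gQ_0_605.1 (by norm_num) (by norm_num)

lemma gpdf_0_655 : gpdf 0.655 ∈ Icc (0.3219203 : ℝ) 0.3219204 :=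
  gpdf_mem (el := 0.806934724) (eh := 0.806934725) 8 9 (by decide) (by decide)
    (by norm_num [expS, Finset.sum_range_succ, Nat.factorial]) (by norm_num [expS, Finset.sum_range_succ, Nat.factorial])
    (by norm_num) (by norm_num) (by norm_num)

lemma gQ_0_655 : gQ 0.655 ∈ Icc (0.2562338 : ℝ) 0.2562339 :=
  gQ_mem (tl := 0.611031056) (th := 0.611031057) 8 9 (by decide) (by decide) (by norm_num)
    (by norm_num [tailS, Finset.sum_range_succ, Nat.factorial]) (by norm_num [tailS, Finset.sum_range_succ, Nat.factorial])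
    (by norm_num) (by norm_num) (by norm_num) (by norm_num)

lemma gh_0_655 : gh 0.655 ≤ 0.0496039 :=
  gh_le (by norm_num) gpdf_0_655 gQ_0_655.1 (by norm_num) (by norm_num)

lemma gpdf_0_67 : gpdf 0.67 ∈ Icc (0.3187371 : ℝ) 0.3187372 :=
  gpdf_mem (el := 0.798955523) (eh := 0.798955524) 8 9 (by decide) (by decide)
    (by norm_num [expS, Finset.sum_range_succ, Nat.factorial]) (by norm_num [expS, Finset.sum_range_succ, Nat.factorial])
    (by norm_num) (by norm_num) (by norm_num)

lemma gQ_0_67 : gQ 0.67 ∈ Icc (0.2514288 : ℝ) 0.2514289 :=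
  gQ_mem (tl := 0.623075359) (th := 0.623075360) 8 9 (by decide) (by decide) (by norm_num)
    (by norm_num [tailS, Finset.sum_range_succ, Nat.factorial]) (by norm_num [tailS, Finset.sum_range_succ, Nat.factorial])
    (by norm_num) (by norm_num) (by norm_num) (by norm_num)

lemma gh_0_67 : gh 0.67 ≤ 0.0478998 :=
  gh_le (by norm_num) gpdf_0_67 gQ_0_67.1 (by norm_num) (by norm_num)

lemma gpdf_0_70 : gpdf 0.70 ∈ Icc (0.3122539 : ℝ) 0.3122540 :=
  gpdf_mem (el := 0.782704537) (eh := 0.782704539) 8 9 (by decide) (by decide)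
    (by norm_num [expS, Finset.sum_range_succ, Nat.factorial]) (by norm_num [expS, Finset.sum_range_succ, Nat.factorial])
    (by norm_num) (by norm_num) (by norm_num)

lemma gQ_0_70 : gQ 0.70 ∈ Icc (0.2419636 : ℝ) 0.2419637 :=
  gQ_mem (tl := 0.646801205) (th := 0.646801206) 8 9 (by decide) (by decide) (by norm_num)
    (by norm_num [tailS, Finset.sum_range_succ, Nat.factorial]) (by norm_num [tailS, Finset.sum_range_succ, Nat.factorial])
    (by norm_num) (by norm_num) (by norm_num) (by norm_num)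

lemma gh_0_70 : gh 0.70 ≤ 0.0446147 :=
  gh_le (by norm_num) gpdf_0_70 gQ_0_70.1 (by norm_num) (by norm_num)

lemma gpdf_1_04 : gpdf 1.04 ∈ Icc (0.2322970 : ℝ) 0.2322971 :=
  gpdf_mem (el := 0.582282239) (eh := 0.582282241) 10 11 (by decide) (by decide)
    (by norm_num [expS, Finset.sum_range_succ, Nat.factorial]) (by norm_num [expS, Finset.sum_range_succ, Nat.factorial])
    (by norm_num) (by norm_num) (by norm_num)

lemma gQ_1_04 : gQ 1.04 ∈ Icc (0.1491699 : ℝ) 0.1491700 :=
  gQ_mem (tl := 0.879400522) (th := 0.879400523) 10 11 (by decide) (by decide) (by norm_num)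
    (by norm_num [tailS, Finset.sum_range_succ, Nat.factorial]) (by norm_num [tailS, Finset.sum_range_succ, Nat.factorial])
    (by norm_num) (by norm_num) (by norm_num) (by norm_num)

lemma gh_1_04 : gh 1.04 ≤ 0.0179242 :=
  gh_le (by norm_num) gpdf_1_04 gQ_1_04.1 (by norm_num) (by norm_num)

lemma gpdf_1_44 : gpdf 1.44 ∈ Icc (0.1414599 : ℝ) 0.1414600 :=
  gpdf_mem (el := 0.354587548) (eh := 0.354587549) 14 15 (by decide) (by decide)
    (by norm_num [expS, Finset.sum_range_succ, Nat.factorial]) (by norm_num [expS, Finset.sum_range_succ, Nat.factorial])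
    (by norm_num) (by norm_num) (by norm_num)

lemma gQ_1_44 : gQ 1.44 ∈ Icc (0.0749336 : ℝ) 0.0749338 :=
  gQ_mem (tl := 1.065483207) (th := 1.065483208) 14 15 (by decide) (by decide) (by norm_num)
    (by norm_num [tailS, Finset.sum_range_succ, Nat.factorial]) (by norm_num [tailS, Finset.sum_range_succ, Nat.factorial])
    (by norm_num) (by norm_num) (by norm_num) (by norm_num)

lemma gh_1_44 : gh 1.44 ≤ 0.0047468 :=
  gh_le (by norm_num) gpdf_1_44 gQ_1_44.1 (by norm_num) (by norm_num)

lemma gpdf_1_48 : gpdf 1.48 ∈ Icc (0.1334353 : ℝ) 0.1334354 :=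
  gpdf_mem (el := 0.334472705) (eh := 0.334472706) 14 15 (by decide) (by decide)
    (by norm_num [expS, Finset.sum_range_succ, Nat.factorial]) (by norm_num [expS, Finset.sum_range_succ, Nat.factorial])
    (by norm_num) (by norm_num) (by norm_num)

lemma gQ_1_48 : gQ 1.48 ∈ Icc (0.0694366 : ℝ) 0.0694367 :=
  gQ_mem (tl := 1.079262333) (th := 1.079262334) 14 15 (by decide) (by decide) (by norm_num)
    (by norm_num [tailS, Finset.sum_range_succ, Nat.factorial]) (by norm_num [tailS, Finset.sum_range_succ, Nat.factorial])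
    (by norm_num) (by norm_num) (by norm_num) (by norm_num)

lemma gh_1_48 : gh 1.48 ≤ 0.0040924 :=
  gh_le (by norm_num) gpdf_1_48 gQ_1_48.1 (by norm_num) (by norm_num)

lemma gpdf_1_56 : gpdf 1.56 ∈ Icc (0.1181572 : ℝ) 0.1181573 :=
  gpdf_mem (el := 0.296176416) (eh := 0.296176417) 14 15 (by decide) (by decide)
    (by norm_num [expS, Finset.sum_range_succ, Nat.factorial]) (by norm_num [expS, Finset.sum_range_succ, Nat.factorial])
    (by norm_num) (by norm_num) (by norm_num)

lemma gQ_1_56 : gQ 1.56 ∈ Icc (0.0593799 : ℝ) 0.0593800 :=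
  gQ_mem (tl := 1.104470699) (th := 1.104470700) 14 15 (by decide) (by decide) (by norm_num)
    (by norm_num [tailS, Finset.sum_range_succ, Nat.factorial]) (by norm_num [tailS, Finset.sum_range_succ, Nat.factorial])
    (by norm_num) (by norm_num) (by norm_num) (by norm_num)

lemma gh_1_56 : gh 1.56 ≤ 0.0030160 :=
  gh_le (by norm_num) gpdf_1_56 gQ_1_56.1 (by norm_num) (by norm_num)

lemma gpdf_1_62 : gpdf 1.62 ∈ Icc (0.1074060 : ℝ) 0.1074061 :=
  gpdf_mem (el := 0.269227104) (eh := 0.269227105) 14 15 (by decide) (by decide)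
    (by norm_num [expS, Finset.sum_range_succ, Nat.factorial]) (by norm_num [expS, Finset.sum_range_succ, Nat.factorial])
    (by norm_num) (by norm_num) (by norm_num)

lemma gQ_1_62 : gQ 1.62 ∈ Icc (0.0526161 : ℝ) 0.0526162 :=
  gQ_mem (tl := 1.121425036) (th := 1.121425037) 14 15 (by decide) (by decide) (by norm_num)
    (by norm_num [tailS, Finset.sum_range_succ, Nat.factorial]) (by norm_num [tailS, Finset.sum_range_succ, Nat.factorial])
    (by norm_num) (by norm_num) (by norm_num) (by norm_num)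

lemma gh_1_62 : gh 1.62 ≤ 0.0023810 :=
  gh_le (by norm_num) gpdf_1_62 gQ_1_62.1 (by norm_num) (by norm_num)

lemma gpdf_1_67 : gpdf 1.67 ∈ Icc (0.0989254 : ℝ) 0.0989255 :=
  gpdf_mem (el := 0.247969382) (eh := 0.247969383) 16 17 (by decide) (by decide)
    (by norm_num [expS, Finset.sum_range_succ, Nat.factorial]) (by norm_num [expS, Finset.sum_range_succ, Nat.factorial])
    (by norm_num) (by norm_num) (by norm_num)

lemma gQ_1_67 : gQ 1.67 ∈ Icc (0.0474596 : ℝ) 0.0474597 :=
  gQ_mem (tl := 1.134350357) (th := 1.134350358) 16 17 (by decide) (by decide) (by norm_num)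
    (by norm_num [tailS, Finset.sum_range_succ, Nat.factorial]) (by norm_num [tailS, Finset.sum_range_succ, Nat.factorial])
    (by norm_num) (by norm_num) (by norm_num) (by norm_num)

lemma gh_1_67 : gh 1.67 ≤ 0.0019457 :=
  gh_le (by norm_num) gpdf_1_67 gQ_1_67.1 (by norm_num) (by norm_num)

lemma gpdf_1_69 : gpdf 1.69 ∈ Icc (0.0956567 : ℝ) 0.0956568 :=
  gpdf_mem (el := 0.239776029) (eh := 0.239776030) 16 17 (by decide) (by decide)
    (by norm_num [expS, Finset.sum_range_succ, Nat.factorial]) (by norm_num [expS, Finset.sum_range_succ, Nat.factorial])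
    (by norm_num) (by norm_num) (by norm_num)

lemma gQ_1_69 : gQ 1.69 ∈ Icc (0.0455139 : ℝ) 0.0455140 :=
  gQ_mem (tl := 1.139227514) (th := 1.139227515) 16 17 (by decide) (by decide) (by norm_num)
    (by norm_num [tailS, Finset.sum_range_succ, Nat.factorial]) (by norm_num [tailS, Finset.sum_range_succ, Nat.factorial])
    (by norm_num) (by norm_num) (by norm_num) (by norm_num)

lemma gh_1_69 : gh 1.69 ≤ 0.0017925 :=
  gh_le (by norm_num) gpdf_1_69 gQ_1_69.1 (by norm_num) (by norm_num)

lemma gpdf_1_71 : gpdf 1.71 ∈ Icc (0.0924591 : ℝ) 0.0924592 :=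
  gpdf_mem (el := 0.231760678) (eh := 0.231760679) 16 17 (by decide) (by decide)
    (by norm_num [expS, Finset.sum_range_succ, Nat.factorial]) (by norm_num [expS, Finset.sum_range_succ, Nat.factorial])
    (by norm_num) (by norm_num) (by norm_num)

lemma gQ_1_71 : gQ 1.71 ∈ Icc (0.0436329 : ℝ) 0.0436330 :=
  gQ_mem (tl := 1.143942584) (th := 1.143942585) 16 17 (by decide) (by decide) (by norm_num)
    (by norm_num [tailS, Finset.sum_range_succ, Nat.factorial]) (by norm_num [tailS, Finset.sum_range_succ, Nat.factorial])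
    (by norm_num) (by norm_num) (by norm_num) (by norm_num)

lemma gh_1_71 : gh 1.71 ≤ 0.0016502 :=
  gh_le (by norm_num) gpdf_1_71 gQ_1_71.1 (by norm_num) (by norm_num)

lemma gpdf_1_74 : gpdf 1.74 ∈ Icc (0.0877960 : ℝ) 0.0877961 :=
  gpdf_mem (el := 0.220072112) (eh := 0.220072113) 16 17 (by decide) (by decide)
    (by norm_num [expS, Finset.sum_range_succ, Nat.factorial]) (by norm_num [expS, Finset.sum_range_succ, Nat.factorial])
    (by norm_num) (by norm_num) (by norm_num)

lemma gQ_1_74 : gQ 1.74 ∈ Icc (0.0409295 : ℝ) 0.0409296 :=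
  gQ_mem (tl := 1.150719072) (th := 1.150719073) 16 17 (by decide) (by decide) (by norm_num)
    (by norm_num [tailS, Finset.sum_range_succ, Nat.factorial]) (by norm_num [tailS, Finset.sum_range_succ, Nat.factorial])
    (by norm_num) (by norm_num) (by norm_num) (by norm_num)

lemma gh_1_74 : gh 1.74 ≤ 0.0014556 :=
  gh_le (by norm_num) gpdf_1_74 gQ_1_74.1 (by norm_num) (by norm_num)

lemma gpdf_1_82 : gpdf 1.82 ∈ Icc (0.0761432 : ℝ) 0.0761433 :=
  gpdf_mem (el := 0.190862882) (eh := 0.190862883) 16 17 (by decide) (by decide)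
    (by norm_num [expS, Finset.sum_range_succ, Nat.factorial]) (by norm_num [expS, Finset.sum_range_succ, Nat.factorial])
    (by norm_num) (by norm_num) (by norm_num)

lemma gQ_1_82 : gQ 1.82 ∈ Icc (0.0343795 : ℝ) 0.0343796 :=
  gQ_mem (tl := 1.167137504) (th := 1.167137505) 16 17 (by decide) (by decide) (by norm_num)
    (by norm_num [tailS, Finset.sum_range_succ, Nat.factorial]) (by norm_num [tailS, Finset.sum_range_succ, Nat.factorial])
    (by norm_num) (by norm_num) (by norm_num) (by norm_num)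

lemma gh_1_82 : gh 1.82 ≤ 0.0010335 :=
  gh_le (by norm_num) gpdf_1_82 gQ_1_82.1 (by norm_num) (by norm_num)

lemma gpdf_1_86 : gpdf 1.86 ∈ Icc (0.0707403 : ℝ) 0.0707404 :=
  gpdf_mem (el := 0.177319870) (eh := 0.177319871) 16 17 (by decide) (by decide)
    (by norm_num [expS, Finset.sum_range_succ, Nat.factorial]) (by norm_num [expS, Finset.sum_range_succ, Nat.factorial])
    (by norm_num) (by norm_num) (by norm_num)

lemma gQ_1_86 : gQ 1.86 ∈ Icc (0.0314427 : ℝ) 0.0314428 :=
  gQ_mem (tl := 1.174498818) (th := 1.174498819) 16 17 (by decide) (by decide) (by norm_num)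
    (by norm_num [tailS, Finset.sum_range_succ, Nat.factorial]) (by norm_num [tailS, Finset.sum_range_succ, Nat.factorial])
    (by norm_num) (by norm_num) (by norm_num) (by norm_num)

lemma gh_1_86 : gh 1.86 ≤ 0.0008671 :=
  gh_le (by norm_num) gpdf_1_86 gQ_1_86.1 (by norm_num) (by norm_num)

lemma gpdf_1_87 : gpdf 1.87 ∈ Icc (0.0694333 : ℝ) 0.0694334 :=
  gpdf_mem (el := 0.174043501) (eh := 0.174043502) 16 17 (by decide) (by decide)
    (by norm_num [expS, Finset.sum_range_succ, Nat.factorial]) (by norm_num [expS, Finset.sum_range_succ, Nat.factorial])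
    (by norm_num) (by norm_num) (by norm_num)

lemma gQ_1_87 : gQ 1.87 ∈ Icc (0.0307419 : ℝ) 0.0307420 :=
  gQ_mem (tl := 1.176255599) (th := 1.176255600) 16 17 (by decide) (by decide) (by norm_num)
    (by norm_num [tailS, Finset.sum_range_succ, Nat.factorial]) (by norm_num [tailS, Finset.sum_range_succ, Nat.factorial])
    (by norm_num) (by norm_num) (by norm_num) (by norm_num)

lemma gh_1_87 : gh 1.87 ≤ 0.0008295 :=
  gh_le (by norm_num) gpdf_1_87 gQ_1_87.1 (by norm_num) (by norm_num)

lemma gpdf_1_93 : gpdf 1.93 ∈ Icc (0.0619524 : ℝ) 0.0619525 :=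
  gpdf_mem (el := 0.155291699) (eh := 0.155291700) 18 19 (by decide) (by decide)
    (by norm_num [expS, Finset.sum_range_succ, Nat.factorial]) (by norm_num [expS, Finset.sum_range_succ, Nat.factorial])
    (by norm_num) (by norm_num) (by norm_num)

lemma gQ_1_93 : gQ 1.93 ∈ Icc (0.0268034 : ℝ) 0.0268035 :=
  gQ_mem (tl := 1.186127929) (th := 1.186127930) 18 19 (by decide) (by decide) (by norm_num)
    (by norm_num [tailS, Finset.sum_range_succ, Nat.factorial]) (by norm_num [tailS, Finset.sum_range_succ, Nat.factorial])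
    (by norm_num) (by norm_num) (by norm_num) (by norm_num)

lemma gh_1_93 : gh 1.93 ≤ 0.0006333 :=
  gh_le (by norm_num) gpdf_1_93 gQ_1_93.1 (by norm_num) (by norm_num)

lemma gpdf_2_03 : gpdf 2.03 ∈ Icc (0.0508239 : ℝ) 0.0508240 :=
  gpdf_mem (el := 0.127396628) (eh := 0.127396629) 18 19 (by decide) (by decide)
    (by norm_num [expS, Finset.sum_range_succ, Nat.factorial]) (by norm_num [expS, Finset.sum_range_succ, Nat.factorial])
    (by norm_num) (by norm_num) (by norm_num)

lemma gQ_2_03 : gQ 2.03 ∈ Icc (0.0211782 : ℝ) 0.0211783 :=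
  gQ_mem (tl := 1.200228087) (th := 1.200228088) 18 19 (by decide) (by decide) (by norm_num)
    (by norm_num [tailS, Finset.sum_range_succ, Nat.factorial]) (by norm_num [tailS, Finset.sum_range_succ, Nat.factorial])
    (by norm_num) (by norm_num) (by norm_num) (by norm_num)

lemma gh_2_03 : gh 2.03 ≤ 0.0003981 :=
  gh_le (by norm_num) gpdf_2_03 gQ_2_03.1 (by norm_num) (by norm_num)

lemma gpdf_2_13 : gpdf 2.13 ∈ Icc (0.0412795 : ℝ) 0.0412796 :=
  gpdf_mem (el := 0.103472437) (eh := 0.103472439) 18 19 (by decide) (by decide)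
    (by norm_num [expS, Finset.sum_range_succ, Nat.factorial]) (by norm_num [expS, Finset.sum_range_succ, Nat.factorial])
    (by norm_num) (by norm_num) (by norm_num)

lemma gQ_2_13 : gQ 2.13 ∈ Icc (0.0165858 : ℝ) 0.0165859 :=
  gQ_mem (tl := 1.211739685) (th := 1.211739686) 18 19 (by decide) (by decide) (by norm_num)
    (by norm_num [tailS, Finset.sum_range_succ, Nat.factorial]) (by norm_num [tailS, Finset.sum_range_succ, Nat.factorial])
    (by norm_num) (by norm_num) (by norm_num) (by norm_num)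

lemma gh_2_13 : gh 2.13 ≤ 0.0002457 :=
  gh_le (by norm_num) gpdf_2_13 gQ_2_13.1 (by norm_num) (by norm_num)

end Vale.Agent.P226
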