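import Vale.Agent.P226.Feas
import Vale.Agent.P226.Num

/-!
The linear bounds which hold for every cell.
-/

open Set

namespace Vale.Agent.P226

/-- The mass separating small cells from large ones. -/
noncomputable abbrev muStar : ℝ := gQ 1.04

lemma muStar_lo : (0.1491699 : ℝ) ≤ muStar := gQ_1_04.1

lemma muStar_hi : muStar ≤ 0.14918 := by
  have := gQ_1_04.2
  unfold muStar
  linarith

lemma Feas.le_rs {m s : ℝ} (h : Feas m s) (hm : m ≤ muStar) : s ≤ 0.2404 * m :=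
  h.le_rho (by norm_num) (by norm_num) hm (by linarith [gh_1_04, gQ_1_04.1])

lemma Feas.phiBound {m s : ℝ} (h : Feas m s) (c A B a b q : ℝ) (hA : A = c) (hp : gpdf c ∈ Icc a b)
    (hc : 0 ≤ c) (hq : q ≤ gQ c) (hB : b - c * q ≤ B) : CapBound m s A B :=
  h.capBound hA (by linarith [hp.2, mul_le_mul_of_nonneg_left hq hc])

/-- The line `0.5744 m - 0.0505`. -/
lemma Feas.line6 {m s : ℝ} (h : Feas m s) (hl : muStar ≤ m) (hr : m ≤ 1) :
    s ≤ 0.5744 * m + (-0.0505) := by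
  have hs := h.nonneg
  rcases le_total m (gQ 0.595) with h1 | h1
  · refine h.psi_seg (s₀ := 0.0492) (by norm_num) (by norm_num) hl h1 ?_ ?_
    · linarith [gh_0_595, gQ_0_595.1]
    · linarith [gh_1_04, gQ_1_04.1]
  rcases le_total m (gQ 0.53) with h2 | h2
  · refine h.psi_seg (s₀ := 0.1133) (by norm_num) (by norm_num) h1 h2 ?_ ?_
    · linarith [gh_0_53, gQ_0_53.1]
    · linarith [gh_0_595, gQ_0_595.1]
  have hq := gQ_0_53.1
  exact (h.phiBound 0.53 0.53 0.1887 _ _ _ rfl gpdf_0_53 (by norm_num) hq (by norm_num)).le_line hs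
    (l := 0.297) (r := 1) (by norm_num) (by norm_num at hq; linarith) hr (by norm_num) (by norm_num)

/-- A line above the square. -/
lemma Feas.sq6 {m s : ℝ} (h : Feas m s) (hl : muStar ≤ m) (hr : m ≤ 1) :
    s ^ 2 ≤ 0.0888 * m + (-0.01195) := by
  have hs := h.nonneg
  have hlo := muStar_lo
  rcases le_total m 0.2963 with h1 | h1
  · exact sq_le_line hs (h.line6 hl hr) (l := 0.14916) (r := 0.2963) (by norm_num)
      (by linarith) h1 (by norm_num) (by norm_num)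
  rcases le_total m 0.3082 with h2 | h2
  · exact (h.phiBound 0.55 0.55 0.182808 _ _ _ rfl gpdf_0_55 (by norm_num) gQ_0_55.1
      (by norm_num)).sq_le_line hs (by norm_num) h1 h2 (by norm_num) (by norm_num)
  rcases le_total m 0.3663 with h3 | h3
  · exact (h.phiBound 0.45 0.45 0.213669 _ _ _ rfl gpdf_0_45 (by norm_num) gQ_0_45.1
      (by norm_num)).sq_le_line hs (by norm_num) h2 h3 (by norm_num) (by norm_num)
  exact (h.phiBound 0.23 0.23 0.294450 _ _ _ rfl gpdf_0_23 (by norm_num) gQ_0_23.1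
    (by norm_num)).sq_le_line hs (by norm_num) h3 hr (by norm_num) (by norm_num)

lemma Feas.tangent {m s : ℝ} (h : Feas m s) (hl : muStar ≤ m) (c α β a b q qh : ℝ)
    (hc : c ∈ Icc (0:ℝ) 1) (hp : gpdf c ∈ Icc a b) (hq : gQ c ∈ Icc q qh)
    (hα : 2 * (c * b) ≤ α) (hβ : b ^ 2 - 2 * (c * a) * q ≤ β) (hcb : c * b ≤ 1.04 * 0.2322)
    (hm : 0 ≤ q) : s ≤ α * m + β := by
  obtain ⟨u, hu, -, h2⟩ := h.ex
  have hub : u ≤ 1.04 := gQ_le_iff.1 (hu ▸ hl)
  have hp104 : (0.2322 : ℝ) ≤ gpdf 1.04 := le_trans (by norm_num) gpdf_1_04.1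
  have h3 := gpdf_sq_le_tangent hc (by norm_num) hub (by
    have := mul_le_mul_of_nonneg_left hp.2 hc.1
    nlinarith)
  have hmm : 0 ≤ m := le_trans (gQ_nonneg _) hl
  rw [hu] at h3
  have e1 : 2 * (c * gpdf c) * m ≤ α * m :=
    mul_le_mul_of_nonneg_right (by nlinarith [hc.1, hp.2]) hmm
  have e2 : gpdf c ^ 2 ≤ b ^ 2 := pow_le_pow_left₀ (gpdf_pos c).le hp.2 2
  have e3 : 2 * (c * a) * q ≤ 2 * (c * gpdf c) * gQ c :=
    mul_le_mul (by nlinarith [hc.1, hp.1]) hq.1 hm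
      (by nlinarith [mul_nonneg hc.1 (gpdf_pos c).le])
  linarith

lemma Feas.tan316 {m s : ℝ} (h : Feas m s) (hl : muStar ≤ m) : s ≤ 0.2399 * m + 0.0539 :=
  h.tangent hl 0.316 _ _ _ _ _ _ ⟨by norm_num, by norm_num⟩ gpdf_0_316 gQ_0_316
    (by norm_num) (by norm_num) (by norm_num) (by norm_num)

lemma Feas.tan36 {m s : ℝ} (h : Feas m s) (hl : muStar ≤ m) : s ≤ 0.2693 * m + 0.04305 :=
  h.tangent hl 0.36 _ _ _ _ _ _ ⟨by norm_num, by norm_num⟩ gpdf_0_36 gQ_0_36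
    (by norm_num) (by norm_num) (by norm_num) (by norm_num)

lemma Feas.tan52 {m s : ℝ} (h : Feas m s) (hl : muStar ≤ m) : s ≤ 0.3625 * m + 0.01219 :=
  h.tangent hl 0.52 _ _ _ _ _ _ ⟨by norm_num, by norm_num⟩ gpdf_0_52 gQ_0_52
    (by norm_num) (by norm_num) (by norm_num) (by norm_num)

end Vale.Agent.P226
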