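import Vale.Agent.P226.Probit

/-!
Rational brackets for the normal density and tail by alternating series.
-/

open MeasureTheory ProbabilityTheory Set

namespace Vale.Agent.P226

/-- Partial sums of the series of `exp (-y)`. -/
noncomputable def expS (n : ℕ) (y : ℝ) : ℝ :=
  ∑ i ∈ Finset.range n, (-1) ^ i * y ^ i / (i.factorial : ℝ)

/-- Partial sums of the series of `∫_0^u exp (-x^2/2)`. -/
noncomputable def tailS (n : ℕ) (u : ℝ) : ℝ :=
  ∑ i ∈ Finset.range n, (-1) ^ i * u ^ (2 * i + 1) / (2 ^ i * (i.factorial : ℝ) * (2 * i + 1))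

lemma hasDerivAt_expS (n : ℕ) (y : ℝ) : HasDerivAt (expS (n + 1)) (-expS n y) y := by
  induction n with
  | zero =>
    have h : expS 1 = fun _ : ℝ => (1:ℝ) := by
      funext z
      simp [expS]
    rw [h]
    simpa [expS] using hasDerivAt_const y (1:ℝ)
  | succ n ih =>
    have h : expS (n + 2) = fun z => expS (n + 1) z +
        (-1) ^ (n + 1) * z ^ (n + 1) / ((n + 1).factorial : ℝ) := by
      funext z
      exact Finset.sum_range_succ _ _
    rw [h]
    refine (ih.add (((hasDerivAt_pow (n + 1) y).const_mul ((-1:ℝ) ^ (n + 1))).div_const _)).congr_deriv ?_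
    rw [show expS (n + 1) y = expS n y + (-1) ^ n * y ^ n / (n.factorial : ℝ) from
      Finset.sum_range_succ _ _]
    have hne : ((n.factorial : ℕ) : ℝ) ≠ 0 := Nat.cast_ne_zero.2 n.factorial_ne_zero
    have hne2 : ((n:ℝ) + 1) ≠ 0 := by positivity
    rw [Nat.factorial_succ]
    push_cast
    try simp only [Nat.add_sub_cancel]
    field_simp
    ring

lemma expS_alternate (n : ℕ) : ∀ y : ℝ, 0 ≤ y → 0 ≤ (-1) ^ n * (Real.exp (-y) - expS n y) := by
  induction n with
  | zero =>
    intro y _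
    simp [expS, (Real.exp_pos _).le]
  | succ n ih =>
    intro y hy
    set F : ℝ → ℝ := fun z => (-1) ^ (n + 1) * (Real.exp (-z) - expS (n + 1) z)
    have hF : ∀ z, HasDerivAt F ((-1) ^ n * (Real.exp (-z) - expS n z)) z := by
      intro z
      refine (((hasDerivAt_neg z).exp.sub (hasDerivAt_expS n z)).const_mul ((-1:ℝ) ^ (n + 1))).congr_deriv ?_
      ring
    have hm : MonotoneOn F (Ici 0) := by
      refine monotoneOn_of_deriv_nonneg (convex_Ici 0)
        (continuous_iff_continuousAt.2 fun z => (hF z).continuousAt).continuousOn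
        (fun z _ => (hF z).differentiableAt.differentiableWithinAt) ?_
      intro z hz
      rw [interior_Ici] at hz
      rw [(hF z).deriv]
      exact ih z hz.out.le
    have h0 : F 0 = 0 := by
      have : expS (n + 1) 0 = 1 := by
        simp [expS, Finset.sum_range_succ']
      simp [F, this]
    have := hm self_mem_Ici (mem_Ici.2 hy) hy
    rw [h0] at this
    exact this

lemma expS_le_exp {y : ℝ} (hy : 0 ≤ y) (n : ℕ) (hn : Even n) : expS n y ≤ Real.exp (-y) := by
  have := expS_alternate n y hy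
  rw [hn.neg_one_pow] at this
  linarith

lemma exp_le_expS {y : ℝ} (hy : 0 ≤ y) (n : ℕ) (hn : Odd n) : Real.exp (-y) ≤ expS n y := by
  have := expS_alternate n y hy
  rw [hn.neg_one_pow] at this
  linarith

lemma hasDerivAt_tailS (n : ℕ) (u : ℝ) : HasDerivAt (tailS n) (expS n (u ^ 2 / 2)) u := by
  induction n with
  | zero =>
    have h : tailS 0 = fun _ : ℝ => (0:ℝ) := by
      funext z
      simp [tailS]
    rw [h]
    simpa [expS] using hasDerivAt_const u (0:ℝ)
  | succ n ih =>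
    have h : tailS (n + 1) = fun z => tailS n z +
        (-1) ^ n * z ^ (2 * n + 1) / (2 ^ n * (n.factorial : ℝ) * (2 * n + 1)) := by
      funext z
      exact Finset.sum_range_succ _ _
    rw [h]
    refine (ih.add (((hasDerivAt_pow (2 * n + 1) u).const_mul ((-1:ℝ) ^ n)).div_const _)).congr_deriv ?_
    rw [show expS (n + 1) (u ^ 2 / 2) =
        expS n (u ^ 2 / 2) + (-1) ^ n * (u ^ 2 / 2) ^ n / (n.factorial : ℝ) from
      Finset.sum_range_succ _ _]
    have hne : ((n.factorial : ℕ) : ℝ) ≠ 0 := Nat.cast_ne_zero.2 n.factorial_ne_zero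
    have hne2 : (2 * (n:ℝ) + 1) ≠ 0 := by positivity
    push_cast
    try simp only [Nat.add_sub_cancel]
    have hk : (u ^ 2 / 2) ^ n = u ^ (2 * n) / 2 ^ n := by rw [div_pow, pow_mul]
    rw [hk]
    field_simp
    try ring

lemma half_sub_gQ_alternate (n : ℕ) {u : ℝ} (hu : 0 ≤ u) :
    0 ≤ (-1) ^ n * (1 / 2 - gQ u - (Real.sqrt (2 * Real.pi))⁻¹ * tailS n u) := by
  set c : ℝ := (Real.sqrt (2 * Real.pi))⁻¹ with hc
  set F : ℝ → ℝ := fun z => (-1) ^ n * (1 / 2 - gQ z - c * tailS n z)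
  have hF : ∀ z, HasDerivAt F ((-1) ^ n * (gpdf z - c * expS n (z ^ 2 / 2))) z := by
    intro z
    refine ((((hasDerivAt_gQ z).const_sub (1 / 2)).sub ((hasDerivAt_tailS n z).const_mul c)).const_mul ((-1:ℝ) ^ n)).congr_deriv ?_
    ring
  have hm : MonotoneOn F (Ici 0) := by
    refine monotoneOn_of_deriv_nonneg (convex_Ici 0)
      (continuous_iff_continuousAt.2 fun z => (hF z).continuousAt).continuousOn
      (fun z _ => (hF z).differentiableAt.differentiableWithinAt) ?_
    intro z _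
    rw [(hF z).deriv]
    have h := expS_alternate n (z ^ 2 / 2) (by positivity)
    have h2 : gpdf z = c * Real.exp (-(z ^ 2 / 2)) := by
      rw [hc, gpdf, neg_div]
    rw [h2, show (-1:ℝ) ^ n * (c * Real.exp (-(z ^ 2 / 2)) - c * expS n (z ^ 2 / 2)) =
      c * ((-1) ^ n * (Real.exp (-(z ^ 2 / 2)) - expS n (z ^ 2 / 2))) by ring]
    exact mul_nonneg (by positivity) h
  have h0 : F 0 = 0 := by
    simp [F, tailS, gQ_zero]
  have := hm self_mem_Ici (mem_Ici.2 hu) hu
  rw [h0] at this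
  exact this

lemma invSqrtTwoPi_lo : 0.39894228 ≤ (Real.sqrt (2 * Real.pi))⁻¹ := by
  have h : Real.sqrt (2 * Real.pi) ≤ 1 / 0.39894228 := by
    rw [Real.sqrt_le_left (by norm_num)]
    nlinarith [Real.pi_lt_d20]
  have hpos : 0 < Real.sqrt (2 * Real.pi) := by positivity
  rw [le_inv_comm₀ (by norm_num) hpos]
  simpa using h

lemma invSqrtTwoPi_hi : (Real.sqrt (2 * Real.pi))⁻¹ ≤ 0.3989422805 := by
  have h : 1 / 0.3989422805 ≤ Real.sqrt (2 * Real.pi) := by
    refine Real.le_sqrt_of_sq_le ?_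
    nlinarith [Real.pi_gt_d20]
  have hpos : 0 < Real.sqrt (2 * Real.pi) := by positivity
  rw [inv_le_comm₀ hpos (by norm_num)]
  simpa using h

lemma gpdf_mem {u el eh a b : ℝ} (n k : ℕ) (hn : Even n) (hk : Odd k)
    (h1 : el ≤ expS n (u ^ 2 / 2)) (h2 : expS k (u ^ 2 / 2) ≤ eh) (he : 0 ≤ el)
    (ha : a ≤ 0.39894228 * el) (hb : 0.3989422805 * eh ≤ b) : gpdf u ∈ Icc a b := by
  have hy : 0 ≤ u ^ 2 / 2 := by positivity
  have l1 : el ≤ Real.exp (-u ^ 2 / 2) := by
    rw [neg_div]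
    exact h1.trans (expS_le_exp hy n hn)
  have u1 : Real.exp (-u ^ 2 / 2) ≤ eh := by
    rw [neg_div]
    exact (exp_le_expS hy k hk).trans h2
  constructor
  · exact ha.trans (mul_le_mul invSqrtTwoPi_lo l1 he (by positivity))
  · exact (mul_le_mul invSqrtTwoPi_hi u1 (Real.exp_pos _).le (by norm_num)).trans hb

lemma gQ_mem {u tl th a b : ℝ} (n k : ℕ) (hn : Even n) (hk : Odd k) (hu : 0 ≤ u)
    (h1 : tl ≤ tailS n u) (h2 : tailS k u ≤ th) (he : 0 ≤ tl) (he' : 0 ≤ th)
    (ha : a ≤ 1 / 2 - 0.3989422805 * th) (hb : 1 / 2 - 0.39894228 * tl ≤ b) : gQ u ∈ Icc a b := by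
  have e1 := half_sub_gQ_alternate n hu
  have e2 := half_sub_gQ_alternate k hu
  rw [hn.neg_one_pow] at e1
  rw [hk.neg_one_pow] at e2
  set c : ℝ := (Real.sqrt (2 * Real.pi))⁻¹
  have hc : 0 ≤ c := by positivity
  have b1 : 0.39894228 * tl ≤ c * tailS n u := mul_le_mul invSqrtTwoPi_lo h1 he hc
  have b2 : c * tailS k u ≤ 0.3989422805 * th :=
    (mul_le_mul_of_nonneg_left h2 hc).trans (mul_le_mul_of_nonneg_right invSqrtTwoPi_hi he')
  constructor <;> linarith

/-- Upper bound on `gh` from brackets. -/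
lemma gh_le {u a b ql r : ℝ} (hu : 0 ≤ u) (hp : gpdf u ∈ Icc a b) (hq : ql ≤ gQ u)
    (hd : 0 ≤ b - u * ql) (h : b * (b - u * ql) ≤ r) : gh u ≤ r := by
  refine le_trans ?_ h
  unfold gh
  refine (mul_le_mul_of_nonneg_left ?_ (gpdf_pos u).le).trans (mul_le_mul_of_nonneg_right hp.2 hd)
  have := mul_le_mul_of_nonneg_left hq hu
  linarith [hp.2]

end Vale.Agent.P226
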