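import Vale.Agent.P226.Gain
import Vale.Agent.P226.Series

/-!
Linear upper bounds for the moment of a cell in terms of its mass, from the cone bounds.
-/

open MeasureTheory ProbabilityTheory Set
open scoped RealInnerProductSpace

namespace Vale.Agent.P226

lemma integral_sqrt_one_sub_sq_half : ∫ s in (0 : ℝ)..1, Real.sqrt (1 - s ^ 2) = Real.pi / 4 := by
  have hc : Continuous fun s : ℝ => Real.sqrt (1 - s ^ 2) := by fun_prop
  have h1 := intervalIntegral.integral_add_adjacent_intervals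
    (hc.intervalIntegrable (μ := volume) (-1) 0) (hc.intervalIntegrable (μ := volume) 0 1)
  rw [integral_sqrt_one_sub_sq] at h1
  have h2 : ∫ s in (-1 : ℝ)..0, Real.sqrt (1 - s ^ 2) = ∫ s in (0 : ℝ)..1, Real.sqrt (1 - s ^ 2) := by
    have h := intervalIntegral.integral_comp_neg (a := (0 : ℝ)) (b := 1)
      fun s : ℝ => Real.sqrt (1 - s ^ 2)
    simp only [neg_sq, neg_zero] at h
    exact h.symm
  linarith

lemma integral_mul_sqrt_one_sub_sq : ∫ s in (0 : ℝ)..1, s * Real.sqrt (1 - s ^ 2) = 1 / 3 := by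
  have hd : ∀ s ∈ Ioo (0 : ℝ) 1,
      HasDerivAt (fun s => -(1 / 3) * ((1 - s ^ 2) * Real.sqrt (1 - s ^ 2)))
        (s * Real.sqrt (1 - s ^ 2)) s := by
    intro s hs
    have hp : 0 < 1 - s ^ 2 := by nlinarith [hs.1, hs.2]
    have h := (hasDerivAt_pow 2 s).const_sub (1 : ℝ)
    refine ((h.mul (h.sqrt hp.ne')).const_mul (-(1 / 3 : ℝ))).congr_deriv ?_
    have e := Real.mul_self_sqrt hp.le
    have hne : Real.sqrt (1 - s ^ 2) ≠ 0 := (Real.sqrt_pos.2 hp).ne'
    field_simp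
    push_cast
    simp only [Nat.add_one_sub_one, pow_one]
    rw [Real.sq_sqrt hp.le]
    ring
  rw [intervalIntegral.integral_eq_sub_of_hasDerivAt_of_le zero_le_one (by fun_prop) hd
    (Continuous.intervalIntegrable (by fun_prop) _ _)]
  norm_num

/-- The tail integral in the four dimensional cap bound. -/
lemma cap4_integral_le {t : ℝ} (ht0 : 0 ≤ t) (ht1 : t < 1) :
    2 / Real.pi * ∫ s in t..1, (s - t) * Real.sqrt (1 - s ^ 2) ≤
      2 / (3 * Real.pi) - t / 2 + 2 / Real.pi * (t ^ 2 / 2 - t ^ 4 / 24 - t ^ 6 / 240) := by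
  have hc : Continuous fun s : ℝ => (s - t) * Real.sqrt (1 - s ^ 2) := by fun_prop
  have hadd := intervalIntegral.integral_add_adjacent_intervals
    (hc.intervalIntegrable (μ := volume) 0 t) (hc.intervalIntegrable (μ := volume) t 1)
  have h01 : ∫ s in (0 : ℝ)..1, (s - t) * Real.sqrt (1 - s ^ 2) = 1 / 3 - t * (Real.pi / 4) := by
    simp only [sub_mul]
    rw [intervalIntegral.integral_sub (Continuous.intervalIntegrable (by fun_prop) _ _)
      (Continuous.intervalIntegrable (by fun_prop) _ _), intervalIntegral.integral_const_mul,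
      integral_mul_sqrt_one_sub_sq, integral_sqrt_one_sub_sq_half]
  have h0t : -(t ^ 2 / 2 - t ^ 4 / 24 - t ^ 6 / 240) ≤
      ∫ s in (0 : ℝ)..t, (s - t) * Real.sqrt (1 - s ^ 2) := by
    have hval : ∫ s in (0 : ℝ)..t, (s - t) * (1 - s ^ 2 / 2 - s ^ 4 / 8) =
        -(t ^ 2 / 2 - t ^ 4 / 24 - t ^ 6 / 240) := by
      have hd : ∀ s ∈ Set.uIcc (0 : ℝ) t, HasDerivAt
          (fun s => s ^ 2 / 2 - t * s - s ^ 4 / 8 + t * s ^ 3 / 6 - s ^ 6 / 48 + t * s ^ 5 / 40)
          ((s - t) * (1 - s ^ 2 / 2 - s ^ 4 / 8)) s := by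
        intro s _
        refine (((((((hasDerivAt_pow 2 s).div_const 2).sub ((hasDerivAt_id s).const_mul t)).sub
          ((hasDerivAt_pow 4 s).div_const 8)).add (((hasDerivAt_pow 3 s).const_mul t).div_const 6)).sub
          ((hasDerivAt_pow 6 s).div_const 48)).add
          (((hasDerivAt_pow 5 s).const_mul t).div_const 40)).congr_deriv ?_
        push_cast
        ring
      rw [intervalIntegral.integral_eq_sub_of_hasDerivAt hd
        (Continuous.intervalIntegrable (by fun_prop) _ _)]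
      ring
    rw [← hval]
    refine intervalIntegral.integral_mono_on ht0 (Continuous.intervalIntegrable (by fun_prop) _ _)
      (hc.intervalIntegrable _ _) fun s hs => ?_
    refine mul_le_mul_of_nonpos_left ?_ (by linarith [hs.2])
    have hs2 : s ^ 2 ≤ 1 := by nlinarith [hs.1, hs.2]
    rw [Real.sqrt_le_iff]
    constructor
    · nlinarith [sq_nonneg s]
    · nlinarith [mul_nonneg (sq_nonneg s) (pow_nonneg (sq_nonneg s) 2),
        mul_le_mul_of_nonneg_left hs2 (pow_nonneg (sq_nonneg s) 3),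
        mul_le_mul_of_nonneg_left hs2 (pow_nonneg (sq_nonneg s) 2)]
  have h : ∫ s in t..1, (s - t) * Real.sqrt (1 - s ^ 2) ≤
      1 / 3 - t * (Real.pi / 4) + (t ^ 2 / 2 - t ^ 4 / 24 - t ^ 6 / 240) := by linarith
  refine (mul_le_mul_of_nonneg_left h (by positivity)).trans (le_of_eq ?_)
  field_simp
  ring

lemma cap4_integral_nonneg {t : ℝ} (ht : t < 1) :
    0 ≤ ∫ s in t..1, (s - t) * Real.sqrt (1 - s ^ 2) :=
  intervalIntegral.integral_nonneg ht.le fun _ hs =>
    mul_nonneg (by linarith [hs.1]) (Real.sqrt_nonneg _)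

namespace Crit

variable {n : ℕ} (C : Crit n)

lemma smul_mem_cell (i : Fin (n + 1)) {r : ℝ} {x : Eu n} (hr : 0 < r) (hx : x ∈ C.cell i) :
    r • x ∈ C.cell i := by
  refine ⟨fun j => ?_, fun j hj => ?_⟩
  · rw [real_inner_smul_right, real_inner_smul_right]
    exact mul_le_mul_of_nonneg_left (hx.1 j) hr.le
  · rw [real_inner_smul_right, real_inner_smul_right]
    exact mul_lt_mul_of_pos_left (hx.2 j hj) hr

lemma cap3_line (hC : Cap3Prop) (C : Crit 3) (i : Fin (3 + 1)) {c : ℝ} (_hc0 : 0 ≤ c)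
    (hc1 : c ≤ 1 / 2) :
    ‖C.z i‖ ≤ 1.5957692 * (c * (1 - c) + (1 - 2 * c) * (C.m i - c)) := by
  have h := hC (C.cell i) (C.measurable_cell i) fun r x hr hx => C.smul_mem_cell i hr hx
  rw [← mom, C.mom_eq, ← m] at h
  have hm0 : 0 ≤ C.m i := measureReal_nonneg
  have hm1 : C.m i ≤ 1 := measureReal_le_one
  have htan : C.m i * (1 - C.m i) ≤ c * (1 - c) + (1 - 2 * c) * (C.m i - c) := by
    nlinarith only [sq_nonneg (C.m i - c)]
  have hconst : 4 / Real.sqrt (2 * Real.pi) ≤ 1.5957692 := by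
    rw [div_eq_mul_inv]
    linarith [invSqrtTwoPi_hi]
  exact h.trans (mul_le_mul hconst htan (mul_nonneg hm0 (by linarith)) (by norm_num))

lemma cap4_line (hC : Cap4Prop) (C : Crit 4) (i : Fin (4 + 1)) {t : ℝ} (ht0 : 0 ≤ t)
    (ht1 : t < 1) :
    ‖C.z i‖ ≤ 1.87998 * (t * C.m i +
      (2 / (3 * Real.pi) - t / 2 + 2 / Real.pi * (t ^ 2 / 2 - t ^ 4 / 24 - t ^ 6 / 240))) := by
  have h := hC (C.cell i) t (C.measurable_cell i) (fun r x hr hx => C.smul_mem_cell i hr hx) ht0 ht1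
  rw [← mom, C.mom_eq, ← m] at h
  have hm0 : 0 ≤ C.m i := measureReal_nonneg
  have hI := mul_nonneg (show (0 : ℝ) ≤ 2 / Real.pi by positivity) (cap4_integral_nonneg ht1)
  have hconst : 3 / 4 * Real.sqrt (2 * Real.pi) ≤ 1.87998 := by
    have : Real.sqrt (2 * Real.pi) ≤ 2.50664 := by
      rw [Real.sqrt_le_left (by norm_num)]
      nlinarith [Real.pi_lt_d6]
    linarith
  exact h.trans (mul_le_mul hconst (by linarith [cap4_integral_le ht0 ht1])
    (add_nonneg (mul_nonneg ht0 hm0) hI) (by norm_num))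

lemma cap4_line_num (hC : Cap4Prop) (C : Crit 4) (i : Fin (4 + 1)) {t : ℝ} (ht0 : 0 ≤ t)
    (ht1 : t < 1) :
    ‖C.z i‖ ≤ 1.87998 * (t * C.m i +
      (0.2122066 - t / 2 + 0.63662 * (t ^ 2 / 2) - 0.63661 * (t ^ 4 / 24 + t ^ 6 / 240))) := by
  refine (cap4_line hC C i ht0 ht1).trans (mul_le_mul_of_nonneg_left ?_ (by norm_num))
  have hπ := Real.pi_pos
  have a1 : 2 / (3 * Real.pi) ≤ 0.2122066 := by
    rw [div_le_iff₀ (by positivity)]
    linarith [Real.pi_gt_d20]
  have a2 : 2 / Real.pi ≤ 0.63662 := by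
    rw [div_le_iff₀ hπ]
    linarith [Real.pi_gt_d20]
  have a3 : 0.63661 ≤ 2 / Real.pi := by
    rw [le_div_iff₀ hπ]
    linarith [Real.pi_lt_d20]
  have b2 := mul_le_mul_of_nonneg_right a2 (show (0 : ℝ) ≤ t ^ 2 / 2 by positivity)
  have b3 := mul_le_mul_of_nonneg_right a3 (show (0 : ℝ) ≤ t ^ 4 / 24 + t ^ 6 / 240 by positivity)
  linarith

end Crit

end Vale.Agent.P226
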