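import Vale.Agent.P226.Setup
import Vale.Agent.P226.CapLines

/-!
Critical configurations with four vectors in three dimensions do not exist.
-/

open MeasureTheory ProbabilityTheory Set
open scoped RealInnerProductSpace

namespace Vale.Agent.P226.Crit

lemma cap3_bound (hC : Cap3Prop) (C : Crit 3) (i : Fin 4) (c A B : ℝ) (hc0 : 0 ≤ c)
    (hc1 : c ≤ 1 / 2) (hA : A = 1.5957692 * (1 - 2 * c)) (hB : B = 1.5957692 * c ^ 2) :
    CapBound (C.m i) (C.s i) A B := by
  unfold CapBound
  rw [show C.s i = ‖C.z i‖ ^ 2 from rfl, Real.sqrt_sq (norm_nonneg _)]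
  refine (cap3_line hC C i hc0 hc1).trans (le_of_eq ?_)
  rw [hA, hB]
  ring

section lines

variable (hE : EhrhardProp) (hH : HalfspaceProp) (hC : Cap3Prop) (C : Crit 3) (i : Fin 4)

include hE hH hC in
lemma line_high (hl : muStar ≤ C.m i) : C.s i ≤ 0.538 * C.m i + (-0.04503) := by
  have hs := C.s_nonneg i
  have hf := C.feas hE hH le_rfl i
  rcases le_total (C.m i) (gQ 0.70) with h1 | h1
  · refine hf.psi_seg (s₀ := 0.0498) (by norm_num) (by norm_num) hl h1 ?_ ?_
    · linarith [gh_0_70, gQ_0_70.1]
    · linarith [gh_1_04, gQ_1_04.1]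
  rcases le_total (C.m i) (gQ 0.67) with h2 | h2
  · refine hf.psi_seg (s₀ := 0.0843) (by norm_num) (by norm_num) h1 h2 ?_ ?_
    · linarith [gh_0_67, gQ_0_67.1]
    · linarith [gh_0_70, gQ_0_70.1]
  have h2' : (0.2514 : ℝ) ≤ C.m i := by linarith [gQ_0_67.1]
  rcases le_total (C.m i) 0.2885 with h3 | h3
  · exact (cap3_bound hC C i 0.25 _ _ (by norm_num) (by norm_num) rfl rfl).le_line hs
      (by norm_num) h2' h3 (by norm_num) (by norm_num)
  exact (cap3_bound hC C i 0.34 _ _ (by norm_num) (by norm_num) rfl rfl).le_line hs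
      (by norm_num) h3 (C.m_le_one i) (by norm_num) (by norm_num)

include hC in
lemma line_low (hl : muStar ≤ C.m i) : C.s i ≤ 0.416 * C.m i + (-0.01237) := by
  have hs := C.s_nonneg i
  have hlo : (0.1491 : ℝ) ≤ C.m i := by linarith [muStar_lo]
  rcases le_total (C.m i) 0.2625 with h1 | h1
  · exact (cap3_bound hC C i 0.225 _ _ (by norm_num) (by norm_num) rfl rfl).le_line hs
      (by norm_num) hlo h1 (by norm_num) (by norm_num)
  rcases le_total (C.m i) 0.308 with h2 | h2
  · exact (cap3_bound hC C i 0.3 _ _ (by norm_num) (by norm_num) rfl rfl).le_line hs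
      (by norm_num) h1 h2 (by norm_num) (by norm_num)
  rcases le_total (C.m i) 0.343 with h3 | h3
  · exact (cap3_bound hC C i 0.315 _ _ (by norm_num) (by norm_num) rfl rfl).le_line hs
      (by norm_num) h2 h3 (by norm_num) (by norm_num)
  exact (cap3_bound hC C i 0.37 _ _ (by norm_num) (by norm_num) rfl rfl).le_line hs
      (by norm_num) h3 (C.m_le_one i) (by norm_num) (by norm_num)

include hE hH hC in
lemma line_square (hl : muStar ≤ C.m i) : C.s i ^ 2 ≤ 0.0812 * C.m i + (-0.01082) := by
  have hs := C.s_nonneg i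
  have hlo : (0.14916 : ℝ) ≤ C.m i := by linarith [muStar_lo]
  rcases le_total (C.m i) 0.164 with h0 | h0
  · exact sq_le_line hs ((C.feas hE hH le_rfl i).line6 hl (C.m_le_one i)) (l := 0.14916)
      (r := 0.164) (by norm_num) hlo h0 (by norm_num) (by norm_num)
  rcases le_total (C.m i) 0.284 with h1 | h1
  · exact (cap3_bound hC C i 0.215 _ _ (by norm_num) (by norm_num) rfl rfl).sq_le_line hs
      (by norm_num) h0 h1 (by norm_num) (by norm_num)
  rcases le_total (C.m i) 0.3695 with h2 | h2
  · exact (cap3_bound hC C i 0.355 _ _ (by norm_num) (by norm_num) rfl rfl).sq_le_line hs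
      (by norm_num) h1 h2 (by norm_num) (by norm_num)
  rcases le_total (C.m i) 0.41 with h3 | h3
  · exact (cap3_bound hC C i 0.385 _ _ (by norm_num) (by norm_num) rfl rfl).sq_le_line hs
      (by norm_num) h2 h3 (by norm_num) (by norm_num)
  exact (cap3_bound hC C i 0.435 _ _ (by norm_num) (by norm_num) rfl rfl).sq_le_line hs
      (by norm_num) h3 (C.m_le_one i) (by norm_num) (by norm_num)

end lines

/-- No critical configuration has four vectors. -/
theorem not_four (hE : EhrhardProp) (hH : HalfspaceProp) (hD : TriconeProp) (hC : Cap3Prop)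
    (C : Crit 3) : False := by
  obtain ⟨a, b, e, hab, hae, hbe, hme, hmb, hrest⟩ := C.exists_top (by norm_num)
  have he := C.muStar_lt_third hE hH le_rfl hab hae hbe hrest
  obtain ⟨d, hd⟩ : ∃ d, rest a b e = {d} :=
    Finset.card_eq_one.1 (by have := card_rest hab hae hbe; omega)
  have hdmem : d ∈ rest a b e := by rw [hd]; exact Finset.mem_singleton_self d
  obtain ⟨hda, hdb, hde⟩ := mem_rest.1 hdmem
  have hm := C.sum_m
  have hF := C.total_gt
  rw [split3 hab hae hbe, hd, Finset.sum_singleton] at hm hF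
  have la : muStar ≤ C.m a := by linarith
  have lb : muStar ≤ C.m b := by linarith
  rcases lt_or_ge muStar (C.m d) with hcase | hcase
  · linarith [line_high hE hH hC C a la, line_high hE hH hC C b lb,
      line_high hE hH hC C e he.le, line_high hE hH hC C d hcase.le]
  have la' := line_low hC C a la
  have lb' := line_low hC C b lb
  have le' := line_low hC C e he.le
  have hμ := muStar_hi
  rcases le_or_gt (gQ 1.44) (C.m d) with hq | hq
  · have hs : C.s d ≤ 0.356 * C.m d + (-0.01718) :=
      (C.feas hE hH le_rfl d).le_chord (by norm_num) hq hcase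
        (by linarith [gh_1_04, gQ_1_04.1]) (by linarith [gh_1_44, gQ_1_44.1])
    linarith [gQ_1_44.1]
  -- the four-cell test
  have hsd : C.s d ≤ 0.1269 * C.m d :=
    (C.feas hE hH le_rfl d).le_rho (by norm_num) (by norm_num) hq.le
      (by linarith [gh_1_44, gQ_1_44.1])
  have hmd : 0 < C.m d := C.m_pos (by norm_num) d
  set P := C.c a b * C.c a e + C.c a b * C.c b e + C.c a e * C.c b e
  have hP0 : 0 ≤ P := by
    have := C.c_pos hab
    have := C.c_pos hae
    have := C.c_pos hbe
    positivity
  have h4 := C.four_test hD d a b e hda hdb hde hab hae hbe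
  have h5 : Real.pi * Real.sqrt P ≤ 0.2538 := by
    refine le_of_mul_le_mul_left ?_ hmd
    linarith
  have h6 : Real.sqrt P ≤ 0.0808 := by
    have := mul_le_mul_of_nonneg_right Real.pi_gt_d6.le (Real.sqrt_nonneg P)
    linarith
  have hPle : P ≤ 0.00654 := by
    have := pow_le_pow_left₀ (Real.sqrt_nonneg P) h6 2
    rw [Real.sq_sqrt hP0] at this
    linarith
  -- row sums inside the top three
  have row : ∀ x y w : Fin 4, x ≠ y → x ≠ w → y ≠ w → rest x y w = {d} →
      C.s x = C.c x y + C.c x w + C.c x d := by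
    intro x y w hxy hxw hyw hr
    rw [← C.sum_c x, ← Finset.add_sum_erase _ _ (by simp [hxy.symm] : y ∈ Finset.univ.erase x),
      ← Finset.add_sum_erase _ _
        (by simp [hxw.symm, hyw.symm] : w ∈ (Finset.univ.erase x).erase y)]
    rw [show ((Finset.univ.erase x).erase y).erase w = {d} from hr, Finset.sum_singleton]
    ring
  have e1 : rest b a e = {d} := by
    rw [← hd]; ext j; simp only [mem_rest]; tauto
  have e2 : rest e a b = {d} := by
    rw [← hd]; ext j; simp only [mem_rest]; tauto
  have ra := row a b e hab hae hbe hd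
  have rb := row b a e hab.symm hbe hae e1
  have re := row e a b hae.symm hbe.symm hab e2
  rw [C.c_comm b a] at rb
  rw [C.c_comm e a, C.c_comm e b] at re
  obtain ⟨-, hsum⟩ := C.sum_cross_le hab hae hbe
  rw [hd, Finset.sum_singleton] at hsum
  have pos_ad := C.c_pos hda.symm
  have pos_bd := C.c_pos hdb.symm
  have pos_ed := C.c_pos hde.symm
  have q1 := C.c_pos hab
  have q2 := C.c_pos hae
  have q3 := C.c_pos hbe
  set ya := C.c a b + C.c a e with hya
  set yb := C.c a b + C.c b e with hyb
  set ye := C.c a e + C.c b e with hye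
  have sa := pow_le_pow_left₀ (by positivity : 0 ≤ ya) (by linarith : ya ≤ C.s a) 2
  have sb := pow_le_pow_left₀ (by positivity : 0 ≤ yb) (by linarith : yb ≤ C.s b) 2
  have se := pow_le_pow_left₀ (by positivity : 0 ≤ ye) (by linarith : ye ≤ C.s e) 2
  have qa := line_square hE hH hC C a la
  have qb := line_square hE hH hC C b lb
  have qe := line_square hE hH hC C e he.le
  have hid : P = (ya + yb + ye) ^ 2 / 4 - (ya ^ 2 + yb ^ 2 + ye ^ 2) / 2 := by
    simp only [P, hya, hyb, hye]
    ring
  have hSy : 0.358098 - 0.2538 * C.m d ≤ ya + yb + ye := by linarith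
  have hq' := gQ_1_44.2
  have hSy0 : 0 ≤ 0.358098 - 0.2538 * C.m d := by linarith
  have hsq := pow_le_pow_left₀ hSy0 hSy 2
  linarith [sq_nonneg (C.m d)]

end Vale.Agent.P226.Crit
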