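import Vale.Agent.P226.CaseHigh
import Vale.Agent.P226.CapLines

/-!
No critical configuration with five cells.
-/

open MeasureTheory ProbabilityTheory Set Filter
open scoped RealInnerProductSpace

namespace Vale.Agent.P226.Crit

lemma cap4_bound (hC : Cap4Prop) (C : Crit 4) (i : Fin 5) (t A B : ℝ) (ht0 : 0 ≤ t) (ht1 : t < 1)
    (hA : A = 1.87998 * t)
    (hB : B = 1.87998 *
      (0.2122066 - t / 2 + 0.63662 * (t ^ 2 / 2) - 0.63661 * (t ^ 4 / 24 + t ^ 6 / 240))) :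
    CapBound (C.m i) (C.s i) A B := by
  unfold CapBound
  rw [show C.s i = ‖C.z i‖ ^ 2 from rfl, Real.sqrt_sq (norm_nonneg _)]
  refine (cap4_line_num hC C i ht0 ht1).trans (le_of_eq ?_)
  rw [hA, hB]
  ring

section lines

variable (hE : EhrhardProp) (hH : HalfspaceProp) (hC : Cap4Prop) (C : Crit 4) (i : Fin 5)

include hE hH hC in
lemma line5_high (hl : muStar ≤ C.m i) : C.s i ≤ 0.556 * C.m i + (-0.0478) := by
  have hs := C.s_nonneg i
  have hf := C.feas hE hH (by norm_num) i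
  rcases le_total (C.m i) (gQ 0.655) with h1 | h1
  · refine hf.psi_seg (s₀ := 0.0466) (by norm_num) (by norm_num) hl h1 ?_ ?_
    · linarith [gh_0_655, gQ_0_655.1]
    · linarith [gh_1_04, gQ_1_04.1]
  rcases le_total (C.m i) (gQ 0.605) with h2 | h2
  · refine hf.psi_seg (s₀ := 0.0931) (by norm_num) (by norm_num) h1 h2 ?_ ?_
    · linarith [gh_0_605, gQ_0_605.1]
    · linarith [gh_0_655, gQ_0_655.1]
  have h2' : (0.2725 : ℝ) ≤ C.m i := by linarith [gQ_0_605.1]
  rcases le_total (C.m i) 0.287 with h3 | h3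
  · exact (cap4_bound hC C i 0.37 _ _ (by norm_num) (by norm_num) rfl rfl).le_line hs
      (by norm_num) h2' h3 (by norm_num) (by norm_num)
  exact (cap4_bound hC C i 0.28 _ _ (by norm_num) (by norm_num) rfl rfl).le_line hs
      (by norm_num) h3 (C.m_le_one i) (by norm_num) (by norm_num)

include hC in
lemma line5_low (hl : muStar ≤ C.m i) : C.s i ≤ 0.4029 * C.m i + (-0.00556) := by
  have hs := C.s_nonneg i
  have hlo : (0.149 : ℝ) ≤ C.m i := by linarith [muStar_lo]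
  rcases le_total (C.m i) 0.2488 with h1 | h1
  · exact (cap4_bound hC C i 0.48 _ _ (by norm_num) (by norm_num) rfl rfl).le_line hs
      (by norm_num) hlo h1 (by norm_num) (by norm_num)
  rcases le_total (C.m i) 0.3027 with h2 | h2
  · exact (cap4_bound hC C i 0.33 _ _ (by norm_num) (by norm_num) rfl rfl).le_line hs
      (by norm_num) h1 h2 (by norm_num) (by norm_num)
  rcases le_total (C.m i) 0.345 with h3 | h3
  · exact (cap4_bound hC C i 0.30 _ _ (by norm_num) (by norm_num) rfl rfl).le_line hs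
      (by norm_num) h2 h3 (by norm_num) (by norm_num)
  exact (cap4_bound hC C i 0.21 _ _ (by norm_num) (by norm_num) rfl rfl).le_line hs
      (by norm_num) h3 (C.m_le_one i) (by norm_num) (by norm_num)

include hE hH hC in
lemma line5_square (hl : muStar ≤ C.m i) : C.s i ^ 2 ≤ 0.0832 * C.m i + (-0.01114) := by
  have hs := C.s_nonneg i
  have hlo : (0.14916 : ℝ) ≤ C.m i := by linarith [muStar_lo]
  rcases le_total (C.m i) 0.1715 with h0 | h0
  · exact sq_le_line hs ((C.feas hE hH (by norm_num) i).line6 hl (C.m_le_one i)) (l := 0.14916)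
      (r := 0.1715) (by norm_num) hlo h0 (by norm_num) (by norm_num)
  rcases le_total (C.m i) 0.255 with h1 | h1
  · exact (cap4_bound hC C i 0.51 _ _ (by norm_num) (by norm_num) rfl rfl).sq_le_line hs
      (by norm_num) h0 h1 (by norm_num) (by norm_num)
  rcases le_total (C.m i) 0.3454 with h2 | h2
  · exact (cap4_bound hC C i 0.28 _ _ (by norm_num) (by norm_num) rfl rfl).sq_le_line hs
      (by norm_num) h1 h2 (by norm_num) (by norm_num)
  rcases le_total (C.m i) 0.399 with h3 | h3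
  · exact (cap4_bound hC C i 0.21 _ _ (by norm_num) (by norm_num) rfl rfl).sq_le_line hs
      (by norm_num) h2 h3 (by norm_num) (by norm_num)
  exact (cap4_bound hC C i 0.11 _ _ (by norm_num) (by norm_num) rfl rfl).sq_le_line hs
      (by norm_num) h3 (C.m_le_one i) (by norm_num) (by norm_num)

end lines

/-- Two cells of the rest lie above two nodes. -/
lemma climb5 (hE : EhrhardProp) (hH : HalfspaceProp) (C : Crit 4) {a b e : Fin 5} {K : ℝ}
    (t : C.Tri a b e K) (hK : 0 < K) (u₄ v₄ u₅ ρ₄ σ₄ ρ₅ r₄ t₄ q₄ p₄ q₅ : ℝ)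
    (hu : 0 ≤ u₄ ∧ 0 ≤ v₄ ∧ 0 ≤ u₅ ∧ 3 ≤ u₅ ^ 2) (hρ : 0 ≤ ρ₄ ∧ 0 ≤ σ₄ ∧ 0 ≤ ρ₅)
    (hr : 0 < r₄ ∧ 0 < t₄) (g₄ : 2 * gh u₄ ≤ ρ₄ * gQ u₄) (g₄' : 2 * gh v₄ ≤ σ₄ * gQ v₄)
    (g₅ : 2 * gh u₅ ≤ ρ₅ * gQ u₅) (hq : q₄ ≤ gQ u₄ ∧ p₄ ≤ gQ v₄ ∧ q₅ ≤ gQ u₅)
    (n₅ : (17 / 24 : ℝ) ^ 2 * ρ₅ ^ 2 * K < 4 / 9 * q₅)
    (n₄ : 2 / 3 * ρ₄ < 2 / 3 * r₄ ∧ K * r₄ ^ 2 ≤ 2 * q₅)
    (n₄' : 2 / 3 * σ₄ < 2 / 3 * t₄ ∧ K * t₄ ^ 2 ≤ q₄ + q₅) :
    ∃ d d', rest a b e = {d, d'} ∧ d ≠ d' ∧ gQ v₄ ≤ C.m d ∧ gQ u₅ ≤ C.m d' := by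
  have hc := card_rest t.ab t.ae t.be
  set T := rest a b e
  obtain ⟨d, hd, hd'⟩ := Finset.exists_max_image T C.m (Finset.card_pos.1 (by omega))
  have hc1 := Finset.card_erase_add_one hd
  obtain ⟨d', hd1⟩ := Finset.card_eq_one.1 (by omega : (T.erase d).card = 1)
  have hd2 : d' ∈ T.erase d := by simp [hd1]
  have e0 : ((T.card : ℕ) : ℝ) = 2 := by exact_mod_cast (by omega : T.card = 2)
  have e1 : (((T.erase d).card : ℕ) : ℝ) = 1 := by
    exact_mod_cast (by omega : (T.erase d).card = 1)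
  obtain ⟨i, hi, h5⟩ := t.exists_gt C hE hH (by norm_num) ⟨d', hd2⟩ (Finset.erase_subset _ _)
    (17 / 24) u₅ ρ₅ q₅ hK (by rw [e1]; norm_num) (by norm_num) hu.2.2.1 hu.2.2.2 hρ.2.2 g₅
    hq.2.2 n₅
  rw [hd1, Finset.mem_singleton] at hi
  subst hi
  have hle : C.m i ≤ C.m d := hd' i (Finset.mem_of_mem_erase hd2)
  have hsum : ∑ j ∈ T, C.m j = C.m d + C.m i := by
    rw [← Finset.add_sum_erase _ _ hd, hd1, Finset.sum_singleton]
  obtain ⟨j, hj, h4⟩ := t.exists_gt' C hE hH (by norm_num) ⟨d, hd⟩ subset_rfl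
    (2 / 3) u₄ ρ₄ r₄ (δ₀ := 2 * q₅) (by linarith) (by rw [e0]; norm_num) (by norm_num) hu.1 hρ.1
    g₄ hr.1 n₄.2 n₄.1
  have h4' : gQ u₄ < C.m d := h4.trans_le (hd' j hj)
  obtain ⟨l, hl, h6⟩ := t.exists_gt' C hE hH (by norm_num) ⟨d, hd⟩ subset_rfl
    (2 / 3) v₄ σ₄ t₄ (δ₀ := q₄ + q₅) (by linarith) (by rw [e0]; norm_num) (by norm_num) hu.2.1
    hρ.2.1 g₄' hr.2 n₄'.2 n₄'.1
  refine ⟨d, i, ?_, (Finset.mem_erase.1 hd2).1.symm, (h6.trans_le (hd' l hl)).le, h5.le⟩
  rw [← hd1, Finset.insert_erase hd]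

/-- No critical configuration has five cells. -/
theorem not_five (hE : EhrhardProp) (hH : HalfspaceProp) (hB : BathtubProp) (hT : TriangleProp)
    (hC : Cap4Prop) (C : Crit 4) : False := by
  have hn3 : 3 ≤ 4 := by norm_num
  have hfeas := C.feas hE hH hn3
  have hmu := muStar_lo
  have hlow := fun i => line5_low hC C i
  have hhigh := fun i => line5_high hE hH hC C i
  obtain ⟨a, b, e, hab, hae, hbe, heb, hba, htop⟩ := C.exists_top (by norm_num)
  have he := C.muStar_lt_third hE hH hn3 hab hae hbe htop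
  have hb : muStar ≤ C.m b := he.le.trans heb
  have ha : muStar ≤ C.m a := hb.trans hba
  have hc := card_rest hab hae hbe
  have hF := C.total_gt
  have hm := C.sum_m
  by_cases hbig : ∃ d ∈ rest a b e, muStar < C.m d
  · obtain ⟨d, hd, hdm⟩ := hbig
    obtain ⟨⟨a', b', e', t, hsub⟩, hsm⟩ := C.high hE hH hB hT hn3 hab hae hbe hd ha hb he.le
      hdm.le 0.556 (-0.0478) hhigh (by norm_num) (by norm_num) (by norm_num) (by norm_num)
      (by norm_num) (by norm_num)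
    have hc0 := Finset.card_erase_add_one hd
    obtain ⟨x, hx⟩ := Finset.card_eq_one.1 (by omega : ((rest a b e).erase d).card = 1)
    obtain ⟨y, hy, hy1⟩ := t.exists_gt C hE hH hn3 (S := {x}) (by simp) (hx ▸ hsub) (17 / 24) 2.13
      0.0298 0.01658 (by norm_num) (by norm_num) (by norm_num) (by norm_num) (by norm_num)
      (by norm_num) (by linarith [gh_2_13, gQ_2_13.1]) (le_trans (by norm_num) gQ_2_13.1)
      (by norm_num)
    rw [Finset.mem_singleton] at hy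
    subst hy
    have hym : C.m y ≤ muStar := hsm y (by simp [hx])
    have hch : C.s y ≤ 0.266 * C.m y + (-0.00382) :=
      (hfeas y).le_chord (by norm_num) hy1.le hym (by linarith [gh_1_04, gQ_1_04.1])
        (by linarith [gh_2_13, gQ_2_13.1])
    rw [split4 hab hae hbe hd, hx, Finset.sum_singleton] at hF hm
    have := gQ_2_13.1
    linarith [hhigh a ha, hhigh b hb, hhigh e he.le, hhigh d hdm.le]
  push Not at hbig
  have hsq := fun i => line5_square hE hH hC C i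
  rw [split3 hab hae hbe] at hF hm
  set T := rest a b e
  set δ := ∑ j ∈ T, C.m j with hδdef
  have hδ0 : 0 ≤ δ := Finset.sum_nonneg fun j _ => C.m_nonneg j
  have hrs : ∀ j ∈ T, C.s j ≤ 0.2404 * C.m j := fun j hj => (hfeas j).le_rs (hbig j hj)
  have h1 := C.sum_s_le hrs
  have hδ1 : δ ≤ 0.1731 := by
    linarith [hlow a ha, hlow b hb, hlow e he.le]
  have t1 : C.Tri a b e 10.42 := C.tri_stage hE hH hB hT hn3 hab hae hbe ha hb he.le _ _ hsq 0
    0.2404 0.20625 10.42 (by linarith) (by norm_num) (by norm_num) (by norm_num) (by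
      rintro r l rfl rfl
      refine ⟨by linarith, by linarith, ?_⟩
      nlinarith [mul_nonneg hδ0 (sub_nonneg.2 hδ1)])
  obtain ⟨d, d', hT2, hne, g4, g5⟩ :=
    climb5 hE hH C t1 (by norm_num) 1.74 1.69 1.93 0.0716 0.0790 0.0473 0.0717 0.0805
      0.04092 0.04551 0.02680 (by norm_num) (by norm_num) (by norm_num)
      (by linarith [gh_1_74, gQ_1_74.1]) (by linarith [gh_1_69, gQ_1_69.1])
      (by linarith [gh_1_93, gQ_1_93.1])
      ⟨le_trans (by norm_num) gQ_1_74.1, le_trans (by norm_num) gQ_1_69.1,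
        le_trans (by norm_num) gQ_1_93.1⟩ (by norm_num) (by norm_num) (by norm_num)
  have hT2' : T = {d, d'} := hT2
  have hdT : d ∈ T := by simp [hT2']
  have hdT' : d' ∈ T := by simp [hT2']
  have sT : ∀ f : Fin 5 → ℝ, ∑ j ∈ T, f j = f d + f d' := fun f => by
    rw [hT2', Finset.sum_pair hne]
  have c1 : C.s d ≤ 0.313 * C.m d + (-0.01066) :=
    (hfeas d).le_chord (by norm_num) g4 (hbig d hdT) (by linarith [gh_1_04, gQ_1_04.1])
      (by linarith [gh_1_69, gQ_1_69.1])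
  have c2 : C.s d' ≤ 0.313 * C.m d' + (-0.00711) :=
    (hfeas d').le_chord (by norm_num) g5 (hbig d' hdT') (by linarith [gh_1_04, gQ_1_04.1])
      (by linarith [gh_1_93, gQ_1_93.1])
  have eδ : δ = C.m d + C.m d' := sT C.m
  have hs2 : ∑ j ∈ T, C.s j ≤ -0.01777 + 0.313 * δ := by
    rw [sT C.s, eδ]
    linarith
  have hδ2 : 0.0723 ≤ δ := by
    linarith [gQ_1_69.1, gQ_1_93.1]
  have hδ3 : δ ≤ 0.1153 := by
    linarith [hlow a ha, hlow b hb, hlow e he.le]
  have t2 : C.Tri a b e 8.24 := C.tri_stage hE hH hB hT hn3 hab hae hbe ha hb he.le _ _ hsq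
    (-0.01777) 0.313 0.2609 8.24 hs2 (by norm_num) (by norm_num) (by norm_num) (by
      rintro r l rfl rfl
      refine ⟨by linarith, by linarith, ?_⟩
      nlinarith [mul_nonneg (sub_nonneg.2 hδ2) (sub_nonneg.2 hδ3)])
  obtain ⟨f, f', hT3, hne', w4, w5⟩ :=
    climb5 hE hH C t2 (by norm_num) 1.62 1.56 1.82 0.0906 0.1018 0.0602 0.0913 0.1027
      0.05261 0.05937 0.03437 (by norm_num) (by norm_num) (by norm_num)
      (by linarith [gh_1_62, gQ_1_62.1]) (by linarith [gh_1_56, gQ_1_56.1])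
      (by linarith [gh_1_82, gQ_1_82.1])
      ⟨le_trans (by norm_num) gQ_1_62.1, le_trans (by norm_num) gQ_1_56.1,
        le_trans (by norm_num) gQ_1_82.1⟩ (by norm_num) (by norm_num) (by norm_num)
  have hT3' : T = {f, f'} := hT3
  have d1 : C.s f ≤ 0.334 * C.m f + (-0.01375) :=
    (hfeas f).le_chord (by norm_num) w4 (hbig f (by simp [hT3'])) (by linarith [gh_1_04, gQ_1_04.1])
      (by linarith [gh_1_56, gQ_1_56.1])
  have d2 : C.s f' ≤ 0.334 * C.m f' + (-0.00938) :=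
    (hfeas f').le_chord (by norm_num) w5 (hbig f' (by simp [hT3']))
      (by linarith [gh_1_04, gQ_1_04.1]) (by linarith [gh_1_82, gQ_1_82.1])
  have eδ' : δ = C.m f + C.m f' := by rw [hδdef, hT3', Finset.sum_pair hne']
  rw [hT3', Finset.sum_pair hne'] at hF
  linarith [hlow a ha, hlow b hb, hlow e he.le, gQ_1_56.1, gQ_1_82.1]

end Vale.Agent.P226.Crit
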