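import Vale.Agent.P226.CaseHigh

/-!
No critical configuration with six or more cells.
-/

open MeasureTheory ProbabilityTheory Set Filter
open scoped RealInnerProductSpace

namespace Vale.Agent.P226.Crit

variable {n : ℕ} (C : Crit n)

/-- Three cells of the rest lie above three nodes. -/
lemma climb6 (hE : EhrhardProp) (hH : HalfspaceProp) (hn : 5 ≤ n) {a b e : Fin (n + 1)} {K : ℝ}
    (t : C.Tri a b e K) (hK : 0 < K) (u₄ u₅ u₆ ρ₄ ρ₅ ρ₆ r₄ r₅ q₄ q₅ q₆ : ℝ)
    (hu : 0 ≤ u₄ ∧ 0 ≤ u₅ ∧ 0 ≤ u₆ ∧ 3 ≤ u₆ ^ 2)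
    (hρ : 0 ≤ ρ₄ ∧ 0 ≤ ρ₅ ∧ 0 ≤ ρ₆) (hr : 0 < r₄ ∧ 0 < r₅)
    (g₄ : 2 * gh u₄ ≤ ρ₄ * gQ u₄) (g₅ : 2 * gh u₅ ≤ ρ₅ * gQ u₅) (g₆ : 2 * gh u₆ ≤ ρ₆ * gQ u₆)
    (hq : q₄ ≤ gQ u₄ ∧ q₅ ≤ gQ u₅ ∧ q₆ ≤ gQ u₆)
    (n₆ : (11 / 15 : ℝ) ^ 2 * ρ₆ ^ 2 * K < 4 / 9 * q₆)
    (n₅ : 17 / 24 * ρ₅ < 2 / 3 * r₅ ∧ K * r₅ ^ 2 ≤ 2 * q₆)
    (n₄ : 2 / 3 * ρ₄ < 2 / 3 * r₄ ∧ K * r₄ ^ 2 ≤ 2 * q₅ + q₆) :
    ∃ d d' d'', d ∈ rest a b e ∧ d' ∈ rest a b e ∧ d'' ∈ rest a b e ∧ d ≠ d' ∧ d ≠ d'' ∧ d' ≠ d'' ∧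
      q₄ ≤ C.m d ∧ q₅ ≤ C.m d' ∧ q₆ ≤ C.m d'' ∧
      gQ u₄ ≤ C.m d ∧ gQ u₅ ≤ C.m d' ∧ gQ u₆ ≤ C.m d'' := by
  have hc := card_rest t.ab t.ae t.be
  set T := rest a b e
  obtain ⟨d, hd, hd'⟩ := Finset.exists_max_image T C.m (Finset.card_pos.1 (by omega))
  have hc1 := Finset.card_erase_add_one hd
  obtain ⟨d', hd1, hd1'⟩ := Finset.exists_max_image (T.erase d) C.m (Finset.card_pos.1 (by omega))
  have hc2 := Finset.card_erase_add_one hd1
  have e0 : ((T.card : ℕ) : ℝ) = (n:ℝ) - 2 := by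
    rw [eq_sub_iff_add_eq]
    exact_mod_cast (by omega : T.card + 2 = n)
  have e1 : (((T.erase d).card : ℕ) : ℝ) = (n:ℝ) - 3 := by
    rw [eq_sub_iff_add_eq]
    exact_mod_cast (by omega : (T.erase d).card + 3 = n)
  have e2 : ((((T.erase d).erase d').card : ℕ) : ℝ) = (n:ℝ) - 4 := by
    rw [eq_sub_iff_add_eq]
    exact_mod_cast (by omega : ((T.erase d).erase d').card + 4 = n)
  have hsub2 : (T.erase d).erase d' ⊆ T :=
    (Finset.erase_subset _ _).trans (Finset.erase_subset _ _)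
  obtain ⟨d'', hd2, h6⟩ := t.exists_gt C hE hH (by omega) (Finset.card_pos.1 (by omega)) hsub2
    (11 / 15) u₆ ρ₆ q₆ hK (by rw [e2]; ring_nf; norm_num) (by norm_num) hu.2.2.1 hu.2.2.2 hρ.2.2 g₆
    hq.2.2 n₆
  have hd2' := Finset.mem_erase.1 hd2
  have h65 : C.m d'' ≤ C.m d' := hd1' d'' hd2'.2
  have hδ1 : 2 * q₆ ≤ ∑ i ∈ T.erase d, C.m i := by
    rw [← Finset.add_sum_erase _ _ hd1]
    linarith [Finset.single_le_sum (fun j _ => C.m_nonneg j) hd2 (f := C.m)]
  obtain ⟨i, hi, h5⟩ := t.exists_gt' C hE hH (by omega) ⟨d', hd1⟩ (Finset.erase_subset _ _)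
    (17 / 24) u₅ ρ₅ r₅ hδ1 (by rw [e1]; ring_nf; norm_num) (by norm_num) hu.2.1 hρ.2.1 g₅ hr.2
    n₅.2 n₅.1
  have h5' : gQ u₅ < C.m d' := h5.trans_le (hd1' i hi)
  have h54 : C.m d' ≤ C.m d := hd' d' (Finset.mem_of_mem_erase hd1)
  have hδ0 : 2 * q₅ + q₆ ≤ ∑ i ∈ T, C.m i := by
    rw [← Finset.add_sum_erase _ _ hd, ← Finset.add_sum_erase _ _ hd1]
    linarith [Finset.single_le_sum (fun j _ => C.m_nonneg j) hd2 (f := C.m)]
  obtain ⟨j, hj, h4⟩ := t.exists_gt' C hE hH (by omega) ⟨d, hd⟩ subset_rfl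
    (2 / 3) u₄ ρ₄ r₄ hδ0 (by rw [e0]; ring_nf; norm_num) (by norm_num) hu.1 hρ.1 g₄ hr.1
    n₄.2 n₄.1
  have h4' : gQ u₄ < C.m d := h4.trans_le (hd' j hj)
  exact ⟨d, d', d'', hd, Finset.mem_of_mem_erase hd1, hsub2 hd2, (Finset.mem_erase.1 hd1).1.symm,
    (Finset.mem_erase.1 hd2'.2).1.symm, hd2'.1.symm, by linarith, by linarith, by linarith,
    h4'.le, h5'.le, h6.le⟩

/-- No critical configuration has six or more cells. -/
theorem not_six (C : Crit n) (hE : EhrhardProp) (hH : HalfspaceProp) (hB : BathtubProp) (hT : TriangleProp)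
    (hn : 5 ≤ n) : False := by
  have hn3 : 3 ≤ n := by omega
  have hfeas := C.feas hE hH hn3
  have hline : ∀ i, muStar ≤ C.m i → C.s i ≤ 0.5744 * C.m i + (-0.0505) :=
    fun i h => (hfeas i).line6 h (C.m_le_one i)
  have hsq : ∀ i, muStar ≤ C.m i → C.s i ^ 2 ≤ 0.0888 * C.m i + (-0.01195) :=
    fun i h => (hfeas i).sq6 h (C.m_le_one i)
  have hmu := muStar_lo
  obtain ⟨a, b, e, hab, hae, hbe, heb, hba, htop⟩ := C.exists_top (by omega)
  have he := C.muStar_lt_third hE hH hn3 hab hae hbe htop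
  have hb : muStar ≤ C.m b := he.le.trans heb
  have ha : muStar ≤ C.m a := hb.trans hba
  have hc := card_rest hab hae hbe
  have hF := C.total_gt
  have hm := C.sum_m
  by_cases hbig : ∃ d ∈ rest a b e, muStar < C.m d
  · obtain ⟨d, hd, hdm⟩ := hbig
    obtain ⟨⟨a', b', e', t, hsub⟩, hsm⟩ := C.high hE hH hB hT hn3 hab hae hbe hd ha hb he.le
      hdm.le 0.5744 (-0.0505) hline (by norm_num) (by norm_num) (by norm_num) (by norm_num)
      (by norm_num) (by norm_num)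
    have hc0 := Finset.card_erase_add_one hd
    set T := (rest a b e).erase d
    obtain ⟨x, hx, hx'⟩ := Finset.exists_max_image T C.m (Finset.card_pos.1 (by omega))
    have hc1 := Finset.card_erase_add_one hx
    have e1 : (((T.erase x).card : ℕ) : ℝ) = (n:ℝ) - 4 := by
      rw [eq_sub_iff_add_eq]
      exact_mod_cast (by omega : (T.erase x).card + 4 = n)
    obtain ⟨y, hy, hy1⟩ := t.exists_gt C hE hH hn3 (S := T.erase x) (Finset.card_pos.1 (by omega))
      ((Finset.erase_subset _ _).trans hsub) (11 / 15) 2.13 0.0298 0.01658 (by norm_num)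
      (by rw [e1]; ring_nf; norm_num) (by norm_num) (by norm_num) (by norm_num) (by norm_num)
      (by linarith [gh_2_13, gQ_2_13.1]) (le_trans (by norm_num) gQ_2_13.1) (by norm_num)
    have hy' := Finset.mem_of_mem_erase hy
    have hxy : C.m y ≤ C.m x := hx' y hy'
    have hch : ∀ j, gQ 2.13 ≤ C.m j → C.m j ≤ muStar → C.s j ≤ 0.266 * C.m j + (-0.00382) :=
      fun j h h' => (hfeas j).le_chord (by norm_num) h h' (by linarith [gh_1_04, gQ_1_04.1])
        (by linarith [gh_2_13, gQ_2_13.1])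
    rw [split4 hab hae hbe hd] at hF hm
    rw [← Finset.add_sum_erase _ C.s hx, ← Finset.add_sum_erase _ C.s hy] at hF
    rw [← Finset.add_sum_erase _ C.m hx, ← Finset.add_sum_erase _ C.m hy] at hm
    have hrest := C.sum_s_le (S := (T.erase x).erase y) (p := 0.5744) fun j hj => by
      have := (hfeas j).le_rs (hsm j (Finset.mem_of_mem_erase (Finset.mem_of_mem_erase hj)))
      linarith [C.m_nonneg j]
    have := gQ_2_13.1
    linarith [hch y hy1.le (hsm y hy'), hch x (hy1.le.trans hxy) (hsm x hx), hline a ha, hline b hb,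
      hline e he.le, hline d hdm.le]
  push Not at hbig
  rw [split3 hab hae hbe] at hF hm
  set T := rest a b e
  set δ := ∑ j ∈ T, C.m j with hδdef
  have hδ0 : 0 ≤ δ := Finset.sum_nonneg fun j _ => C.m_nonneg j
  have hrs : ∀ j ∈ T, C.s j ≤ 0.2404 * C.m j := fun j hj => (hfeas j).le_rs (hbig j hj)
  have h1 := C.sum_s_le hrs
  have hδ1 : δ ≤ 0.1941 := by
    linarith [hline a ha, hline b hb, hline e he.le]
  have t1 : C.Tri a b e 12 := C.tri_stage hE hH hB hT hn3 hab hae hbe ha hb he.le _ _ hsq 0 0.2404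
    0.17916 12 (by linarith) (by norm_num) (by norm_num) (by norm_num) (by
      rintro r l rfl rfl
      refine ⟨by linarith, by linarith, ?_⟩
      nlinarith [mul_nonneg hδ0 (sub_nonneg.2 hδ1)])
  obtain ⟨d, d', d'', hd, hd', hd'', n1, n2, n3, q4, q5, q6, g4, g5, g6⟩ :=
    C.climb6 hE hH hn t1 (by norm_num) 1.67 1.86 2.03 0.0826 0.0555 0.0381 0.0836 0.05939
      0.04745 0.03144 0.02117 (by norm_num) (by norm_num) (by norm_num)
      (by linarith [gh_1_67, gQ_1_67.1]) (by linarith [gh_1_86, gQ_1_86.1])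
      (by linarith [gh_2_03, gQ_2_03.1])
      ⟨le_trans (by norm_num) gQ_1_67.1, le_trans (by norm_num) gQ_1_86.1,
        le_trans (by norm_num) gQ_2_03.1⟩ (by norm_num) (by norm_num) (by norm_num)
  have hch : ∀ j ∈ T, ∀ u g q c : ℝ, 0 ≤ u → gQ u ≤ C.m j → gh u ≤ g → q ≤ gQ u →
      2 * g ≤ 0.316 * q + c → c ≥ -0.01127 → C.s j ≤ 0.316 * C.m j + c := by
    intro j hj u g q c _ hu hg hq hnum hc
    exact (hfeas j).le_chord (by norm_num) hu (hbig j hj) (by linarith [gh_1_04, gQ_1_04.1])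
      (by linarith)
  set R : Finset (Fin (n + 1)) := {d, d', d''}
  have hR : R ⊆ T := by
    intro i hi
    simp only [R, Finset.mem_insert, Finset.mem_singleton] at hi
    rcases hi with rfl | rfl | rfl <;> assumption
  let c : Fin (n + 1) → ℝ := fun i =>
    if i = d then -0.01108 else if i = d' then -0.00817 else -0.00587
  have hsum2 := C.sum_rest_le hR 0.316 c
    (fun i hi => by
      simp only [R, Finset.mem_insert, Finset.mem_singleton] at hi
      rcases hi with rfl | rfl | rfl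
      · simp only [c, if_pos]
        exact hch _ hd _ _ _ _ (by norm_num) g4 gh_1_67 gQ_1_67.1 (by norm_num) (by norm_num)
      · simp only [c, if_neg n1.symm, if_pos]
        exact hch _ hd' _ _ _ _ (by norm_num) g5 gh_1_86 gQ_1_86.1 (by norm_num) (by norm_num)
      · simp only [c, if_neg n2.symm, if_neg n3.symm]
        exact hch _ hd'' _ _ _ _ (by norm_num) g6 gh_2_03 gQ_2_03.1 (by norm_num) (by norm_num))
    (fun i hi => by linarith [hrs i hi, C.m_nonneg i])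
  have hcs : ∑ i ∈ R, c i = -0.02512 := by
    simp [R, c, n1, n2, n3, n1.symm, n2.symm, n3.symm]
    norm_num
  rw [hcs] at hsum2
  have hδ2 : 0.10006 ≤ δ := by
    have h := Finset.sum_le_sum_of_subset_of_nonneg hR (f := C.m) fun j _ _ => C.m_nonneg j
    simp [R, n1, n2, n3] at h
    linarith
  have hδ3 : δ ≤ 0.1536 := by
    linarith [hline a ha, hline b hb, hline e he.le]
  have t2 : C.Tri a b e 8.6 := C.tri_stage hE hH hB hT hn3 hab hae hbe ha hb he.le _ _ hsq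
    (-0.02512) 0.316 0.2500 8.6 hsum2 (by norm_num) (by norm_num) (by norm_num) (by
      rintro r l rfl rfl
      refine ⟨by linarith, by linarith, ?_⟩
      nlinarith [mul_nonneg (sub_nonneg.2 hδ2) (sub_nonneg.2 hδ3)])
  obtain ⟨f, f', f'', hf, hf', hf'', k1, k2, k3, p4, p5, p6, w4, w5, w6⟩ :=
    C.climb6 hE hH hn t2 (by norm_num) 1.48 1.69 1.87 0.1181 0.0790 0.0540 0.1189 0.0844
      0.06943 0.0455 0.03074 (by norm_num) (by norm_num) (by norm_num)
      (by linarith [gh_1_48, gQ_1_48.1]) (by linarith [gh_1_69, gQ_1_69.1])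
      (by linarith [gh_1_87, gQ_1_87.1])
      ⟨le_trans (by norm_num) gQ_1_48.1, le_trans (by norm_num) gQ_1_69.1,
        le_trans (by norm_num) gQ_1_87.1⟩ (by norm_num) (by norm_num) (by norm_num)
  have hch2 : ∀ j ∈ T, ∀ u g q c : ℝ, 0 ≤ u → gQ u ≤ C.m j → gh u ≤ g → q ≤ gQ u →
      2 * g ≤ 0.349 * q + c → c ≥ -0.01618 → C.s j ≤ 0.349 * C.m j + c := by
    intro j hj u g q c _ hu hg hq hnum hc
    exact (hfeas j).le_chord (by norm_num) hu (hbig j hj) (by linarith [gh_1_04, gQ_1_04.1])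
      (by linarith)
  set R' : Finset (Fin (n + 1)) := {f, f', f''}
  have hR' : R' ⊆ T := by
    intro i hi
    simp only [R', Finset.mem_insert, Finset.mem_singleton] at hi
    rcases hi with rfl | rfl | rfl <;> assumption
  let c' : Fin (n + 1) → ℝ := fun i =>
    if i = f then -0.0159 else if i = f' then -0.0122 else -0.0090
  have hsum3 := C.sum_rest_le hR' 0.349 c'
    (fun i hi => by
      simp only [R', Finset.mem_insert, Finset.mem_singleton] at hi
      rcases hi with rfl | rfl | rfl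
      · simp only [c', if_pos]
        exact hch2 _ hf _ _ _ _ (by norm_num) w4 gh_1_48 gQ_1_48.1 (by norm_num) (by norm_num)
      · simp only [c', if_neg k1.symm, if_pos]
        exact hch2 _ hf' _ _ _ _ (by norm_num) w5 gh_1_69 gQ_1_69.1 (by norm_num) (by norm_num)
      · simp only [c', if_neg k2.symm, if_neg k3.symm]
        exact hch2 _ hf'' _ _ _ _ (by norm_num) w6 gh_1_87 gQ_1_87.1 (by norm_num) (by norm_num))
    (fun i hi => by linarith [hrs i hi, C.m_nonneg i])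
  have hcs' : ∑ i ∈ R', c' i = -0.0371 := by
    simp [R', c', k1, k2, k3, k1.symm, k2.symm, k3.symm]
    norm_num
  rw [hcs'] at hsum3
  have h := Finset.sum_le_sum_of_subset_of_nonneg hR' (f := C.m) fun j _ _ => C.m_nonneg j
  simp [R', k1, k2, k3] at h
  linarith [hline a ha, hline b hb, hline e he.le]

end Vale.Agent.P226.Crit
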