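import Vale.Agent.P226.Setup

/-!
Lemmas shared by the case analyses with at least five cells.
-/

open MeasureTheory ProbabilityTheory Set Filter
open scoped RealInnerProductSpace

namespace Vale.Agent.P226.Crit

variable {n : ℕ} (C : Crit n)

/-- A triangle bound from affine bounds on the rest. -/
lemma tri_stage (hE : EhrhardProp) (hH : HalfspaceProp) (hB : BathtubProp) (hT : TriangleProp)
    (hn : 3 ≤ n) {a b e : Fin (n + 1)} (hab : a ≠ b) (hae : a ≠ e) (hbe : b ≠ e)
    (ha : muStar ≤ C.m a) (hb : muStar ≤ C.m b) (he : muStar ≤ C.m e) (sp sq : ℝ)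
    (hsq : ∀ i, muStar ≤ C.m i → C.s i ^ 2 ≤ sp * C.m i + sq) (a₀ a₁ q K : ℝ)
    (hrest : ∑ j ∈ rest a b e, C.s j ≤ a₀ + a₁ * ∑ j ∈ rest a b e, C.m j)
    (hq : 0 < q) (hK : 0 ≤ K) (hK' : 27 ≤ 12.5663 * q * K)
    (hnum : ∀ r l : ℝ, r = a₀ + a₁ * ∑ j ∈ rest a b e, C.m j →
      l = 0.358098 - 0.02438 - 0.3625 * (1 - (∑ j ∈ rest a b e, C.m j) - 0.1491699) - r →
      r ≤ 0.358098 / 2 ∧ 0 ≤ 2.5 * (0.358098 - r) - 6 * l + 1.25 * r ∧
        q ^ 2 ≤ 2.25 * (0.358098 - r) ^ 2 - r * (2.5 * (0.358098 - r) - 6 * l + 1.25 * r)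
          - 4.5 * (sp * (1 - ∑ j ∈ rest a b e, C.m j) + 3 * sq)) :
    C.Tri a b e K := by
  set δ := ∑ j ∈ rest a b e, C.m j
  set r := a₀ + a₁ * δ
  set l := 0.358098 - 0.02438 - 0.3625 * (1 - δ - 0.1491699) - r
  obtain ⟨h1, h2, h3⟩ := hnum r l rfl rfl
  have hl : l = 0.358098 - 0.02438 - 0.3625 * (1 - δ - 0.1491699) - r := rfl
  have hF := C.total_gt
  have hm := C.sum_m
  rw [split3 hab hae hbe] at hF hm
  have hlo := muStar_lo
  have ta := (C.feas hE hH hn a).tan52 ha
  have tb := (C.feas hE hH hn b).tan52 hb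
  have te := (C.feas hE hH hn e).tan52 he
  have hQ := C.triQ_ge hab hae hbe (l := l) (σ := sp * (1 - δ) + 3 * sq) (r := r)
    (by linarith) (by linarith) (by linarith)
    (by
      have hδ : 1 - δ = C.m a + C.m b + C.m e := by linarith
      rw [hδ]
      linarith [hsq a ha, hsq b hb, hsq e he])
    hrest h1 h2
  exact Tri.mk' C hB hT hab hae hbe (lt_of_lt_of_le (pow_pos hq 2) (h3.trans hQ)) le_rfl
    (tail_div_le hq (h3.trans hQ) hK hK')

/-- Affine bound on the rest from chords at designated cells. -/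
lemma sum_rest_le {S R : Finset (Fin (n + 1))} (hR : R ⊆ S) (a₁ : ℝ) (c : Fin (n + 1) → ℝ)
    (h : ∀ i ∈ R, C.s i ≤ a₁ * C.m i + c i) (h' : ∀ i ∈ S, C.s i ≤ a₁ * C.m i) :
    ∑ i ∈ S, C.s i ≤ (∑ i ∈ R, c i) + a₁ * ∑ i ∈ S, C.m i := by
  have h1 := Finset.sum_le_sum h
  have h2 := C.sum_s_le (S := S \ R) fun j hj => h' j (Finset.mem_sdiff.1 hj).1
  rw [Finset.sum_add_distrib, ← Finset.mul_sum] at h1
  rw [← Finset.sum_sdiff hR (f := C.s), ← Finset.sum_sdiff hR (f := C.m)]
  linarith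

lemma split4 {a b e d : Fin (n + 1)} (hab : a ≠ b) (hae : a ≠ e) (hbe : b ≠ e)
    (hd : d ∈ rest a b e) (f : Fin (n + 1) → ℝ) :
    ∑ i, f i = f a + f b + f e + f d + ∑ j ∈ (rest a b e).erase d, f j := by
  rw [split3 hab hae hbe f, ← Finset.add_sum_erase _ f hd]
  ring

lemma triQ_four {sa sb se sd cab cae cbe : ℝ} (hab : 0 ≤ cab) (hae : 0 ≤ cae) (hbe : 0 ≤ cbe)
    (h1 : cab + cae ≤ sa) (h2 : cab + cbe ≤ sb) (h3 : cae + cbe ≤ se) (hba : sb ≤ sa)
    (heb : se ≤ sb) (hde : sd ≤ se) (ha : sa ≤ 0.1383) (hsum : 0.3558 ≤ sa + sb + se + sd) :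
    0.021 ≤ triQ sa sb se cab cae cbe := by
  have hse : 0 ≤ se := by linarith
  have hg : 2 * (cae * cbe) - cae ^ 2 - cbe ^ 2 + 2 * (sa * cbe + sb * cae) ≥ 0 := by
    nlinarith [mul_nonneg hbe (by linarith : 0 ≤ 2 * sa - cbe),
      mul_nonneg hae (by linarith : 0 ≤ 2 * sb - cae), mul_nonneg hae hbe]
  have hf : sb * min sa (2 * se) ≤ sa * sb + cab * (2 * se - cab) := by
    rcases le_total cab (2 * se) with h | h
    · have := mul_nonneg hab (sub_nonneg.2 h)
      have := mul_le_mul_of_nonneg_left (min_le_left sa (2 * se)) (by linarith : 0 ≤ sb)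
      linarith
    · have e1 := mul_le_mul_of_nonneg_left (min_le_right sa (2 * se)) (by linarith : 0 ≤ sb)
      have e2 : cab ≤ sb := by linarith
      have e3 := mul_nonneg (sub_nonneg.2 e2) (by linarith : 0 ≤ sb + cab - 2 * se)
      have e4 := mul_nonneg (sub_nonneg.2 hba) (by linarith : 0 ≤ sb)
      nlinarith
  have hL : se * (sa + sb) + sb * min sa (2 * se) ≤ triQ sa sb se cab cae cbe := by
    unfold triQ
    nlinarith [mul_nonneg hab hae, mul_nonneg hab hbe]
  refine le_trans ?_ hL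
  rcases le_total sa (2 * se) with h | h
  · rw [min_eq_left h]
    nlinarith
  · rw [min_eq_right h]
    nlinarith

/-- Four large cells are impossible when the budget of the line is small. -/
lemma high (hE : EhrhardProp) (hH : HalfspaceProp) (hB : BathtubProp) (hT : TriangleProp)
    (hn : 3 ≤ n) {a b e d : Fin (n + 1)} (hab : a ≠ b) (hae : a ≠ e) (hbe : b ≠ e)
    (hd : d ∈ rest a b e) (ha : muStar ≤ C.m a) (hb : muStar ≤ C.m b) (he : muStar ≤ C.m e)
    (hdm : muStar ≤ C.m d) (p q : ℝ) (hline : ∀ i, muStar ≤ C.m i → C.s i ≤ p * C.m i + q)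
    (hp : 0.556 ≤ p) (hbud : p + 4 * q - 0.358098 ≤ (p - 0.2404) * 0.0433)
    (hbud' : p + 4 * q - 0.358098 ≤ (p - 0.0775) * 0.0296)
    (htan : p + 3 * q + 0.04305 - 0.358098 ≤ (p - 0.2693) * 0.3536)
    (hq : q ≤ 0) (h5 : p + 5 * q ≤ 0.358) :
    (∃ a' b' e', C.Tri a' b' e' 14.83 ∧ (rest a b e).erase d ⊆ rest a' b' e') ∧
    (∀ j ∈ (rest a b e).erase d, C.m j ≤ muStar) := by
  set T := (rest a b e).erase d
  have hsp : ∀ i, C.s i ≤ p * C.m i := by
    intro i
    rcases le_total (C.m i) muStar with h | h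
    · have := (C.feas hE hH hn i).le_rs h
      nlinarith [C.m_nonneg i]
    · linarith [hline i h]
  have hF := C.total_gt
  have hm := C.sum_m
  rw [split4 hab hae hbe hd] at hF hm
  have hsmall : ∀ j ∈ T, C.m j ≤ muStar := by
    intro j hj
    by_contra hc
    push Not at hc
    rw [← Finset.add_sum_erase _ _ hj] at hF hm
    have h2 := C.sum_s_le (S := T.erase j) fun i _ => hsp i
    have hpm := congrArg (p * ·) hm
    simp only [mul_add, mul_one] at hpm
    linarith [hline a ha, hline b hb, hline e he, hline d hdm, hline j hc.le]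
  refine ⟨?_, hsmall⟩
  have hpm := congrArg (p * ·) hm
  simp only [mul_add, mul_one] at hpm
  have h1 := C.sum_s_le (S := T) fun j hj => (C.feas hE hH hn j).le_rs (hsmall j hj)
  have hδ0 : 0 ≤ ∑ j ∈ T, C.m j := Finset.sum_nonneg fun j _ => C.m_nonneg j
  have hδ1 : ∑ j ∈ T, C.m j ≤ 0.0433 := by
    by_contra hc
    push Not at hc
    have : (p - 0.2404) * 0.0433 < (p - 0.2404) * ∑ j ∈ T, C.m j :=
      mul_lt_mul_of_pos_left hc (by linarith)
    linarith [hline a ha, hline b hb, hline e he, hline d hdm]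
  have h2 := C.sum_s_le (S := T) fun j hj => (C.feas hE hH hn j).le_rho (a := 1.71) (ρ := 0.0775)
    (by norm_num) (by norm_num)
    (((Finset.single_le_sum (fun i _ => C.m_nonneg i) hj).trans hδ1).trans
      (le_trans (by norm_num) gQ_1_71.1))
    (by linarith [gh_1_71, gQ_1_71.1])
  have hST : ∑ j ∈ T, C.s j ≤ 0.002295 := by
    have : (p - 0.0775) * (∑ j ∈ T, C.m j) ≤ p + 4 * q - 0.358098 := by
      linarith [hline a ha, hline b hb, hline e he, hline d hdm]
    have hd2 : ∑ j ∈ T, C.m j ≤ 0.0296 := by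
      by_contra hc
      push Not at hc
      have := mul_lt_mul_of_pos_left hc (by linarith : 0 < p - 0.0775)
      linarith
    linarith
  set U : Finset (Fin (n + 1)) := {a, b, e, d}
  obtain ⟨hda, hdb, hde⟩ := mem_rest.1 hd
  have hU : ∀ i ∈ U, C.s i ≤ 0.1383 := by
    intro i hi
    simp only [U, Finset.mem_insert, Finset.mem_singleton] at hi
    rcases hi with rfl | rfl | rfl | rfl
    · have t := (C.feas hE hH hn i).tan36 ha
      by_contra hc
      have := mul_lt_mul_of_pos_left (by linarith : (0.3536:ℝ) < C.m i)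
        (by linarith : 0 < p - 0.2693)
      linarith [hline b hb, hline e he, hline d hdm, C.sum_s_le (S := T) fun j _ => hsp j]
    · have t := (C.feas hE hH hn i).tan36 hb
      by_contra hc
      have := mul_lt_mul_of_pos_left (by linarith : (0.3536:ℝ) < C.m i)
        (by linarith : 0 < p - 0.2693)
      linarith [hline a ha, hline e he, hline d hdm, C.sum_s_le (S := T) fun j _ => hsp j]
    · have t := (C.feas hE hH hn i).tan36 he
      by_contra hc
      have := mul_lt_mul_of_pos_left (by linarith : (0.3536:ℝ) < C.m i)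
        (by linarith : 0 < p - 0.2693)
      linarith [hline a ha, hline b hb, hline d hdm, C.sum_s_le (S := T) fun j _ => hsp j]
    · have t := (C.feas hE hH hn i).tan36 hdm
      by_contra hc
      have := mul_lt_mul_of_pos_left (by linarith : (0.3536:ℝ) < C.m i)
        (by linarith : 0 < p - 0.2693)
      linarith [hline a ha, hline b hb, hline e he, C.sum_s_le (S := T) fun j _ => hsp j]
  have hcard : U.card = 4 := by
    simp [U, hab, hae, hbe, hda.symm, hdb.symm, hde.symm]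
  obtain ⟨x, hx, hx'⟩ := Finset.exists_max_image U C.s (Finset.card_pos.1 (by omega))
  have c1 := Finset.card_erase_add_one hx
  obtain ⟨y, hy, hy'⟩ := Finset.exists_max_image (U.erase x) C.s (Finset.card_pos.1 (by omega))
  have c2 := Finset.card_erase_add_one hy
  obtain ⟨w, hw, hw'⟩ := Finset.exists_max_image ((U.erase x).erase y) C.s
    (Finset.card_pos.1 (by omega))
  have c3 := Finset.card_erase_add_one hw
  obtain ⟨v, hv⟩ := Finset.card_eq_one.1 (by omega : (((U.erase x).erase y).erase w).card = 1)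
  have hv' : v ∈ ((U.erase x).erase y).erase w := by simp [hv]
  have hyx : y ≠ x := (Finset.mem_erase.1 hy).1
  have hwy : w ≠ y := (Finset.mem_erase.1 hw).1
  have hwx : w ≠ x := (Finset.mem_erase.1 (Finset.mem_erase.1 hw).2).1
  refine ⟨x, y, w, Tri.mk' C hB hT hyx.symm hwx.symm hwy.symm (Q := 0.021) (by norm_num) ?_
    (tail_div_le (q := 0.1449) (by norm_num) (by norm_num) (by norm_num) (by norm_num)), ?_⟩
  · have hsumU : ∑ i ∈ U, C.s i = C.s a + C.s b + C.s e + C.s d := by
      simp [U, hab, hae, hbe, hda.symm, hdb.symm, hde.symm, add_assoc]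
    rw [← Finset.add_sum_erase _ _ hx, ← Finset.add_sum_erase _ _ hy,
      ← Finset.add_sum_erase _ _ hw, hv, Finset.sum_singleton] at hsumU
    simp only [T] at hST
    obtain ⟨hx1, -⟩ := C.sum_cross_le hyx.symm hwx.symm hwy.symm
    have hy1 := (C.sum_cross_le hyx hwy.symm hwx.symm).1
    have hw1 := (C.sum_cross_le hwx hwy hyx.symm).1
    rw [C.c_comm y x] at hy1
    rw [C.c_comm w x, C.c_comm w y] at hw1
    refine triQ_four (sd := C.s v) (C.c_pos hyx.symm).le (C.c_pos hwx.symm).le (C.c_pos hwy.symm).le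
      (by linarith) (by linarith) (by linarith) (hx' y (Finset.mem_of_mem_erase hy))
      (hy' w (Finset.mem_of_mem_erase hw)) (hw' v (Finset.mem_of_mem_erase hv'))
      (hU x hx) (by linarith)
  · intro j hj
    obtain ⟨hjd, hj⟩ := Finset.mem_erase.1 hj
    obtain ⟨h1, h2, h3⟩ := mem_rest.1 hj
    have hjU : j ∉ U := by simp [U, h1, h2, h3, hjd]
    refine mem_rest.2 ⟨?_, ?_, ?_⟩ <;> rintro rfl
    · exact hjU hx
    · exact hjU (Finset.mem_of_mem_erase hy)
    · exact hjU (Finset.mem_of_mem_erase (Finset.mem_of_mem_erase hw))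

end Vale.Agent.P226.Crit
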