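import Vale.Agent.P226.Phi

/-!
Reduction to a critical configuration: `k = n + 1` vectors in dimension `n` which are the first
moments of their own arg-max cells and beat the conjectured value.
-/

open MeasureTheory ProbabilityTheory Set Filter
open scoped RealInnerProductSpace

namespace Vale.Agent.P226

/-- The inequality for families of `k` vectors. -/
def PropBound (k : ℕ) : Prop :=
  ∀ (d : ℕ) (z : Fin k → Eu d) (h : (Finset.univ : Finset (Fin k)).Nonempty),
    gPhi Finset.univ h z ≤ Real.sqrt c2 * Real.sqrt (∑ i, ‖z i‖ ^ 2)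

lemma gPhi_le_of_bound {ι : Type*} {d : ℕ} (R : Finset ι) (hR : R.Nonempty) (hb : PropBound R.card)
    (z : ι → Eu d) (b : Eu d) :
    gPhi R hR z ≤ Real.sqrt c2 * Real.sqrt (∑ i ∈ R, ‖z i - b‖ ^ 2) := by
  set e : Fin R.card ↪ ι := R.equivFin.symm.toEmbedding.trans (Function.Embedding.subtype _) with he
  have hmap : (Finset.univ : Finset (Fin R.card)).map e = R := by
    ext i
    simp only [Finset.mem_map, Finset.mem_univ, true_and]
    constructor
    · rintro ⟨k, rfl⟩
      exact (R.equivFin.symm k).2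
    · intro hi
      exact ⟨R.equivFin ⟨i, hi⟩, by simp [he]⟩
  have hne : (Finset.univ : Finset (Fin R.card)).Nonempty :=
    ⟨⟨0, Finset.card_pos.2 hR⟩, Finset.mem_univ _⟩
  have h := hb d (fun k => z (e k) - b) hne
  rw [← gPhi_map Finset.univ hne e (fun i => z i - b), gPhi_sub] at h
  have hs : ∑ k, ‖z (e k) - b‖ ^ 2 = ∑ i ∈ R, ‖z i - b‖ ^ 2 := by
    conv_rhs => rw [← hmap, Finset.sum_map]
  rw [hs] at h
  convert h using 3
  exact hmap.symm

lemma exists_embedding {r d : ℕ} (v : Fin r → Eu d) (hv : Orthonormal ℝ v) :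
    ∃ T : Eu r →ₗᵢ[ℝ] Eu d, ∀ x : Eu r, T x = ∑ i, x i • v i := by
  let B := (EuclideanSpace.basisFun (Fin r) ℝ).toBasis
  let f : Eu r →ₗ[ℝ] Eu d := B.constr ℝ v
  have hB : Orthonormal ℝ B := by
    simp only [B, OrthonormalBasis.coe_toBasis]
    exact (EuclideanSpace.basisFun (Fin r) ℝ).orthonormal
  have hf : Orthonormal ℝ (f ∘ B) := by
    have : f ∘ B = v := funext fun i => B.constr_basis ℝ v i
    rw [this]
    exact hv
  refine ⟨f.isometryOfOrthonormal hB hf, fun x => ?_⟩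
  change f x = _
  simp [f, B, Module.Basis.constr_apply_fintype, EuclideanSpace.basisFun_repr]

lemma exists_transport {n d : ℕ} (z : Fin (n + 1) → Eu d) (h0 : ∑ i, z i = 0) :
    ∃ (r : ℕ) (w : Fin (n + 1) → Eu r) (T₁ : Eu r →ₗᵢ[ℝ] Eu d) (_T₂ : Eu r →ₗᵢ[ℝ] Eu n),
      ∀ i, T₁ (w i) = z i := by
  set W := Submodule.span ℝ (range fun i : Fin n => z i.castSucc)
  set r := Module.finrank ℝ W
  have hr : r ≤ n := (finrank_range_le_card _).trans_eq (Fintype.card_fin n)
  have hz : ∀ i, z i ∈ W := by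
    intro i
    induction i using Fin.lastCases with
    | last =>
      rw [Fin.sum_univ_castSucc] at h0
      rw [eq_neg_of_add_eq_zero_right h0]
      exact W.neg_mem (W.sum_mem fun j _ => Submodule.subset_span ⟨j, rfl⟩)
    | cast j => exact Submodule.subset_span ⟨j, rfl⟩
  set b := stdOrthonormalBasis ℝ W
  obtain ⟨T₁, hT₁⟩ := exists_embedding (fun i : Fin r => (b i : Eu d))
    (b.orthonormal.comp_linearIsometry W.subtypeₗᵢ)
  obtain ⟨T₂, -⟩ := exists_embedding (fun i : Fin r => EuclideanSpace.basisFun (Fin n) ℝ (i.castLE hr))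
    ((EuclideanSpace.basisFun (Fin n) ℝ).orthonormal.comp _ (Fin.castLE_injective hr))
  refine ⟨r, fun i => WithLp.toLp 2 fun j => b.repr ⟨z i, hz i⟩ j, T₁, T₂, fun i => ?_⟩
  rw [hT₁]
  have h := congrArg (Subtype.val (p := fun x => x ∈ W)) (b.sum_repr ⟨z i, hz i⟩)
  simpa [Submodule.coe_sum] using h

/-- A configuration which would contradict the conjecture. -/
structure Crit (n : ℕ) : Type where
  z : Fin (n + 1) → Eu n
  bound : ∀ k ≤ n, PropBound k
  gt : c2 < ∑ i, ‖z i‖ ^ 2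
  phi_eq : gPhi Finset.univ Finset.univ_nonempty z = ∑ i, ‖z i‖ ^ 2
  phi_le : ∀ w : Fin (n + 1) → Eu n, gPhi Finset.univ Finset.univ_nonempty w ≤
    Real.sqrt (∑ i, ‖z i‖ ^ 2) * Real.sqrt (∑ i, ‖w i‖ ^ 2)

lemma c2_pos : 0 < c2 := by
  unfold c2
  positivity

lemma sum_norm_sub_sq_le {ι : Type*} [Fintype ι] [Nonempty ι] {d : ℕ} (z : ι → Eu d) :
    let b := (Fintype.card ι : ℝ)⁻¹ • ∑ i, z i
    ∑ i, ‖z i - b‖ ^ 2 ≤ ∑ i, ‖z i‖ ^ 2 ∧ ∑ i, (z i - b) = 0 := by
  intro b
  have hk : (Fintype.card ι : ℝ) ≠ 0 := Nat.cast_ne_zero.2 Fintype.card_ne_zero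
  have hs : ∑ i, z i = (Fintype.card ι : ℝ) • b := (smul_inv_smul₀ hk _).symm
  refine ⟨?_, ?_⟩
  · simp only [norm_sub_sq_real, Finset.sum_add_distrib, Finset.sum_sub_distrib, ← Finset.mul_sum,
      ← sum_inner, hs, real_inner_smul_left, real_inner_self_eq_norm_sq, Finset.sum_const,
      Finset.card_univ, nsmul_eq_mul]
    nlinarith [mul_nonneg (Nat.cast_nonneg (α := ℝ) (Fintype.card ι)) (sq_nonneg ‖b‖)]
  · rw [Finset.sum_sub_distrib, Finset.sum_const, Finset.card_univ, hs, Nat.cast_smul_eq_nsmul]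
    exact sub_self _

/-- The induction step, given that critical configurations are impossible. -/
theorem propBound_succ {n : ℕ} (hn : 1 ≤ n) (hprev : ∀ k ≤ n, PropBound k)
    (hcrit : Crit n → False) : PropBound (n + 1) := by
  have hne : (Finset.univ : Finset (Fin (n + 1))).Nonempty := Finset.univ_nonempty
  suffices hcore : ∀ w : Fin (n + 1) → Eu n,
      gPhi Finset.univ hne w ≤ Real.sqrt c2 * Real.sqrt (∑ i, ‖w i‖ ^ 2) by
    intro d z h
    obtain ⟨hle, hsum⟩ := sum_norm_sub_sq_le z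
    set b := (Fintype.card (Fin (n + 1)) : ℝ)⁻¹ • ∑ i, z i
    obtain ⟨r, w, T₁, T₂, hw⟩ := exists_transport (fun i => z i - b) hsum
    calc gPhi Finset.univ h z = gPhi Finset.univ h (fun i => T₁ (w i)) := by
          rw [← gPhi_sub Finset.univ h z b]
          simp only [hw]
      _ = gPhi Finset.univ h (fun i => T₂ (w i)) := by
          rw [gPhi_isometry, gPhi_isometry]
      _ ≤ Real.sqrt c2 * Real.sqrt (∑ i, ‖T₂ (w i)‖ ^ 2) := hcore _
      _ ≤ _ := by
          refine mul_le_mul_of_nonneg_left (Real.sqrt_le_sqrt (le_trans (le_of_eq ?_) hle))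
            (Real.sqrt_nonneg _)
          refine Finset.sum_congr rfl fun i _ => ?_
          rw [LinearIsometry.norm_map, ← hw, LinearIsometry.norm_map]
  set N : (Fin (n + 1) → Eu n) → ℝ := fun w => ∑ i, ‖w i‖ ^ 2
  have hNc : Continuous N := by fun_prop
  set K : Set (Fin (n + 1) → Eu n) := {w | N w = 1}
  have hKc : IsCompact K := by
    refine Metric.isCompact_of_isClosed_isBounded (isClosed_eq hNc continuous_const) ?_
    refine (Metric.isBounded_iff_subset_closedBall 0).2 ⟨1, fun w hw => ?_⟩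
    rw [Metric.mem_closedBall, dist_zero_right, pi_norm_le_iff_of_nonneg zero_le_one]
    intro i
    have h1 : ‖w i‖ ^ 2 ≤ 1 := by
      rw [← (hw : N w = 1)]
      exact Finset.single_le_sum (f := fun j => ‖w j‖ ^ 2) (fun j _ => sq_nonneg _)
        (Finset.mem_univ i)
    nlinarith [norm_nonneg (w i)]
  have hKne : K.Nonempty := by
    refine ⟨fun i => if i = 0 then EuclideanSpace.single (⟨0, hn⟩ : Fin n) (1:ℝ) else 0, ?_⟩
    change ∑ i, ‖_‖ ^ 2 = (1:ℝ)
    rw [Finset.sum_eq_single (0 : Fin (n + 1))]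
    · simp
    · intro b _ hb
      simp [hb]
    · simp
  obtain ⟨w₀, hw₀, hmax⟩ := hKc.exists_isMaxOn hKne (continuous_gPhi Finset.univ hne).continuousOn
  set M := gPhi Finset.univ hne w₀
  have hscale : ∀ w, gPhi Finset.univ hne w ≤ M * Real.sqrt (N w) := by
    intro w
    rcases eq_or_lt_of_le (Finset.sum_nonneg fun i _ => sq_nonneg ‖w i‖ : 0 ≤ N w) with h0 | h0
    · have : ∀ i, w i = 0 := fun i => by
        have := (Finset.sum_eq_zero_iff_of_nonneg fun i _ => sq_nonneg ‖w i‖).1 h0.symm i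
          (Finset.mem_univ i)
        simpa using this
      have hw : w = fun _ => (0 : Eu n) := funext this
      have hz : gPhi Finset.univ hne w = 0 := by
        rw [hw]
        simp [gPhi, gMax]
      rw [hz, show N w = 0 from h0.symm]
      simp
    · set a := Real.sqrt (N w)
      have ha : 0 < a := Real.sqrt_pos.2 h0
      have hmem : (fun i => a⁻¹ • w i) ∈ K := by
        change ∑ i, ‖a⁻¹ • w i‖ ^ 2 = 1
        simp only [norm_smul, norm_inv, Real.norm_of_nonneg ha.le, mul_pow, ← Finset.mul_sum]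
        rw [show (∑ i, ‖w i‖ ^ 2) = a ^ 2 from (Real.sq_sqrt h0.le).symm]
        field_simp
      have h : gPhi Finset.univ hne (fun i => a⁻¹ • w i) ≤ M := hmax hmem
      rw [gPhi_smul _ _ _ (inv_nonneg.2 ha.le)] at h
      have := mul_le_mul_of_nonneg_left h ha.le
      rw [← mul_assoc, mul_inv_cancel₀ ha.ne', one_mul] at this
      rw [mul_comm]
      exact this
  intro w
  rcases le_or_gt M (Real.sqrt c2) with hM | hM
  · exact (hscale w).trans (mul_le_mul_of_nonneg_right hM (Real.sqrt_nonneg _))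
  have hM0 : 0 < M := (Real.sqrt_nonneg _).trans_lt hM
  have hsum : ∑ i, ‖M • w₀ i‖ ^ 2 = M ^ 2 := by
    simp only [norm_smul, Real.norm_of_nonneg hM0.le, mul_pow, ← Finset.mul_sum]
    rw [show (∑ i, ‖w₀ i‖ ^ 2) = 1 from hw₀, mul_one]
  exact (hcrit
    { z := fun i => M • w₀ i
      bound := hprev
      gt := by
        rw [hsum, ← Real.sq_sqrt c2_pos.le]
        exact pow_lt_pow_left₀ hM (Real.sqrt_nonneg _) two_ne_zero
      phi_eq := by
        rw [hsum, gPhi_smul _ _ _ hM0.le, sq]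
      phi_le := fun w => by
        rw [hsum, Real.sqrt_sq hM0.le]
        exact hscale w }).elim

namespace Crit

variable {n : ℕ} (C : Crit n)

/-- Squared norms. -/
noncomputable def s (i : Fin (n + 1)) : ℝ := ‖C.z i‖ ^ 2

/-- Negated inner products. -/
noncomputable def c (i j : Fin (n + 1)) : ℝ := -⟪C.z i, C.z j⟫

lemma c_comm (i j : Fin (n + 1)) : C.c i j = C.c j i := by
  simp [c, real_inner_comm]

/-- The arg-max cell with least-index tie breaking. -/
def cell (i : Fin (n + 1)) : Set (Eu n) :=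
  {x | (∀ j, ⟪C.z j, x⟫ ≤ ⟪C.z i, x⟫) ∧ ∀ j < i, ⟪C.z j, x⟫ < ⟪C.z i, x⟫}

/-- The closed cell. -/
def ccell (i : Fin (n + 1)) : Set (Eu n) := {x | ∀ j, ⟪C.z j, x⟫ ≤ ⟪C.z i, x⟫}

lemma measurable_cell (i : Fin (n + 1)) : MeasurableSet (C.cell i) := by
  have h : C.cell i = (⋂ j, {x | ⟪C.z j, x⟫ ≤ ⟪C.z i, x⟫}) ∩
      ⋂ j ∈ Finset.univ.filter (· < i), {x | ⟪C.z j, x⟫ < ⟪C.z i, x⟫} := by
    ext x
    simp [cell]
  rw [h]
  exact (MeasurableSet.iInter fun j => measurableSet_le (by fun_prop) (by fun_prop)).inter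
    (Finset.measurableSet_biInter _ fun j _ => measurableSet_lt (by fun_prop) (by fun_prop))

lemma measurable_ccell (i : Fin (n + 1)) : MeasurableSet (C.ccell i) := by
  have h : C.ccell i = ⋂ j, {x | ⟪C.z j, x⟫ ≤ ⟪C.z i, x⟫} := by
    ext x
    simp [ccell]
  rw [h]
  exact MeasurableSet.iInter fun j => measurableSet_le (by fun_prop) (by fun_prop)

lemma disjoint_cell : Pairwise (Function.onFun Disjoint C.cell) := by
  intro i j hij
  rw [Function.onFun, Set.disjoint_left]
  intro x hi hj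
  rcases lt_or_gt_of_ne hij with h | h
  · exact absurd (hi.1 j) (not_le.2 (hj.2 i h))
  · exact absurd (hj.1 i) (not_le.2 (hi.2 j h))

lemma aedisjoint_cell : Pairwise fun i j => AEDisjoint (gam n) (C.cell i) (C.cell j) :=
  fun _ _ h => (C.disjoint_cell h).aedisjoint

lemma iUnion_cell : (⋃ i, C.cell i) = univ := by
  refine eq_univ_of_forall fun x => mem_iUnion.2 ?_
  have hne : (Finset.univ.filter fun i => ∀ j, ⟪C.z j, x⟫ ≤ ⟪C.z i, x⟫).Nonempty := by
    obtain ⟨i, -, hi⟩ := Finset.exists_max_image Finset.univ (fun j => ⟪C.z j, x⟫) Finset.univ_nonempty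
    exact ⟨i, by simpa using fun j => hi j (Finset.mem_univ j)⟩
  refine ⟨_, (Finset.mem_filter.1 (Finset.min'_mem _ hne)).2, fun j hj => ?_⟩
  have hi := (Finset.mem_filter.1 (Finset.min'_mem _ hne)).2
  by_contra hc
  push Not at hc
  have : j ∈ Finset.univ.filter fun i => ∀ l, ⟪C.z l, x⟫ ≤ ⟪C.z i, x⟫ :=
    Finset.mem_filter.2 ⟨Finset.mem_univ _, fun l => (hi l).trans hc⟩
  exact absurd (Finset.min'_le _ j this) (not_le.2 hj)

/-- First moments of the cells. -/
noncomputable def mom (i : Fin (n + 1)) : Eu n := ∫ x in C.cell i, x ∂(gam n)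

lemma gMax_eq_on_cell {i : Fin (n + 1)} {x : Eu n} (hx : x ∈ C.cell i) :
    gMax Finset.univ Finset.univ_nonempty C.z x = ⟪C.z i, x⟫ :=
  le_antisymm (gMax_le fun j _ => hx.1 j) (le_gMax (Finset.mem_univ i) x)

lemma sum_inner_mom : ∑ i, ⟪C.z i, C.mom i⟫ = ∑ i, ‖C.z i‖ ^ 2 := by
  rw [← C.phi_eq, gPhi, ← setIntegral_univ, ← C.iUnion_cell,
    integral_iUnion_fintype C.measurable_cell C.disjoint_cell
      fun i => (integrable_gMax _ _ _).integrableOn]
  refine Finset.sum_congr rfl fun i _ => ?_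
  rw [mom, inner_setIntegral_gam]
  exact setIntegral_congr_fun (C.measurable_cell i) fun x hx => (C.gMax_eq_on_cell hx).symm

lemma mom_eq (i : Fin (n + 1)) : C.mom i = C.z i := by
  set F := ∑ i, ‖C.z i‖ ^ 2 with hF
  set G := ∑ i, ‖C.mom i‖ ^ 2 with hG
  have hF0 : 0 ≤ F := Finset.sum_nonneg fun i _ => sq_nonneg _
  have hG0 : 0 ≤ G := Finset.sum_nonneg fun i _ => sq_nonneg _
  have h1 : G ≤ Real.sqrt F * Real.sqrt G := by
    refine le_trans (le_trans (le_of_eq ?_) (sum_inner_le_gPhi Finset.univ Finset.univ_nonempty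
      C.mom C.mom C.cell C.measurable_cell C.aedisjoint_cell (Filter.EventuallyEq.of_eq C.iUnion_cell)
      fun i x => le_gMax (Finset.mem_univ i) x)) (C.phi_le C.mom)
    exact Finset.sum_congr rfl fun i _ => (real_inner_self_eq_norm_sq (C.mom i)).symm
  have h2 : G ≤ F := by
    have e1 := Real.sq_sqrt hF0
    have e2 := Real.sq_sqrt hG0
    nlinarith [sq_nonneg (Real.sqrt F - Real.sqrt G)]
  have h3 : ∑ i, ‖C.z i - C.mom i‖ ^ 2 = 0 := by
    refine le_antisymm ?_ (Finset.sum_nonneg fun i _ => sq_nonneg _)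
    simp only [norm_sub_sq_real, Finset.sum_add_distrib, Finset.sum_sub_distrib, ← Finset.mul_sum,
      C.sum_inner_mom]
    linarith
  have h4 := (Finset.sum_eq_zero_iff_of_nonneg fun i _ => sq_nonneg ‖C.z i - C.mom i‖).1 h3 i
    (Finset.mem_univ i)
  exact (sub_eq_zero.1 (norm_eq_zero.1 (by simpa using h4))).symm

lemma setIntegral_inner_cell (v : Eu n) (i : Fin (n + 1)) :
    ∫ x in C.cell i, ⟪v, x⟫ ∂(gam n) = ⟪v, C.z i⟫ := by
  rw [← inner_setIntegral_gam, ← C.mom_eq]
  rfl

lemma sum_z : ∑ i, C.z i = 0 := by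
  calc ∑ i, C.z i = ∑ i, ∫ x in C.cell i, x ∂(gam n) :=
        Finset.sum_congr rfl fun i _ => (C.mom_eq i).symm
    _ = ∫ x in ⋃ i, C.cell i, x ∂(gam n) :=
        (integral_iUnion_fintype C.measurable_cell C.disjoint_cell
          fun i => IsGaussian.integrable_id.integrableOn).symm
    _ = 0 := by rw [C.iUnion_cell, setIntegral_univ, integral_id_stdGaussian]

lemma inner_neg_of_ne {i j : Fin (n + 1)} (hij : i ≠ j) : ⟪C.z i, C.z j⟫ < 0 := by
  by_contra hc
  push Not at hc
  set R := Finset.univ.erase j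
  have hR : R.Nonempty := ⟨i, by simp [R, hij]⟩
  set w : Fin (n + 1) → Eu n := fun l => if l = i ∨ l = j then C.z i + C.z j else C.z l with hw
  have hwle : ∀ l x, ⟪w l, x⟫ ≤ gMax R hR w x := by
    intro l x
    by_cases hl : l = j
    · have h : w l = w i := by simp [w, hl]
      rw [h]
      exact le_gMax (by simp [R, hij]) x
    · exact le_gMax (by simp [R, hl]) x
  have hlow := sum_inner_le_gPhi R hR w w C.cell C.measurable_cell C.aedisjoint_cell
    (Filter.EventuallyEq.of_eq C.iUnion_cell) hwle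
  have hup := gPhi_le_of_bound R hR (C.bound _ (le_of_eq (by simp [R]))) w 0
  simp only [sub_zero] at hup
  have e1 : ∀ l, ⟪w l, ∫ x in C.cell l, x ∂(gam n)⟫ = ⟪w l, C.z l⟫ := fun l => by
    rw [← C.mom_eq l]
    rfl
  simp only [e1] at hlow
  set F := ∑ l, ‖C.z l‖ ^ 2 with hF
  set X := F + 2 * ⟪C.z i, C.z j⟫
  have e2 : ∑ l, ⟪w l, C.z l⟫ = X := by
    have h : ∀ l, ⟪w l, C.z l⟫ = ‖C.z l‖ ^ 2 +
        ((if l = i then ⟪C.z i, C.z j⟫ else 0) + (if l = j then ⟪C.z i, C.z j⟫ else 0)) := by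
      intro l
      by_cases hli : l = i
      · subst hli
        simp [w, hij, inner_add_left, real_inner_self_eq_norm_sq, real_inner_comm]
      · by_cases hlj : l = j
        · subst hlj
          simp [w, hli, inner_add_left, real_inner_self_eq_norm_sq]
          ring
        · simp [w, hli, hlj, real_inner_self_eq_norm_sq]
    simp only [h, Finset.sum_add_distrib, Finset.sum_ite_eq', Finset.mem_univ, if_true]
    ring
  have e3 : ∑ l ∈ R, ‖w l‖ ^ 2 = X := by
    have h : ∀ l ∈ R, ‖w l‖ ^ 2 = ‖C.z l‖ ^ 2 +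
        (if l = i then ‖C.z i + C.z j‖ ^ 2 - ‖C.z i‖ ^ 2 else 0) := by
      intro l hl
      have hlj : l ≠ j := Finset.ne_of_mem_erase hl
      by_cases hli : l = i
      · subst hli
        simp [w]
      · simp [w, hli, hlj]
    have h2 : ∑ l ∈ R, ‖C.z l‖ ^ 2 + ‖C.z j‖ ^ 2 = F :=
      Finset.sum_erase_add _ _ (Finset.mem_univ j)
    rw [Finset.sum_congr rfl h, Finset.sum_add_distrib, Finset.sum_ite_eq',
      if_pos (by simp [R, hij]), norm_add_sq_real]
    simp only [X]
    linarith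
  rw [e2] at hlow
  rw [e3] at hup
  have hX : c2 < X := by
    have := C.gt
    simp only [X, F]
    linarith
  have h5 := hlow.trans hup
  have hX0 : 0 ≤ X := c2_pos.le.trans hX.le
  have q1 := Real.sq_sqrt c2_pos.le
  have q2 := Real.sq_sqrt hX0
  nlinarith [sq_nonneg (Real.sqrt c2 - Real.sqrt X)]

lemma c_pos {i j : Fin (n + 1)} (hij : i ≠ j) : 0 < C.c i j :=
  neg_pos.2 (C.inner_neg_of_ne hij)

lemma sum_c (i : Fin (n + 1)) : ∑ j ∈ Finset.univ.erase i, C.c i j = C.s i := by
  have h : ⟪C.z i, ∑ j, C.z j⟫ = 0 := by rw [C.sum_z, inner_zero_right]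
  rw [inner_sum, ← Finset.add_sum_erase _ _ (Finset.mem_univ i), real_inner_self_eq_norm_sq] at h
  simp only [c, Finset.sum_neg_distrib, s]
  linarith

lemma s_pos (hn : 1 ≤ n) (i : Fin (n + 1)) : 0 < C.s i := by
  rw [← C.sum_c i]
  refine Finset.sum_pos (fun j hj => C.c_pos (Finset.ne_of_mem_erase hj).symm) ?_
  rw [← Finset.card_pos]
  simp
  omega

lemma kernel {b : Fin (n + 1) → ℝ} (hb : ∑ j, b j • C.z j = 0) (i j : Fin (n + 1)) :
    b i = b j := by
  obtain ⟨l, -, hl⟩ := Finset.exists_min_image Finset.univ b Finset.univ_nonempty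
  suffices h : ∀ q, b q = b l by rw [h i, h j]
  intro q
  by_contra hq
  have hql : q ≠ l := fun e => hq (e ▸ rfl)
  have h0 : ∑ p, (b p - b l) * ⟪C.z l, C.z p⟫ = 0 := by
    have h : ⟪C.z l, ∑ p, (b p - b l) • C.z p⟫ = 0 := by
      simp only [sub_smul, Finset.sum_sub_distrib, hb, ← Finset.smul_sum, C.sum_z, smul_zero,
        sub_zero, inner_zero_right]
    simpa [inner_sum, real_inner_smul_right] using h
  have hlt : ∑ p, (b p - b l) * ⟪C.z l, C.z p⟫ < 0 := by
    refine Finset.sum_neg' (fun p _ => ?_) ⟨q, Finset.mem_univ _, ?_⟩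
    · by_cases hp : p = l
      · simp [hp]
      · exact mul_nonpos_of_nonneg_of_nonpos (sub_nonneg.2 (hl p (Finset.mem_univ p)))
          (C.inner_neg_of_ne (Ne.symm hp)).le
    · exact mul_neg_of_pos_of_neg (sub_pos.2 (lt_of_le_of_ne (hl q (Finset.mem_univ q))
        (Ne.symm hq))) (C.inner_neg_of_ne (Ne.symm hql))
  linarith

lemma z_injective : Function.Injective C.z := by
  intro i j h
  by_contra hij
  have h1 := C.inner_neg_of_ne hij
  rw [h, real_inner_self_eq_norm_sq] at h1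
  nlinarith [sq_nonneg ‖C.z j‖]

lemma exists_dual (i : Fin (n + 1)) :
    ∃ u : Eu n, ∀ j, j ≠ i → ⟪u, C.z i - C.z j⟫ = 1 := by
  set L : Eu n →ₗ[ℝ] (Fin n → ℝ) :=
    LinearMap.pi fun k => (innerSL ℝ (C.z i - C.z (i.succAbove k))).toLinearMap with hL
  have hli : LinearIndependent ℝ fun k => C.z i - C.z (i.succAbove k) := by
    rw [Fintype.linearIndependent_iff]
    intro g hg k
    set b : Fin (n + 1) → ℝ := Fin.insertNth (α := fun _ => ℝ) i (∑ q, g q) (fun q => -g q)
    have hb : ∑ p, b p • C.z p = 0 := by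
      rw [Fin.sum_univ_succAbove _ i]
      simp only [b, Fin.insertNth_apply_same, Fin.insertNth_apply_succAbove, neg_smul,
        Finset.sum_smul, Finset.sum_neg_distrib]
      simp only [smul_sub, Finset.sum_sub_distrib] at hg
      rw [← sub_eq_add_neg]
      exact hg
    have hconst : ∀ q, -g q = ∑ q, g q := fun q => by
      have := C.kernel hb (i.succAbove q) i
      simpa [b] using this
    have hsum : (∑ q, g q) = 0 := by
      have h := Finset.sum_congr rfl (fun q (_ : q ∈ Finset.univ) => hconst q)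
      rw [Finset.sum_neg_distrib, Finset.sum_const, Finset.card_univ, Fintype.card_fin,
        nsmul_eq_mul] at h
      have hpos : (0:ℝ) < (n:ℝ) + 1 := by positivity
      have h2 : ((n:ℝ) + 1) * (∑ q, g q) = 0 := by linarith
      exact (mul_eq_zero.1 h2).resolve_left hpos.ne'
    have := hconst k
    linarith
  have hinj : Function.Injective L := by
    rw [← LinearMap.ker_eq_bot, LinearMap.ker_eq_bot']
    intro u hu
    have hspan : Submodule.span ℝ (range fun k => C.z i - C.z (i.succAbove k)) = ⊤ :=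
      hli.span_eq_top_of_card_eq_finrank' (by simp)
    have hk : ∀ v ∈ Submodule.span ℝ (range fun k => C.z i - C.z (i.succAbove k)),
        ⟪v, u⟫ = 0 := by
      intro v hv
      induction hv using Submodule.span_induction with
      | mem x hx =>
        obtain ⟨k, rfl⟩ := hx
        exact congrFun hu k
      | zero => simp
      | add x y _ _ hx hy => rw [inner_add_left, hx, hy, add_zero]
      | smul a x _ hx => rw [real_inner_smul_left, hx, mul_zero]
    exact inner_self_eq_zero.1 (hk u (hspan ▸ Submodule.mem_top))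
  obtain ⟨u, hu⟩ := (LinearMap.injective_iff_surjective_of_finrank_eq_finrank
    (by simp : Module.finrank ℝ (Eu n) = Module.finrank ℝ (Fin n → ℝ))).1 hinj (fun _ => 1)
  refine ⟨u, fun j hj => ?_⟩
  obtain ⟨k, rfl⟩ := Fin.exists_succAbove_eq hj
  rw [real_inner_comm]
  exact congrFun hu k

lemma inner_dual_self {i : Fin (n + 1)} {u : Eu n} (hu : ∀ j, j ≠ i → ⟪u, C.z i - C.z j⟫ = 1) :
    ⟪u, C.z i⟫ = (n:ℝ) / (n + 1) := by
  have h : ∑ j, ⟪u, C.z i - C.z j⟫ = (n:ℝ) := by
    rw [Fin.sum_univ_succAbove _ i]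
    simp [hu _ (Fin.succAbove_ne i _)]
  simp only [inner_sub_right, Finset.sum_sub_distrib, Finset.sum_const, Finset.card_univ,
    Fintype.card_fin, nsmul_eq_mul, ← inner_sum, C.sum_z, inner_zero_right, sub_zero] at h
  rw [eq_div_iff (by positivity)]
  push_cast at h
  linarith

lemma cell_ae_eq_ccell (i : Fin (n + 1)) : C.cell i =ᵐ[gam n] C.ccell i := by
  have hsub : C.cell i ⊆ C.ccell i := fun x hx => hx.1
  have hnull : gam n (⋃ j ∈ ({j | j ≠ i} : Set (Fin (n + 1))),
      {x | ⟪C.z i - C.z j, x⟫ = 0}) = 0 := by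
    refine (measure_biUnion_null_iff (to_countable _)).2 fun j hj => ?_
    refine hyperplane_null _ (sub_ne_zero.2 fun h => hj (C.z_injective h).symm) 0
  refine hsub.eventuallyLE.antisymm (ae_le_set.2 (measure_mono_null ?_ hnull))
  intro x hx
  obtain ⟨h1, h2⟩ := hx
  simp only [cell, mem_ofPred_eq, not_and, not_forall] at h2
  obtain ⟨j, hj, hlt⟩ := h2 h1
  push Not at hlt
  refine mem_biUnion (x := j) hj.ne ?_
  simp only [mem_ofPred_eq, inner_sub_left]
  linarith [h1 j]

end Crit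

end Vale.Agent.P226
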