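import Vale.Agent.P226.EhrhardHeat

/-!
Maximum principle for the three-function deficit: Ehrhard's inequality in dimension one,
then in every finite dimension by induction.
-/

open MeasureTheory ProbabilityTheory Filter Set
open scoped Topology NNReal

namespace Vale.Agent.P226.Ehr

lemma deriv_nonneg_of_max_left {f : ℝ → ℝ} {f' τ : ℝ} (hτ : 0 < τ) (hf : HasDerivAt f f' τ)
    (h : ∀ t ∈ Ioo 0 τ, f t ≤ f τ) : 0 ≤ f' := by
  have ht : Tendsto (slope f τ) (𝓝[<] τ) (𝓝 f') :=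
    (hasDerivAt_iff_tendsto_slope.1 hf).mono_left (nhdsWithin_mono _ fun z hz => ne_of_lt hz)
  refine ge_of_tendsto ht ?_
  filter_upwards [Ioo_mem_nhdsLT hτ] with t htm
  rw [slope_def_field]
  exact div_nonneg_of_nonpos (sub_nonpos.2 (h t htm)) (by linarith [htm.2])

lemma second_deriv_nonpos {g g' : ℝ → ℝ} {g'' : ℝ} (hg : ∀ s, HasDerivAt g (g' s) s)
    (hg' : HasDerivAt g' g'' 0) (hmax : IsLocalMax g 0) : g'' ≤ 0 := by
  by_contra hcon
  push Not at hcon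
  have h0 : g' 0 = 0 := hmax.hasDerivAt_eq_zero (hg 0)
  have hev : ∀ᶠ s in 𝓝[>] (0 : ℝ), 0 < g' s := by
    have ht : Tendsto (slope g' 0) (𝓝[>] 0) (𝓝 g'') :=
      (hasDerivAt_iff_tendsto_slope.1 hg').mono_left (nhdsWithin_mono _ fun z hz => ne_of_gt hz)
    filter_upwards [(tendsto_order.1 ht).1 0 hcon, self_mem_nhdsWithin] with s hs hs0
    rw [slope_def_field, h0] at hs
    simp only [mem_Ioi] at hs0
    simp only [sub_zero] at hs
    exact (div_pos_iff_of_pos_right hs0).1 hs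
  obtain ⟨δ1, hδ1, hsub⟩ := mem_nhdsGT_iff_exists_Ioo_subset.1 hev
  simp only [mem_Ioi] at hδ1
  have hev2 : ∀ᶠ s in 𝓝[>] (0 : ℝ), g s ≤ g 0 ∧ s < δ1 :=
    (Eventually.filter_mono nhdsWithin_le_nhds hmax).and
      (Eventually.filter_mono nhdsWithin_le_nhds (eventually_lt_nhds hδ1))
  have hev3 : ∀ᶠ s in 𝓝[>] (0 : ℝ), (0 : ℝ) < s := self_mem_nhdsWithin
  obtain ⟨δ, ⟨hδ, hδ'⟩, hδ0⟩ := (hev2.and hev3).exists
  obtain ⟨c, hc, hceq⟩ := exists_hasDerivAt_eq_slope g g' hδ0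
    (fun s _ => (hg s).continuousAt.continuousWithinAt) (fun s _ => hg s)
  have : 0 < g' c := hsub ⟨hc.1, hc.2.trans hδ'⟩
  rw [hceq] at this
  exact absurd this (not_lt.2 (div_nonpos_of_nonpos_of_nonneg (by linarith) (by linarith)))

/-- The algebra at an interior maximum. -/
lemma algebra_contra {a θ L K E w m0 m1 mt p0 p1 pt q0 q1 qt x0 x1 M : ℝ}
    (ha : 0 ≤ a) (hθ : 0 ≤ θ) (hL : 0 ≤ L) (hK : 0 ≤ K) (hE : 0 < E)
    (hw : w = 1 + x0 ^ 2 + x1 ^ 2) (hM : M = 3 + 4 * L * (K + L))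
    (hm0 : |m0| ≤ K + L * |x0|) (hm1 : |m1| ≤ K + L * |x1|)
    (hp0 : |p0| ≤ L) (hp1 : |p1| ≤ L) (hpt : |pt| ≤ L)
    (ht : M * E * w ≤ a * ((q0 - m0 * p0 ^ 2) / 2) + θ * ((q1 - m1 * p1 ^ 2) / 2) -
      (qt - mt * pt ^ 2) / 2)
    (h0 : a * (p0 - pt) = 2 * E * x0) (h1 : θ * (p1 - pt) = 2 * E * x1)
    (hq : a * q0 + θ * q1 - qt ≤ 4 * E) (hC : 0 ≤ a * m0 + θ * m1 - mt) : False := by
  have key : ∀ b m p x, |m| ≤ K + L * |x| → |p| ≤ L → b * (p - pt) = 2 * E * x →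
      -(b * m * (p ^ 2 - pt ^ 2)) ≤ 4 * L * E * (K + L) * (1 + 2 * x ^ 2) := by
    intro b m p x hm hp hb
    have e : b * m * (p ^ 2 - pt ^ 2) = 2 * E * (m * x * (p + pt)) := by
      linear_combination m * (p + pt) * hb
    rw [e]
    have h2 : |p + pt| ≤ 2 * L := (abs_add_le _ _).trans (by linarith)
    have h3 : |m| * |x| ≤ (K + L) * (1 + 2 * x ^ 2) := by
      have hx : |x| ≤ 1 + 2 * x ^ 2 := by
        nlinarith only [sq_nonneg (|x| - 1), sq_abs x]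
      have hxx : |x| * |x| = x ^ 2 := by rw [← sq, sq_abs]
      have hKx := mul_le_mul_of_nonneg_left hx hK
      have hLx : L * x ^ 2 ≤ L * (1 + 2 * x ^ 2) :=
        mul_le_mul_of_nonneg_left (by linarith only [sq_nonneg x]) hL
      calc |m| * |x| ≤ (K + L * |x|) * |x| := mul_le_mul_of_nonneg_right hm (abs_nonneg x)
        _ = K * |x| + L * (|x| * |x|) := by ring
        _ ≤ (K + L) * (1 + 2 * x ^ 2) := by rw [hxx]; linarith only [hKx, hLx]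
    have habs : |m * x * (p + pt)| ≤ (K + L) * (1 + 2 * x ^ 2) * (2 * L) := by
      rw [abs_mul, abs_mul]
      exact mul_le_mul h3 h2 (abs_nonneg _) (by positivity)
    have hneg : -(m * x * (p + pt)) ≤ (K + L) * (1 + 2 * x ^ 2) * (2 * L) :=
      (neg_le_abs _).trans habs
    have := mul_le_mul_of_nonneg_left hneg (show 0 ≤ 2 * E by linarith)
    linarith only [this]
  have k0 := key a m0 p0 x0 hm0 hp0 h0
  have k1 := key θ m1 p1 x1 hm1 hp1 h1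
  have hC2 : 0 ≤ (a * m0 + θ * m1 - mt) * pt ^ 2 := mul_nonneg hC (sq_nonneg _)
  have hw1 : 1 ≤ w := by rw [hw]; linarith only [sq_nonneg x0, sq_nonneg x1]
  have h6 : 2 * (M * E * w) ≤ 4 * E + 8 * L * (K + L) * E * w := by
    rw [hw] at ht ⊢
    linarith only [ht, k0, k1, hC2, hq]
  rw [hM] at h6
  linarith only [h6, mul_le_mul_of_nonneg_left hw1 hE.le, hE]

/-- Linear growth loses against quadratic growth. -/
lemma quad_dominates {η L K : ℝ} (hη : 0 < η) (hL : 0 ≤ L) (hK : 0 ≤ K) :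
    ∃ R, 1 ≤ R ∧ ∀ x0 x1 : ℝ, R ≤ |x0| ∨ R ≤ |x1| →
      2 * K + 2 * L * (|x0| + |x1|) ≤ η * (1 + x0 ^ 2 + x1 ^ 2) := by
  set A := 2 * K + L ^ 2 / η with hA
  have hA0 : 0 ≤ A := by positivity
  refine ⟨(4 * L + 2 * (A + 1)) / η + 1, ?_, ?_⟩
  · have : 0 ≤ (4 * L + 2 * (A + 1)) / η := by positivity
    linarith
  have hbig : ∀ z : ℝ, (4 * L + 2 * (A + 1)) / η + 1 ≤ |z| →
      A ≤ η * z ^ 2 - 2 * L * |z| := by
    intro z hz
    have hz1 : 1 ≤ |z| := by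
      have : 0 ≤ (4 * L + 2 * (A + 1)) / η := by positivity
      linarith
    have h2 := mul_le_mul_of_nonneg_left hz hη.le
    rw [mul_add, mul_div_cancel₀ _ hη.ne', mul_one] at h2
    have h3 := mul_le_mul_of_nonneg_right h2 (abs_nonneg z)
    have h4 := mul_le_mul_of_nonneg_left hz1 hA0
    have e : η * |z| * |z| = η * z ^ 2 := by rw [mul_assoc, ← sq, sq_abs]
    linarith [mul_nonneg hL (abs_nonneg z), mul_nonneg hη.le (abs_nonneg z),
      mul_nonneg hA0 (abs_nonneg z)]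
  have hany : ∀ z : ℝ, -(L ^ 2 / η) ≤ η * z ^ 2 - 2 * L * |z| := by
    intro z
    have h := mul_nonneg hη.le (sq_nonneg (|z| - L / η))
    have e : η * (|z| - L / η) ^ 2 = η * z ^ 2 - 2 * L * |z| + L ^ 2 / η := by
      rw [← sq_abs z]; field_simp; ring
    linarith
  intro x0 x1 hor
  rcases hor with h | h
  · linarith [hbig x0 h, hany x1]
  · linarith [hbig x1 h, hany x0]

section step

variable {F0 F1 Ft : ℝ → ℝ} {L : ℝ≥0} {θ : ℝ}

/-- The deficit in the three-function inequality. -/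
noncomputable def deficit (F0 F1 Ft : ℝ → ℝ) (θ τ x0 x1 : ℝ) : ℝ :=
  (1 - θ) * U F0 τ x0 + θ * U F1 τ x1 - U Ft τ ((1 - θ) * x0 + θ * x1)

/-- The deficit minus the barrier. -/
noncomputable def barrier (F0 F1 Ft : ℝ → ℝ) (θ η M τ x0 x1 : ℝ) : ℝ :=
  deficit F0 F1 Ft θ τ x0 x1 - η * Real.exp (M * τ) * (1 + x0 ^ 2 + x1 ^ 2)

lemma continuous_barrier (h0 : Continuous F0) (h1 : Continuous F1) (ht : Continuous Ft)
    (η M : ℝ) :
    Continuous (fun q : ℝ × ℝ × ℝ => barrier F0 F1 Ft θ η M q.1 q.2.1 q.2.2) := by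
  have d0 : Continuous (fun q : ℝ × ℝ × ℝ => U F0 q.1 q.2.1) :=
    (continuous_U h0).comp (continuous_fst.prodMk (continuous_fst.comp continuous_snd))
  have d1 : Continuous (fun q : ℝ × ℝ × ℝ => U F1 q.1 q.2.2) :=
    (continuous_U h1).comp (continuous_fst.prodMk (continuous_snd.comp continuous_snd))
  have dt : Continuous (fun q : ℝ × ℝ × ℝ => U Ft q.1 ((1 - θ) * q.2.1 + θ * q.2.2)) :=
    (continuous_U ht).comp (f := fun q : ℝ × ℝ × ℝ => (q.1, (1 - θ) * q.2.1 + θ * q.2.2))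
      (by fun_prop)
  simp only [barrier, deficit]
  fun_prop

lemma hasDerivAt_aff (x r s : ℝ) : HasDerivAt (fun s => x + r * s) r s := by
  simpa using ((hasDerivAt_id s).const_mul r).const_add x

/-- First derivative of the barrier along a line. -/
lemma hasDerivAt_barrier_line (h0 : Continuous F0) (h1 : Continuous F1) (ht : Continuous Ft)
    (η M : ℝ) {τ : ℝ} (hτ : 0 < τ) (x0 x1 r0 r1 s : ℝ) :
    HasDerivAt (fun s => barrier F0 F1 Ft θ η M τ (x0 + r0 * s) (x1 + r1 * s))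
      ((1 - θ) * (r0 * U1 F0 τ (x0 + r0 * s)) + θ * (r1 * U1 F1 τ (x1 + r1 * s))
        - ((1 - θ) * r0 + θ * r1) *
            U1 Ft τ ((1 - θ) * x0 + θ * x1 + ((1 - θ) * r0 + θ * r1) * s)
        - η * Real.exp (M * τ) * (2 * r0 * (x0 + r0 * s) + 2 * r1 * (x1 + r1 * s))) s := by
  have a0 := (hasDerivAt_U_x h0 hτ (x0 + r0 * s)).comp s (hasDerivAt_aff x0 r0 s)
  have a1 := (hasDerivAt_U_x h1 hτ (x1 + r1 * s)).comp s (hasDerivAt_aff x1 r1 s)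
  have at' := (hasDerivAt_U_x ht hτ _).comp s
    (hasDerivAt_aff ((1 - θ) * x0 + θ * x1) ((1 - θ) * r0 + θ * r1) s)
  have aq := ((((hasDerivAt_aff x0 r0 s).pow 2).const_add 1).add
    ((hasDerivAt_aff x1 r1 s).pow 2)).const_mul (η * Real.exp (M * τ))
  refine (((((a0.const_mul (1 - θ)).add (a1.const_mul θ)).sub at').sub aq).congr_of_eventuallyEq
    (Eventually.of_forall fun z => ?_)).congr_deriv ?_
  · have e : (1 - θ) * (x0 + r0 * z) + θ * (x1 + r1 * z) =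
        (1 - θ) * x0 + θ * x1 + ((1 - θ) * r0 + θ * r1) * z := by ring
    simp only [barrier, deficit, e, Pi.sub_apply, Pi.add_apply, Function.comp_apply, Pi.pow_apply]
  · simp
    ring

/-- Second derivative of the barrier along the diagonal. -/
lemma hasDerivAt_barrier_diag (h0 : Continuous F0) (h1 : Continuous F1) (ht : Continuous Ft)
    (E : ℝ) {τ : ℝ} (hτ : 0 < τ) (x0 x1 : ℝ) :
    HasDerivAt (fun s => (1 - θ) * (1 * U1 F0 τ (x0 + 1 * s)) + θ * (1 * U1 F1 τ (x1 + 1 * s))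
        - ((1 - θ) * 1 + θ * 1) *
            U1 Ft τ ((1 - θ) * x0 + θ * x1 + ((1 - θ) * 1 + θ * 1) * s)
        - E * (2 * 1 * (x0 + 1 * s) + 2 * 1 * (x1 + 1 * s)))
      ((1 - θ) * U2 F0 τ x0 + θ * U2 F1 τ x1 - U2 Ft τ ((1 - θ) * x0 + θ * x1) - 4 * E) 0 := by
  have a0 := (hasDerivAt_U1_x h0 hτ x0).comp_of_eq 0 (hasDerivAt_aff x0 1 0) (by simp)
  have a1 := (hasDerivAt_U1_x h1 hτ x1).comp_of_eq 0 (hasDerivAt_aff x1 1 0) (by simp)
  have at' := (hasDerivAt_U1_x ht hτ ((1 - θ) * x0 + θ * x1)).comp_of_eq 0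
    (hasDerivAt_aff ((1 - θ) * x0 + θ * x1) ((1 - θ) * 1 + θ * 1) 0) (by simp)
  have aq := (((hasDerivAt_aff x0 1 0).const_mul (2 * 1)).add
    ((hasDerivAt_aff x1 1 0).const_mul (2 * 1))).const_mul E
  exact (((((a0.const_mul 1).const_mul (1 - θ)).add ((a1.const_mul 1).const_mul θ)).sub
    (at'.const_mul ((1 - θ) * 1 + θ * 1))).sub aq).congr_deriv (by ring)

/-- Time derivative of the barrier. -/
lemma hasDerivAt_barrier_time (h0 : Continuous F0) (h1 : Continuous F1) (ht : Continuous Ft)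
    (η M : ℝ) {τ : ℝ} (hτ : 0 < τ) (x0 x1 : ℝ) :
    HasDerivAt (fun t => barrier F0 F1 Ft θ η M t x0 x1)
      ((1 - θ) * ((U2 F0 τ x0 - U F0 τ x0 * U1 F0 τ x0 ^ 2) / 2)
        + θ * ((U2 F1 τ x1 - U F1 τ x1 * U1 F1 τ x1 ^ 2) / 2)
        - (U2 Ft τ ((1 - θ) * x0 + θ * x1) - U Ft τ ((1 - θ) * x0 + θ * x1) *
            U1 Ft τ ((1 - θ) * x0 + θ * x1) ^ 2) / 2
        - M * (η * Real.exp (M * τ)) * (1 + x0 ^ 2 + x1 ^ 2)) τ := by
  have he : HasDerivAt (fun t => η * Real.exp (M * t) * (1 + x0 ^ 2 + x1 ^ 2))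
      (M * (η * Real.exp (M * τ)) * (1 + x0 ^ 2 + x1 ^ 2)) τ := by
    refine (((hasDerivAt_id τ).const_mul M).exp.const_mul η |>.mul_const _).congr_deriv ?_
    simp only [id_eq]
    ring
  exact ((((hasDerivAt_U_t h0 hτ x0).const_mul (1 - θ)).add
    ((hasDerivAt_U_t h1 hτ x1).const_mul θ)).sub (hasDerivAt_U_t ht hτ _)).sub he

/-- The barrier has no positive maximum at positive time. -/
lemma no_max (h0 : LipschitzWith L F0) (h1 : LipschitzWith L F1) (ht : LipschitzWith L Ft)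
    (hθ0 : 0 ≤ θ) (hθ1 : θ ≤ 1) {η M K τ x0 x1 : ℝ} (hη : 0 < η) (hK : 0 ≤ K)
    (hM : M = 3 + 4 * L * (K + L)) (hb0 : |U F0 τ x0| ≤ K + L * |x0|)
    (hb1 : |U F1 τ x1| ≤ K + L * |x1|) (hτ0 : 0 < τ)
    (hmaxt : ∀ t ∈ Ioo 0 τ, barrier F0 F1 Ft θ η M t x0 x1 ≤ barrier F0 F1 Ft θ η M τ x0 x1)
    (hmaxx : ∀ y0 y1, barrier F0 F1 Ft θ η M τ y0 y1 ≤ barrier F0 F1 Ft θ η M τ x0 x1)
    (hpos : 0 < barrier F0 F1 Ft θ η M τ x0 x1) : False := by
  have c0 := h0.continuous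
  have c1 := h1.continuous
  have ct := ht.continuous
  have hloc : ∀ r0 r1 : ℝ, IsLocalMax
      (fun s => barrier F0 F1 Ft θ η M τ (x0 + r0 * s) (x1 + r1 * s)) 0 := fun r0 r1 =>
    Eventually.of_forall fun s => by simpa using hmaxx (x0 + r0 * s) (x1 + r1 * s)
  have htime := deriv_nonneg_of_max_left hτ0 (hasDerivAt_barrier_time c0 c1 ct η M hτ0 x0 x1) hmaxt
  have e0 := (hloc 1 0).hasDerivAt_eq_zero (hasDerivAt_barrier_line c0 c1 ct η M hτ0 x0 x1 1 0 0)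
  have e1 := (hloc 0 1).hasDerivAt_eq_zero (hasDerivAt_barrier_line c0 c1 ct η M hτ0 x0 x1 0 1 0)
  have e2 := second_deriv_nonpos (hasDerivAt_barrier_line c0 c1 ct η M hτ0 x0 x1 1 1)
    (hasDerivAt_barrier_diag c0 c1 ct _ hτ0 x0 x1) (hloc 1 1)
  simp only [mul_zero, add_zero, zero_add, one_mul, zero_mul, mul_one] at e0 e1
  have hE0 : 0 < η * Real.exp (M * τ) := by positivity
  have hw : 0 ≤ η * Real.exp (M * τ) * (1 + x0 ^ 2 + x1 ^ 2) := by positivity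
  simp only [barrier, deficit] at hpos
  exact algebra_contra (a := 1 - θ) (θ := θ) (L := L) (M := M) (E := η * Real.exp (M * τ))
    (x0 := x0) (x1 := x1) (w := 1 + x0 ^ 2 + x1 ^ 2)
    (m0 := U F0 τ x0) (m1 := U F1 τ x1) (mt := U Ft τ ((1 - θ) * x0 + θ * x1))
    (p0 := U1 F0 τ x0) (p1 := U1 F1 τ x1) (pt := U1 Ft τ ((1 - θ) * x0 + θ * x1))
    (q0 := U2 F0 τ x0) (q1 := U2 F1 τ x1) (qt := U2 Ft τ ((1 - θ) * x0 + θ * x1))
    (by linarith) hθ0 L.coe_nonneg hK hE0 rfl hM hb0 hb1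
    (abs_U1_le h0 hτ0 x0) (abs_U1_le h1 hτ0 x1) (abs_U1_le ht hτ0 _)
    (by linarith) (by linarith) (by linarith) (by linarith) (by linarith)

lemma exists_bound_U {F : ℝ → ℝ} (hF : LipschitzWith L F) :
    ∃ K, ∀ τ ∈ Icc (0 : ℝ) 1, ∀ x, |U F τ x| ≤ K + L * |x| := by
  have hc : ContinuousOn (fun τ => U F τ 0) (Icc 0 1) :=
    ((continuous_U hF.continuous).comp (continuous_id.prodMk continuous_const)).continuousOn
  obtain ⟨K, hK⟩ := isCompact_Icc.exists_bound_of_continuousOn hc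
  refine ⟨K, fun τ hτ x => ?_⟩
  have h2 := abs_U_sub_le hF τ x 0
  rw [sub_zero] at h2
  have h3 := abs_sub_abs_le_abs_sub (U F τ x) (U F τ 0)
  have h4 : |U F τ 0| ≤ K := by simpa using hK τ hτ
  linarith

lemma deficit_le (hθ0 : 0 ≤ θ) (hθ1 : θ ≤ 1) {K τ x0 x1 : ℝ}
    (b0 : |U F0 τ x0| ≤ K + L * |x0|) (b1 : |U F1 τ x1| ≤ K + L * |x1|)
    (bt : |U Ft τ ((1 - θ) * x0 + θ * x1)| ≤ K + L * |(1 - θ) * x0 + θ * x1|) :
    deficit F0 F1 Ft θ τ x0 x1 ≤ 2 * K + 2 * L * (|x0| + |x1|) := by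
  have ha : 0 ≤ 1 - θ := by linarith
  have hm : |(1 - θ) * x0 + θ * x1| ≤ (1 - θ) * |x0| + θ * |x1| := by
    refine (abs_add_le _ _).trans (le_of_eq ?_)
    rw [abs_mul, abs_mul, abs_of_nonneg ha, abs_of_nonneg hθ0]
  have e0 := mul_le_mul_of_nonneg_left ((le_abs_self _).trans b0) ha
  have e1 := mul_le_mul_of_nonneg_left ((le_abs_self _).trans b1) hθ0
  have et := (neg_le_abs _).trans bt
  have lm := mul_le_mul_of_nonneg_left hm L.coe_nonneg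
  have l0 : (L : ℝ) * ((1 - θ) * |x0|) ≤ L * |x0| :=
    mul_le_mul_of_nonneg_left (mul_le_of_le_one_left (abs_nonneg _) (by linarith)) L.coe_nonneg
  have l1 : (L : ℝ) * (θ * |x1|) ≤ L * |x1| :=
    mul_le_mul_of_nonneg_left (mul_le_of_le_one_left (abs_nonneg _) hθ1) L.coe_nonneg
  simp only [deficit]
  linarith

lemma barrier_nonpos (h0 : LipschitzWith L F0) (h1 : LipschitzWith L F1)
    (ht : LipschitzWith L Ft) (hθ0 : 0 ≤ θ) (hθ1 : θ ≤ 1)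
    (hmix : ∀ x0 x1, (1 - θ) * F0 x0 + θ * F1 x1 ≤ Ft ((1 - θ) * x0 + θ * x1))
    {η M K : ℝ} (hη : 0 < η) (hK : 0 ≤ K) (hM : M = 3 + 4 * L * (K + L))
    (hb0 : ∀ τ ∈ Icc (0 : ℝ) 1, ∀ x, |U F0 τ x| ≤ K + L * |x|)
    (hb1 : ∀ τ ∈ Icc (0 : ℝ) 1, ∀ x, |U F1 τ x| ≤ K + L * |x|)
    (hbt : ∀ τ ∈ Icc (0 : ℝ) 1, ∀ x, |U Ft τ x| ≤ K + L * |x|) :
    barrier F0 F1 Ft θ η M 1 0 0 ≤ 0 := by
  have hM0 : 0 ≤ M := by rw [hM]; positivity
  by_contra hcon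
  push Not at hcon
  obtain ⟨R, hR1, hR⟩ := quad_dominates hη L.coe_nonneg hK
  have hout : ∀ τ ∈ Icc (0 : ℝ) 1, ∀ x0 x1 : ℝ, R ≤ |x0| ∨ R ≤ |x1| →
      barrier F0 F1 Ft θ η M τ x0 x1 ≤ 0 := by
    intro τ hτ x0 x1 hor
    have hd := deficit_le (F0 := F0) (F1 := F1) (Ft := Ft) hθ0 hθ1 (hb0 τ hτ x0) (hb1 τ hτ x1)
      (hbt τ hτ _)
    have hexp : 1 ≤ Real.exp (M * τ) := Real.one_le_exp (mul_nonneg hM0 hτ.1)
    have hmul : η * 1 * (1 + x0 ^ 2 + x1 ^ 2) ≤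
        η * Real.exp (M * τ) * (1 + x0 ^ 2 + x1 ^ 2) :=
      mul_le_mul_of_nonneg_right (mul_le_mul_of_nonneg_left hexp hη.le)
        (by linarith [sq_nonneg x0, sq_nonneg x1])
    simp only [barrier]
    linarith [hR x0 x1 hor]
  let S : Set (ℝ × ℝ × ℝ) := Icc (0 : ℝ) 1 ×ˢ (Icc (-R) R ×ˢ Icc (-R) R)
  have hS : IsCompact S := isCompact_Icc.prod (isCompact_Icc.prod isCompact_Icc)
  have hmem : ∀ t y0 y1 : ℝ, t ∈ Icc (0 : ℝ) 1 → |y0| ≤ R → |y1| ≤ R → (t, y0, y1) ∈ S :=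
    fun t y0 y1 ht' a b => mem_prod.2 ⟨ht', mem_prod.2 ⟨abs_le.1 a, abs_le.1 b⟩⟩
  have h00 : ((1 : ℝ), (0 : ℝ), (0 : ℝ)) ∈ S :=
    hmem 1 0 0 (right_mem_Icc.2 zero_le_one) (by rw [abs_zero]; linarith)
      (by rw [abs_zero]; linarith)
  obtain ⟨q, hq, hmax⟩ := hS.exists_isMaxOn ⟨_, h00⟩
      (continuous_barrier (θ := θ) h0.continuous h1.continuous ht.continuous η M).continuousOn
  obtain ⟨τ, x0, x1⟩ := q
  have hτ : τ ∈ Icc (0 : ℝ) 1 := (mem_prod.1 hq).1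
  have hle : ∀ p ∈ S, barrier F0 F1 Ft θ η M p.1 p.2.1 p.2.2 ≤
      barrier F0 F1 Ft θ η M τ x0 x1 := fun p hp => isMaxOn_iff.1 hmax p hp
  have hbase := hle _ h00
  simp only at hbase
  have hmax' : ∀ t ∈ Icc (0 : ℝ) 1, ∀ y0 y1,
      barrier F0 F1 Ft θ η M t y0 y1 ≤ barrier F0 F1 Ft θ η M τ x0 x1 := by
    intro t htt y0 y1
    rcases le_or_gt R |y0| with a | a
    · exact (hout t htt y0 y1 (Or.inl a)).trans (hcon.le.trans hbase)
    rcases le_or_gt R |y1| with b | b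
    · exact (hout t htt y0 y1 (Or.inr b)).trans (hcon.le.trans hbase)
    have h := hle (t, y0, y1) (hmem t y0 y1 htt a.le b.le)
    dsimp only at h
    exact h
  have hpos : 0 < barrier F0 F1 Ft θ η M τ x0 x1 := hcon.trans_le hbase
  have hτ0 : 0 < τ := by
    rcases hτ.1.lt_or_eq with h | h
    · exact h
    · exfalso
      subst h
      simp only [barrier, deficit, U_zero] at hpos
      have : 0 ≤ η * Real.exp (M * 0) * (1 + x0 ^ 2 + x1 ^ 2) := by positivity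
      linarith [hmix x0 x1]
  exact no_max h0 h1 ht hθ0 hθ1 hη hK hM (hb0 τ hτ x0) (hb1 τ hτ x1) hτ0
    (fun t htm => hmax' t ⟨htm.1.le, htm.2.le.trans hτ.2⟩ x0 x1) (hmax' τ hτ) hpos

/-- Ehrhard's inequality in dimension one, three-function form. -/
theorem PA_mix_le (h0 : LipschitzWith L F0) (h1 : LipschitzWith L F1) (ht : LipschitzWith L Ft)
    (hθ0 : 0 ≤ θ) (hθ1 : θ ≤ 1)
    (hmix : ∀ x0 x1, (1 - θ) * F0 x0 + θ * F1 x1 ≤ Ft ((1 - θ) * x0 + θ * x1)) :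
    (1 - θ) * PA (gaussianReal 0 1) F0 + θ * PA (gaussianReal 0 1) F1 ≤
      PA (gaussianReal 0 1) Ft := by
  have hU1 : ∀ F : ℝ → ℝ, U F 1 0 = PA (gaussianReal 0 1) F := fun F => by simp [U]
  suffices hkey : deficit F0 F1 Ft θ 1 0 0 ≤ 0 by
    simp only [deficit, mul_zero, add_zero, hU1] at hkey
    linarith only [hkey]
  obtain ⟨K0, hK0⟩ := exists_bound_U h0
  obtain ⟨K1, hK1⟩ := exists_bound_U h1
  obtain ⟨Kt, hKt⟩ := exists_bound_U ht
  obtain ⟨K, g0, g1, gt, hK⟩ : ∃ K : ℝ, K0 ≤ K ∧ K1 ≤ K ∧ Kt ≤ K ∧ 0 ≤ K :=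
    ⟨max (max K0 K1) (max Kt 0), le_max_of_le_left (le_max_left _ _),
      le_max_of_le_left (le_max_right _ _), le_max_of_le_right (le_max_left _ _),
      le_max_of_le_right (le_max_right _ _)⟩
  refine le_of_forall_pos_le_add fun ε hε => ?_
  rw [zero_add]
  obtain ⟨M, hM⟩ : ∃ M : ℝ, M = 3 + 4 * L * (K + L) := ⟨_, rfl⟩
  have hb := barrier_nonpos h0 h1 ht hθ0 hθ1 hmix (η := ε * Real.exp (-M)) (M := M)
    (mul_pos hε (Real.exp_pos _)) hK hM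
    (fun τ hτ x => (hK0 τ hτ x).trans (by linarith only [g0]))
    (fun τ hτ x => (hK1 τ hτ x).trans (by linarith only [g1]))
    (fun τ hτ x => (hKt τ hτ x).trans (by linarith only [gt]))
  have e : ε * Real.exp (-M) * Real.exp (M * 1) = ε := by
    rw [mul_one, mul_assoc, ← Real.exp_add]; simp
  simp only [barrier] at hb
  rw [e] at hb
  linarith only [hb]

end step

end Vale.Agent.P226.Ehr
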