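import Vale.Agent.P226.EhrhardStatement
import Vale.Agent.P226.EhrhardMax

/-!
Ehrhard concavity for superlevel sets of concave Lipschitz functions.
-/

open MeasureTheory ProbabilityTheory Filter Set
open scoped Topology NNReal

namespace Vale.Agent.P226

namespace Ehr

/-- The product of `d` standard normal laws. -/
noncomputable abbrev piG (d : ℕ) : Measure (Fin d → ℝ) :=
  Measure.pi fun _ => gaussianReal 0 1

lemma continuous_cons_left {d : ℕ} (y : Fin d → ℝ) :
    Continuous (fun x : ℝ => (Fin.cons x y : Fin (d + 1) → ℝ)) := by fun_prop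

lemma lipschitzWith_cons_left {d : ℕ} (y : Fin d → ℝ) :
    LipschitzWith 1 (fun x : ℝ => (Fin.cons x y : Fin (d + 1) → ℝ)) :=
  LipschitzWith.of_dist_le_mul fun x x' => by
    rw [NNReal.coe_one, one_mul]
    refine (dist_pi_le_iff dist_nonneg).2 fun i => ?_
    refine Fin.cases ?_ (fun j => ?_) i <;> simp

lemma lipschitzWith_cons_right {d : ℕ} (x : ℝ) :
    LipschitzWith 1 (fun y : Fin d → ℝ => (Fin.cons x y : Fin (d + 1) → ℝ)) :=
  LipschitzWith.of_dist_le_mul fun y y' => by
    rw [NNReal.coe_one, one_mul]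
    refine (dist_pi_le_iff dist_nonneg).2 fun i => ?_
    refine Fin.cases ?_ (fun j => ?_) i
    · simp
    · simpa using dist_le_pi_dist y y' j

/-- Integrate out the first coordinate in the probit scale. -/
noncomputable def reduceFn {d : ℕ} (F : (Fin (d + 1) → ℝ) → ℝ) (y : Fin d → ℝ) : ℝ :=
  PA (gaussianReal 0 1) (fun x => F (Fin.cons x y))

lemma lipschitzWith_reduceFn {d : ℕ} {F : (Fin (d + 1) → ℝ) → ℝ} {L : ℝ≥0}
    (hF : LipschitzWith L F) : LipschitzWith L (reduceFn F) :=
  LipschitzWith.of_dist_le_mul fun y y' => by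
    rw [Real.dist_eq]
    refine abs_PA_sub_le (hF.continuous.comp (continuous_cons_left y)).measurable
      (hF.continuous.comp (continuous_cons_left y')).measurable (by positivity) fun x => ?_
    have h := (hF.comp (lipschitzWith_cons_right x)).dist_le_mul y y'
    simpa [Real.dist_eq] using h

lemma integral_reduceFn {d : ℕ} {F : (Fin (d + 1) → ℝ) → ℝ} (hF : Continuous F) :
    ∫ v, Phi (F v) ∂(piG (d + 1)) = ∫ y, Phi (reduceFn F y) ∂(piG d) := by
  have e := measurePreserving_piFinSuccAbove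
    (fun _ : Fin (d + 1) => gaussianReal 0 1) (0 : Fin (d + 1))
  have hsymm := (e.symm _).integral_comp'
    (fun v : Fin (d + 1) → ℝ => Phi (F v))
  rw [← hsymm]
  have hm : Measurable (fun p : ℝ × (Fin d → ℝ) => Phi (F (Fin.cons p.1 p.2))) :=
    Continuous.measurable (by fun_prop)
  have hi : Integrable (fun p : ℝ × (Fin d → ℝ) => Phi (F (Fin.cons p.1 p.2)))
      ((gaussianReal 0 1).prod (piG d)) :=
    Integrable.of_bound hm.aestronglyMeasurable 1
      (ae_of_all _ fun p => by simpa using abs_Phi_le_one _)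
  calc _ = ∫ p, Phi (F (Fin.cons p.1 p.2)) ∂((gaussianReal 0 1).prod (piG d)) := by
        congr 1
        funext p
        simp [MeasurableEquiv.piFinSuccAbove, Fin.insertNthEquiv, Fin.insertNth_zero']
    _ = ∫ y, ∫ x, Phi (F (Fin.cons x y)) ∂(gaussianReal 0 1) ∂(piG d) :=
        integral_prod_symm _ hi
    _ = ∫ y, Phi (reduceFn F y) ∂(piG d) := by
        congr 1
        funext y
        exact (Phi_PA (hF.comp (continuous_cons_left y)).measurable).symm

/-- Ehrhard's inequality in dimension `d`, three-function form. -/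
theorem PA_pi_mix_le (d : ℕ) : ∀ (F0 F1 Ft : (Fin d → ℝ) → ℝ) (L : ℝ≥0) (θ : ℝ),
    LipschitzWith L F0 → LipschitzWith L F1 → LipschitzWith L Ft → 0 ≤ θ → θ ≤ 1 →
    (∀ v w, (1 - θ) * F0 v + θ * F1 w ≤ Ft ((1 - θ) • v + θ • w)) →
    (1 - θ) * PA (piG d) F0 + θ * PA (piG d) F1 ≤ PA (piG d) Ft := by
  induction d with
  | zero =>
    intro F0 F1 Ft L θ _ _ _ _ _ hmix
    have h : ∀ F : (Fin 0 → ℝ) → ℝ, PA (piG 0) F = F ![] := by
      intro F
      have : (fun v => Phi (F v)) = fun _ => Phi (F ![]) :=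
        funext fun v => by rw [Subsingleton.elim v ![]]
      simp [PA, this, Psi_Phi]
    simp only [h]
    have := hmix ![] ![]
    rwa [Subsingleton.elim ((1 - θ) • (![] : Fin 0 → ℝ) + θ • ![]) ![]] at this
  | succ d ih =>
    intro F0 F1 Ft L θ h0 h1 ht hθ0 hθ1 hmix
    have hred : ∀ F : (Fin (d + 1) → ℝ) → ℝ, Continuous F →
        PA (piG (d + 1)) F = PA (piG d) (reduceFn F) := fun F hF => by
      simp only [PA, integral_reduceFn hF]
    rw [hred F0 h0.continuous, hred F1 h1.continuous, hred Ft ht.continuous]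
    refine ih _ _ _ L θ (lipschitzWith_reduceFn h0) (lipschitzWith_reduceFn h1)
      (lipschitzWith_reduceFn ht) hθ0 hθ1 fun v w => ?_
    have l0 := h0.comp (lipschitzWith_cons_left v)
    have l1 := h1.comp (lipschitzWith_cons_left w)
    have lt := ht.comp (lipschitzWith_cons_left ((1 - θ) • v + θ • w))
    refine PA_mix_le l0 l1 lt hθ0 hθ1 fun x0 x1 => ?_
    refine (hmix (Fin.cons x0 v) (Fin.cons x1 w)).trans (le_of_eq ?_)
    show Ft _ = Ft _
    congr 1
    funext i
    refine Fin.cases ?_ (fun j => ?_) i <;> simp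

/-- Smoothed indicator of `{V ≥ s}`. -/
noncomputable def smoothLevel {d : ℕ} (V : Eu d → ℝ) (s : ℝ) (n : ℕ) (v : Fin d → ℝ) : ℝ :=
  (n : ℝ) ^ 2 * (V (WithLp.toLp 2 v) - s) + n

lemma exists_lipschitzWith_smoothLevel {d : ℕ} {V : Eu d → ℝ} {L : ℝ≥0}
    (hV : LipschitzWith L V) (n : ℕ) :
    ∃ L' : ℝ≥0, ∀ s, LipschitzWith L' (smoothLevel V s n) := by
  have hW := hV.comp (PiLp.lipschitzWith_toLp 2 (fun _ : Fin d => ℝ))
  generalize (L * _ : ℝ≥0) = L0 at hW
  refine ⟨(n : ℝ≥0) ^ 2 * L0, fun s => LipschitzWith.of_dist_le_mul fun v w => ?_⟩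
  have h := hW.dist_le_mul v w
  simp only [Real.dist_eq, Function.comp_apply] at h ⊢
  have e : smoothLevel V s n v - smoothLevel V s n w =
      (n : ℝ) ^ 2 * (V (WithLp.toLp 2 v) - V (WithLp.toLp 2 w)) := by
    simp [smoothLevel]; ring
  rw [e, abs_mul, abs_of_nonneg (by positivity : (0 : ℝ) ≤ (n : ℝ) ^ 2)]
  push_cast
  rw [mul_assoc]
  exact mul_le_mul_of_nonneg_left h (by positivity)

lemma tendsto_integral_smoothLevel {d : ℕ} {V : Eu d → ℝ} (hV : Continuous V) (s : ℝ) :
    Tendsto (fun n : ℕ => ∫ v, Phi (smoothLevel V s n v) ∂(piG d)) atTop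
      (𝓝 ((gam d).real {x | s ≤ V x})) := by
  have hS : MeasurableSet {v : Fin d → ℝ | s ≤ V (WithLp.toLp 2 v)} :=
    (isClosed_le continuous_const (by fun_prop)).measurableSet
  have hlim : (gam d).real {x | s ≤ V x} =
      ∫ v, {v : Fin d → ℝ | s ≤ V (WithLp.toLp 2 v)}.indicator 1 v ∂(piG d) := by
    rw [integral_indicator_one hS, gam, ← map_pi_eq_stdGaussian,
      map_measureReal_apply (by fun_prop) (isClosed_le continuous_const hV).measurableSet]
    rfl
  rw [hlim]
  refine tendsto_integral_of_dominated_convergence (fun _ => 1)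
    (fun n => (Continuous.aestronglyMeasurable (by unfold smoothLevel; fun_prop)))
    (integrable_const 1) (fun n => ae_of_all _ fun v => by simpa using abs_Phi_le_one _)
    (ae_of_all _ fun v => ?_)
  have hn : Tendsto (fun n : ℕ => (n : ℝ)) atTop atTop := tendsto_natCast_atTop_atTop
  by_cases hv : s ≤ V (WithLp.toLp 2 v)
  · rw [indicator_of_mem (show v ∈ {v : Fin d → ℝ | s ≤ V (WithLp.toLp 2 v)} from hv)]
    refine tendsto_Phi_atTop.comp (tendsto_atTop_mono (fun n => ?_) hn)
    have : 0 ≤ (n : ℝ) ^ 2 * (V (WithLp.toLp 2 v) - s) :=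
      mul_nonneg (sq_nonneg _) (by linarith)
    simp only [smoothLevel]
    linarith
  · rw [indicator_of_notMem (show v ∉ {v : Fin d → ℝ | s ≤ V (WithLp.toLp 2 v)} from hv)]
    refine tendsto_Phi_atBot.comp ?_
    have hneg : V (WithLp.toLp 2 v) - s < 0 := by linarith [not_le.1 hv]
    refine Tendsto.congr (f₁ := fun n : ℕ => (n : ℝ) * ((n : ℝ) * (V (WithLp.toLp 2 v) - s) + 1))
      (fun n => by simp [smoothLevel]; ring) ?_
    exact hn.atTop_mul_atBot₀ (tendsto_atBot_add_const_right _ _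
      ((hn.atTop_mul_const_of_neg hneg)))

lemma eventually_le_PA_smoothLevel {d : ℕ} {V : Eu d → ℝ} (hV : Continuous V) {s a α : ℝ}
    (ha : gQ a ≤ (gam d).real {x | s ≤ V x}) (hα : α < -a) :
    ∀ᶠ n : ℕ in atTop, α ≤ PA (piG d) (smoothLevel V s n) := by
  have hlt : Phi α < (gam d).real {x | s ≤ V x} :=
    (strictMono_Phi hα).trans_le (gQ_eq_Phi_neg a ▸ ha)
  filter_upwards [(tendsto_order.1 (tendsto_integral_smoothLevel hV s)).1 _ hlt] with n hn
  rw [le_PA_iff (Continuous.measurable (by unfold smoothLevel; fun_prop))]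
  exact hn.le

end Ehr

open Ehr in
/-- Ehrhard concavity of superlevel sets of a concave Lipschitz function. -/
theorem ehrhard : EhrhardProp := by
  intro d V L hconc hV s t a b θ hθ0 hθ1 ha hb
  have hVc := hV.continuous
  have step : ∀ α β : ℝ, α < -a → β < -b →
      Phi ((1 - θ) * α + θ * β) ≤ (gam d).real {x | (1 - θ) * s + θ * t ≤ V x} := by
    intro α β hα hβ
    refine ge_of_tendsto (tendsto_integral_smoothLevel hVc _) ?_
    filter_upwards [eventually_le_PA_smoothLevel hVc ha hα,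
      eventually_le_PA_smoothLevel hVc hb hβ] with n hn0 hn1
    obtain ⟨L', hL'⟩ := exists_lipschitzWith_smoothLevel hV n
    have hmain : (1 - θ) * PA (piG d) (smoothLevel V s n) + θ * PA (piG d) (smoothLevel V t n) ≤
        PA (piG d) (smoothLevel V ((1 - θ) * s + θ * t) n) := by
      refine PA_pi_mix_le d _ _ _ L' θ (hL' _) (hL' _) (hL' _) hθ0 hθ1 fun v w => ?_
      have hc := hconc.2 (mem_univ (WithLp.toLp 2 v)) (mem_univ (WithLp.toLp 2 w))
        (show 0 ≤ 1 - θ by linarith) hθ0 (by ring)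
      simp only [smul_eq_mul] at hc
      simp only [smoothLevel, WithLp.toLp_add, WithLp.toLp_smul]
      have := mul_le_mul_of_nonneg_left hc (sq_nonneg (n : ℝ))
      linarith
    rw [← le_PA_iff (Continuous.measurable (by unfold smoothLevel; fun_prop))]
    have e0 := mul_le_mul_of_nonneg_left hn0 (show 0 ≤ 1 - θ by linarith)
    have e1 := mul_le_mul_of_nonneg_left hn1 hθ0
    linarith
  rw [gQ_eq_Phi_neg]
  have hlim : Tendsto (fun ε : ℝ => Phi (-((1 - θ) * a + θ * b) - ε)) (𝓝[>] 0)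
      (𝓝 (Phi (-((1 - θ) * a + θ * b)))) := by
    refine Tendsto.mono_left ?_ nhdsWithin_le_nhds
    have h : Continuous (fun ε : ℝ => Phi (-((1 - θ) * a + θ * b) - ε)) := by fun_prop
    simpa using h.tendsto 0
  refine le_of_tendsto hlim ?_
  filter_upwards [self_mem_nhdsWithin] with ε hε
  simp only [mem_Ioi] at hε
  have := step (-a - ε) (-b - ε) (by linarith) (by linarith)
  rwa [show (1 - θ) * (-a - ε) + θ * (-b - ε) = -((1 - θ) * a + θ * b) - ε by ring] at this

open Ehr in
/-- One Gaussian variable integrated out preserves joint concavity in the probit scale. -/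
theorem ehrhardStep : EhrhardStepProp := by
  intro f L hconc hf s t a b θ hθ0 hθ1 ha hb
  simp only [gQ_eq_Phi_neg, neg_neg] at ha hb ⊢
  have hm : ∀ s, Measurable (f s) := fun s => (hf s).continuous.measurable
  rw [← le_PA_iff (hm _)] at ha hb ⊢
  have hmix := PA_mix_le (hf s) (hf t) (hf ((1 - θ) * s + θ * t)) hθ0 hθ1 fun x0 x1 => by
    have hc := hconc.2 (mem_univ ((s, x0) : ℝ × ℝ)) (mem_univ ((t, x1) : ℝ × ℝ))
      (show 0 ≤ 1 - θ by linarith) hθ0 (by ring)
    simpa using hc
  have e0 := mul_le_mul_of_nonneg_left ha (show 0 ≤ 1 - θ by linarith)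
  have e1 := mul_le_mul_of_nonneg_left hb hθ0
  linarith

end Vale.Agent.P226
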