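import Vale.Agent.P226.EhrhardPhi

/-!
Heat evolution of `Phi ∘ F` in the probit scale.
-/

open MeasureTheory ProbabilityTheory Filter Set
open scoped Topology NNReal

namespace Vale.Agent.P226.Ehr

/-- `U F τ x` is the probit average of `F` under the Gaussian law centred at `x` of variance `τ`. -/
noncomputable def U (F : ℝ → ℝ) (τ x : ℝ) : ℝ :=
  PA (gaussianReal 0 1) (fun g => F (x + Real.sqrt τ * g))

lemma Phi_U {F : ℝ → ℝ} (hF : Continuous F) (τ x : ℝ) :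
    Phi (U F τ x) = ∫ g, Phi (F (x + Real.sqrt τ * g)) ∂(gaussianReal 0 1) :=
  Phi_PA (by fun_prop)

lemma U_zero {F : ℝ → ℝ} (x : ℝ) : U F 0 x = F x := by simp [U, PA, Psi_Phi]

lemma continuous_U {F : ℝ → ℝ} (hF : Continuous F) :
    Continuous (fun q : ℝ × ℝ => U F q.1 q.2) := by
  have h : Continuous (fun q : ℝ × ℝ =>
      ∫ g, Phi (F (q.2 + Real.sqrt q.1 * g)) ∂(gaussianReal 0 1)) := by
    refine continuous_of_dominated (bound := fun _ => 1)
      (fun q => (Continuous.aestronglyMeasurable (by fun_prop)))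
      (fun q => ae_of_all _ fun g => by simpa using abs_Phi_le_one _) (integrable_const 1)
      (ae_of_all _ fun g => by fun_prop)
  refine continuous_iff_continuousAt.2 fun q => ?_
  refine ContinuousAt.comp (g := Psi) ?_ h.continuousAt
  exact continuousAt_Psi (integral_Phi_pos (by fun_prop)) (integral_Phi_lt_one (by fun_prop))

lemma abs_U_sub_le {F : ℝ → ℝ} {L : ℝ≥0} (hF : LipschitzWith L F) (τ x x' : ℝ) :
    |U F τ x - U F τ x'| ≤ L * |x - x'| := by
  have hc := hF.continuous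
  refine abs_PA_sub_le (by fun_prop) (by fun_prop) (by positivity) fun g => ?_
  have := hF.dist_le_mul (x + Real.sqrt τ * g) (x' + Real.sqrt τ * g)
  simpa [Real.dist_eq] using this

/-! The kernel and its derivatives. -/

/-- Heat kernel. -/
noncomputable def ker (τ z : ℝ) : ℝ := (Real.sqrt (2 * Real.pi * τ))⁻¹ * Real.exp (-z ^ 2 / (2 * τ))

/-- Derivative of `x ↦ ker τ (y - x)`. -/
noncomputable def ker1 (τ z : ℝ) : ℝ := z / τ * ker τ z

/-- Second derivative of the kernel. -/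
noncomputable def ker2 (τ z : ℝ) : ℝ := (z ^ 2 / τ ^ 2 - 1 / τ) * ker τ z

lemma hasDerivAt_ker_x (τ : ℝ) (hτ : τ ≠ 0) (y x : ℝ) :
    HasDerivAt (fun x => ker τ (y - x)) (ker1 τ (y - x)) x := by
  have h : HasDerivAt (fun x : ℝ => -(y - x) ^ 2 / (2 * τ)) ((y - x) / τ) x := by
    refine ((((hasDerivAt_id x).const_sub y).pow 2).neg.div_const (2 * τ)).congr_deriv ?_
    simp
    field_simp
  exact (h.exp.const_mul ((Real.sqrt (2 * Real.pi * τ))⁻¹)).congr_deriv (by unfold ker1 ker; ring)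

lemma hasDerivAt_ker1_x (τ : ℝ) (hτ : τ ≠ 0) (y x : ℝ) :
    HasDerivAt (fun x => ker1 τ (y - x)) (ker2 τ (y - x)) x := by
  have h := (((hasDerivAt_id x).const_sub y).div_const τ).mul (hasDerivAt_ker_x τ hτ y x)
  refine h.congr_deriv ?_
  simp [ker2, ker1]
  field_simp
  ring

lemma hasDerivAt_ker_t (z : ℝ) {τ : ℝ} (hτ : 0 < τ) :
    HasDerivAt (fun τ => ker τ z) (ker2 τ z / 2) τ := by
  have hp : 0 < 2 * Real.pi * τ := by positivity
  have hs : Real.sqrt (2 * Real.pi * τ) ^ 2 = 2 * Real.pi * τ := Real.sq_sqrt hp.le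
  have hs0 : Real.sqrt (2 * Real.pi * τ) ≠ 0 := (Real.sqrt_pos.2 hp).ne'
  have h1 : HasDerivAt (fun τ : ℝ => 2 * Real.pi * τ) (2 * Real.pi) τ := by
    simpa using (hasDerivAt_id τ).const_mul (2 * Real.pi)
  have h3 : HasDerivAt (fun τ : ℝ => -z ^ 2 / (2 * τ)) (z ^ 2 / (2 * τ ^ 2)) τ := by
    refine ((hasDerivAt_const τ (-z ^ 2)).div ((hasDerivAt_id τ).const_mul 2) (by positivity))
      |>.congr_deriv ?_
    simp
    field_simp
  have h := ((h1.sqrt hp.ne').inv hs0).mul h3.exp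
  refine h.congr_deriv ?_
  simp only [ker2, ker, Pi.inv_apply]
  field_simp
  rw [hs]
  ring

@[fun_prop]
lemma continuous_ker (τ : ℝ) : Continuous (ker τ) := by unfold ker; fun_prop

@[fun_prop]
lemma continuous_ker1 (τ : ℝ) : Continuous (ker1 τ) := by unfold ker1; fun_prop

@[fun_prop]
lemma continuous_ker2 (τ : ℝ) : Continuous (ker2 τ) := by unfold ker2; fun_prop

lemma sq_le_exp {τ : ℝ} (hτ : 0 < τ) (z : ℝ) : z ^ 2 ≤ 4 * τ * Real.exp (z ^ 2 / (4 * τ)) := by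
  have h := Real.add_one_le_exp (z ^ 2 / (4 * τ))
  have : z ^ 2 = 4 * τ * (z ^ 2 / (4 * τ)) := by field_simp
  calc z ^ 2 = 4 * τ * (z ^ 2 / (4 * τ)) := this
    _ ≤ 4 * τ * Real.exp (z ^ 2 / (4 * τ)) := by gcongr; linarith

/-- All kernels are dominated by a wider Gaussian. -/
lemma abs_kers_le {τ : ℝ} (hτ : 0 < τ) (z : ℝ) :
    |ker τ z| ≤ (Real.sqrt (2 * Real.pi * τ))⁻¹ * Real.exp (-z ^ 2 / (4 * τ)) ∧
    |ker1 τ z| ≤ (1 + 4 * τ) / τ * (Real.sqrt (2 * Real.pi * τ))⁻¹ * Real.exp (-z ^ 2 / (4 * τ)) ∧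
    |ker2 τ z| ≤ 5 / τ * (Real.sqrt (2 * Real.pi * τ))⁻¹ * Real.exp (-z ^ 2 / (4 * τ)) := by
  set c := (Real.sqrt (2 * Real.pi * τ))⁻¹ with hc
  set e := Real.exp (z ^ 2 / (4 * τ)) with he
  set d := Real.exp (-z ^ 2 / (4 * τ)) with hd
  have hc0 : 0 ≤ c := by positivity
  have he1 : 1 ≤ e := Real.one_le_exp (by positivity)
  have hd0 : 0 < d := Real.exp_pos _
  have hed : e * d = 1 := by rw [he, hd, ← Real.exp_add, ← Real.exp_zero]; ring_nf
  have hk : ker τ z = c * (d * d) := by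
    rw [ker, ← hc, hd, ← Real.exp_add]; ring_nf
  have hz := sq_le_exp hτ z
  rw [← he] at hz
  have hz2 : |z| ≤ (1 + 4 * τ) * e := by
    nlinarith [sq_nonneg (|z| - 1), sq_abs z, abs_nonneg z]
  refine ⟨?_, ?_, ?_⟩
  · rw [hk, abs_of_nonneg (by positivity)]
    have : d ≤ 1 := by nlinarith
    nlinarith [mul_nonneg hc0 hd0.le]
  · rw [ker1, hk, abs_mul, abs_div, abs_of_pos hτ,
      abs_of_nonneg (show 0 ≤ c * (d * d) by positivity)]
    calc |z| / τ * (c * (d * d)) ≤ (1 + 4 * τ) * e / τ * (c * (d * d)) := by gcongr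
      _ = (1 + 4 * τ) / τ * c * d * (e * d) := by ring
      _ = (1 + 4 * τ) / τ * c * d := by rw [hed, mul_one]
  · rw [ker2, hk, abs_mul, abs_of_nonneg (show 0 ≤ c * (d * d) by positivity)]
    have h5 : |z ^ 2 / τ ^ 2 - 1 / τ| ≤ 5 / τ * e := by
      calc |z ^ 2 / τ ^ 2 - 1 / τ| ≤ |z ^ 2 / τ ^ 2| + |1 / τ| := abs_sub _ _
        _ = z ^ 2 / τ ^ 2 + 1 / τ := by
            rw [abs_of_nonneg (by positivity), abs_of_nonneg (by positivity)]
        _ ≤ 4 * τ * e / τ ^ 2 + e / τ := by gcongr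
        _ = 5 / τ * e := by field_simp; ring
    calc |z ^ 2 / τ ^ 2 - 1 / τ| * (c * (d * d)) ≤ 5 / τ * e * (c * (d * d)) := by gcongr
      _ = 5 / τ * c * d * (e * d) := by ring
      _ = 5 / τ * c * d := by rw [hed, mul_one]

/-- Differentiation of a bounded function integrated against a dominated family of kernels. -/
lemma hasDerivAt_integral_ker {w : ℝ → ℝ} (hw : Continuous w) (hw1 : ∀ y, |w y| ≤ 1)
    {K K' : ℝ → ℝ → ℝ} {p0 : ℝ} {s : Set ℝ} (hs : s ∈ 𝓝 p0) {C C' b x0 : ℝ} (hb : 0 < b)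
    (hKc : ∀ p, Continuous (K p)) (hK'c : Continuous (K' p0))
    (hK : ∀ y, |K p0 y| ≤ C * Real.exp (-b * (y - x0) ^ 2))
    (hK' : ∀ p ∈ s, ∀ y, |K' p y| ≤ C' * Real.exp (-b * (y - x0) ^ 2))
    (hd : ∀ p ∈ s, ∀ y, HasDerivAt (fun p => K p y) (K' p y) p) :
    HasDerivAt (fun p => ∫ y, w y * K p y) (∫ y, w y * K' p0 y) p0 := by
  have hint : Integrable (fun y : ℝ => Real.exp (-b * (y - x0) ^ 2)) :=
    (integrable_exp_neg_mul_sq hb).comp_sub_right x0
  have hb1 : ∀ (a c : ℝ) (y : ℝ), |a| ≤ c → ‖w y * a‖ ≤ c := fun a c y h => by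
    rw [Real.norm_eq_abs, abs_mul]
    calc |w y| * |a| ≤ 1 * |a| := by gcongr; exact hw1 y
      _ ≤ c := by rwa [one_mul]
  refine (hasDerivAt_integral_of_dominated_loc_of_deriv_le
    (bound := fun y => C' * Real.exp (-b * (y - x0) ^ 2)) hs
    (Eventually.of_forall fun p => (hw.mul (hKc p)).aestronglyMeasurable) ?_
    (hw.mul hK'c).aestronglyMeasurable
    (ae_of_all _ fun y p hp => hb1 _ _ y (hK' p hp y)) (hint.const_mul C')
    (ae_of_all _ fun y p hp => (hd p hp y).const_mul (w y))).2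
  exact (hint.const_mul C).mono' (hw.mul (hKc p0)).aestronglyMeasurable
    (ae_of_all _ fun y => hb1 _ _ y (hK y))

variable {F : ℝ → ℝ}

/-- `Phi ∘ F` averaged against a kernel. -/
noncomputable def conv (F : ℝ → ℝ) (K : ℝ → ℝ → ℝ) (τ x : ℝ) : ℝ :=
  ∫ y, Phi (F y) * K τ (y - x)

lemma Phi_U_eq_conv (hF : Continuous F) {τ : ℝ} (hτ : 0 < τ) (x : ℝ) :
    Phi (U F τ x) = conv F ker τ x := by
  have hv : τ.toNNReal ≠ 0 := by simpa using hτ
  have hmap : (gaussianReal 0 1).map (fun g => x + Real.sqrt τ * g) =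
      gaussianReal x τ.toNNReal := by
    have : (fun g => x + Real.sqrt τ * g) = (fun g => x + g) ∘ (fun g => Real.sqrt τ * g) := rfl
    rw [this, ← Measure.map_map (by fun_prop) (by fun_prop), gaussianReal_map_const_mul,
      gaussianReal_map_const_add]
    congr 1
    · simp
    · ext; simp [Real.sq_sqrt hτ.le, hτ.le]
  rw [Phi_U hF, ← integral_map (f := fun y => Phi (F y)) (Measurable.aemeasurable (by fun_prop))
      (Continuous.aestronglyMeasurable (by fun_prop)), hmap,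
    integral_gaussianReal_eq_integral_smul hv, conv]
  congr 1 with y
  simp [gaussianPDFReal, ker, hτ.le]
  ring

lemma exp_shift_le {τ x x0 : ℝ} (hτ : 0 < τ) (hx : |x - x0| ≤ 1) (y : ℝ) :
    Real.exp (-(y - x) ^ 2 / (4 * τ)) ≤
      Real.exp (1 / (4 * τ)) * Real.exp (-(1 / (8 * τ)) * (y - x0) ^ 2) := by
  rw [← Real.exp_add, Real.exp_le_exp]
  have h1 : (x - x0) ^ 2 ≤ 1 := by nlinarith [sq_abs (x - x0), abs_nonneg (x - x0)]
  have h2 : (y - x0) ^ 2 ≤ 2 * (y - x) ^ 2 + 2 := by nlinarith [sq_nonneg (y - x - (x - x0))]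
  have e : 1 / (4 * τ) + -(1 / (8 * τ)) * (y - x0) ^ 2 - -(y - x) ^ 2 / (4 * τ) =
      (2 + 2 * (y - x) ^ 2 - (y - x0) ^ 2) / (8 * τ) := by field_simp; ring
  have : 0 ≤ (2 + 2 * (y - x) ^ 2 - (y - x0) ^ 2) / (8 * τ) :=
    div_nonneg (by linarith) (by linarith)
  linarith

lemma hasDerivAt_conv_ker_x (hF : Continuous F) {τ : ℝ} (hτ : 0 < τ) (x : ℝ) :
    HasDerivAt (conv F ker τ) (conv F ker1 τ x) x ∧
    HasDerivAt (conv F ker1 τ) (conv F ker2 τ x) x := by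
  have hs : Metric.closedBall x 1 ∈ 𝓝 x := Metric.closedBall_mem_nhds x one_pos
  have hmem : ∀ p ∈ Metric.closedBall x (1 : ℝ), |p - x| ≤ 1 := fun p hp => by
    simpa [Metric.mem_closedBall, Real.dist_eq] using hp
  have hb : (0 : ℝ) < 1 / (8 * τ) := by positivity
  have hw : Continuous (fun y => Phi (F y)) := by fun_prop
  have bound : ∀ {k c : ℝ} {p y : ℝ}, 0 ≤ c → |p - x| ≤ 1 →
      |k| ≤ c * Real.exp (-(y - p) ^ 2 / (4 * τ)) →
      |k| ≤ c * Real.exp (1 / (4 * τ)) * Real.exp (-(1 / (8 * τ)) * (y - x) ^ 2) := by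
    intro k c p y hc hp hk
    rw [mul_assoc]
    exact hk.trans (mul_le_mul_of_nonneg_left (exp_shift_le hτ hp y) hc)
  have hxx : |x - x| ≤ 1 := by simp
  constructor
  · exact hasDerivAt_integral_ker hw (fun y => abs_Phi_le_one _)
      (K := fun p y => ker τ (y - p)) (K' := fun p y => ker1 τ (y - p)) hs hb
      (fun p => by fun_prop) (by fun_prop)
      (fun y => bound (by positivity) hxx (abs_kers_le hτ (y - x)).1)
      (fun p hp y => bound (by positivity) (hmem p hp) (abs_kers_le hτ (y - p)).2.1)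
      (fun p _ y => hasDerivAt_ker_x τ hτ.ne' y p)
  · exact hasDerivAt_integral_ker hw (fun y => abs_Phi_le_one _)
      (K := fun p y => ker1 τ (y - p)) (K' := fun p y => ker2 τ (y - p)) hs hb
      (fun p => by fun_prop) (by fun_prop)
      (fun y => bound (by positivity) hxx (abs_kers_le hτ (y - x)).2.1)
      (fun p hp y => bound (by positivity) (hmem p hp) (abs_kers_le hτ (y - p)).2.2)
      (fun p _ y => hasDerivAt_ker1_x τ hτ.ne' y p)

lemma hasDerivAt_conv_ker_t (hF : Continuous F) {τ : ℝ} (hτ : 0 < τ) (x : ℝ) :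
    HasDerivAt (fun t => conv F ker t x) (conv F ker2 τ x / 2) τ := by
  have hs : Icc (τ / 2) (2 * τ) ∈ 𝓝 τ := Icc_mem_nhds (by linarith) (by linarith)
  have hw : Continuous (fun y => Phi (F y)) := by fun_prop
  set c := (Real.sqrt (Real.pi * τ))⁻¹ with hc
  have hmain : ∀ p ∈ Icc (τ / 2) (2 * τ), ∀ y,
      |ker p (y - x)| ≤ c * Real.exp (-(1 / (8 * τ)) * (y - x) ^ 2) ∧
      |ker2 p (y - x) / 2| ≤ 5 / τ * c * Real.exp (-(1 / (8 * τ)) * (y - x) ^ 2) := by
    intro p hp y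
    have hp0 : 0 < p := by linarith [hp.1]
    obtain ⟨k0, -, k2⟩ := abs_kers_le hp0 (y - x)
    have hcp : (Real.sqrt (2 * Real.pi * p))⁻¹ ≤ c := by
      refine inv_anti₀ (Real.sqrt_pos.2 (by positivity)) (Real.sqrt_le_sqrt ?_)
      nlinarith [Real.pi_pos, hp.1]
    have hexp : Real.exp (-(y - x) ^ 2 / (4 * p)) ≤
        Real.exp (-(1 / (8 * τ)) * (y - x) ^ 2) := by
      rw [Real.exp_le_exp]
      have : (y - x) ^ 2 / (8 * τ) ≤ (y - x) ^ 2 / (4 * p) :=
        div_le_div_of_nonneg_left (sq_nonneg _) (by positivity) (by linarith [hp.2])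
      have e : -(1 / (8 * τ)) * (y - x) ^ 2 = -((y - x) ^ 2 / (8 * τ)) := by ring
      rw [e, neg_div]
      linarith
    refine ⟨k0.trans (by gcongr), ?_⟩
    rw [abs_div, abs_two, div_le_iff₀ two_pos]
    refine k2.trans ?_
    calc 5 / p * (Real.sqrt (2 * Real.pi * p))⁻¹ * Real.exp (-(y - x) ^ 2 / (4 * p))
        ≤ 5 / (τ / 2) * c * Real.exp (-(1 / (8 * τ)) * (y - x) ^ 2) := by
          gcongr; exact hp.1
      _ = _ := by field_simp
  have h := hasDerivAt_integral_ker hw (fun y => abs_Phi_le_one _)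
      (K := fun t y => ker t (y - x)) (K' := fun t y => ker2 t (y - x) / 2) hs
      (show (0 : ℝ) < 1 / (8 * τ) by positivity)
      (fun p => by fun_prop) (by fun_prop)
      (fun y => (hmain τ ⟨by linarith, by linarith⟩ y).1)
      (fun p hp y => (hmain p hp y).2)
      (fun p hp y => hasDerivAt_ker_t (y - x) (by linarith [hp.1]))
  refine h.congr_deriv ?_
  rw [conv, ← integral_div]
  congr 1 with y
  ring

/-- `∂ₓ U`. -/
noncomputable def U1 (F : ℝ → ℝ) (τ x : ℝ) : ℝ := conv F ker1 τ x / gpdf (U F τ x)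

/-- `∂ₓₓ U`. -/
noncomputable def U2 (F : ℝ → ℝ) (τ x : ℝ) : ℝ :=
  conv F ker2 τ x / gpdf (U F τ x) + U F τ x * U1 F τ x ^ 2

lemma U_eq_Psi_conv (hF : Continuous F) {τ : ℝ} (hτ : 0 < τ) (x : ℝ) :
    U F τ x = Psi (conv F ker τ x) := by rw [← Phi_U_eq_conv hF hτ, Psi_Phi]

lemma hasDerivAt_Psi_conv (hF : Continuous F) {τ : ℝ} (hτ : 0 < τ) (x : ℝ) :
    HasDerivAt Psi (gpdf (U F τ x))⁻¹ (conv F ker τ x) := by
  rw [U_eq_Psi_conv hF hτ]
  refine hasDerivAt_Psi ?_ ?_ <;> rw [← Phi_U_eq_conv hF hτ]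
  exacts [Phi_pos _, Phi_lt_one _]

lemma hasDerivAt_U_x (hF : Continuous F) {τ : ℝ} (hτ : 0 < τ) (x : ℝ) :
    HasDerivAt (U F τ) (U1 F τ x) x := by
  have h := (hasDerivAt_Psi_conv hF hτ x).comp x (hasDerivAt_conv_ker_x hF hτ x).1
  refine (h.congr_of_eventuallyEq ?_).congr_deriv (by rw [U1]; ring)
  exact Eventually.of_forall fun z => U_eq_Psi_conv hF hτ z

lemma hasDerivAt_U1_x (hF : Continuous F) {τ : ℝ} (hτ : 0 < τ) (x : ℝ) :
    HasDerivAt (U1 F τ) (U2 F τ x) x := by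
  have hg : HasDerivAt (fun z => gpdf (U F τ z)) (-U F τ x * gpdf (U F τ x) * U1 F τ x) x :=
    (hasDerivAt_gpdf _).comp x (hasDerivAt_U_x hF hτ x)
  refine ((hasDerivAt_conv_ker_x hF hτ x).2.div hg (gpdf_pos _).ne').congr_deriv ?_
  have := (gpdf_pos (U F τ x)).ne'
  rw [U2, U1]
  field_simp
  ring

lemma hasDerivAt_U_t (hF : Continuous F) {τ : ℝ} (hτ : 0 < τ) (x : ℝ) :
    HasDerivAt (fun t => U F t x) ((U2 F τ x - U F τ x * U1 F τ x ^ 2) / 2) τ := by
  have h := (hasDerivAt_Psi_conv hF hτ x).comp τ (hasDerivAt_conv_ker_t hF hτ x)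
  refine (h.congr_of_eventuallyEq ?_).congr_deriv (by rw [U2]; ring)
  filter_upwards [Ioi_mem_nhds hτ] with t ht using U_eq_Psi_conv hF ht x

lemma abs_U1_le {L : ℝ≥0} (hF : LipschitzWith L F) {τ : ℝ} (hτ : 0 < τ) (x : ℝ) :
    |U1 F τ x| ≤ L := by
  have h : LipschitzWith L (U F τ) := LipschitzWith.of_dist_le_mul fun a b => by
    simpa [Real.dist_eq] using abs_U_sub_le hF τ a b
  simpa using (hasDerivAt_U_x hF.continuous hτ x).le_of_lipschitz h

end Vale.Agent.P226.Ehr
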