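import Vale.Agent.P226.Basic

/-!
The normal distribution function `Phi`, its inverse `Psi`, and the probit average
`PA μ F = Psi (∫ Phi ∘ F ∂μ)`.
-/

open MeasureTheory ProbabilityTheory Filter Set
open scoped Topology NNReal

namespace Vale.Agent.P226.Ehr

/-- Standard normal distribution function. -/
noncomputable def Phi (y : ℝ) : ℝ := gQ (-y)

lemma gQ_eq_Phi_neg (u : ℝ) : gQ u = Phi (-u) := by simp [Phi]

lemma gpdf_eq : gpdf = gaussianPDFReal 0 1 := by
  funext u; simp [gpdf, gaussianPDFReal]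

lemma gpdf_pos (u : ℝ) : 0 < gpdf u := by unfold gpdf; positivity

@[fun_prop]
lemma continuous_gpdf : Continuous gpdf := by unfold gpdf; fun_prop

lemma hasDerivAt_gpdf (u : ℝ) : HasDerivAt gpdf (-u * gpdf u) u := by
  have h : HasDerivAt (fun u : ℝ => -u ^ 2 / 2) (-u) u := by
    simpa using ((hasDerivAt_pow 2 u).neg.div_const 2).congr_deriv (by ring : _ = -u)
  exact (h.exp.const_mul ((Real.sqrt (2 * Real.pi))⁻¹)).congr_deriv (by unfold gpdf; ring)

lemma gpdf_shift (y c : ℝ) : gpdf (y + c) = Real.exp (-c * y - c ^ 2 / 2) * gpdf y := by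
  unfold gpdf
  rw [show -(y + c) ^ 2 / 2 = (-c * y - c ^ 2 / 2) + -y ^ 2 / 2 by ring, Real.exp_add]
  ring

lemma Phi_eq_measureReal (y : ℝ) : Phi y = (gaussianReal 0 1).real (Iic y) := by
  have h : (gaussianReal 0 1).map (fun x => -x) = gaussianReal 0 1 := by
    simpa using gaussianReal_map_neg (μ := 0) (v := 1)
  conv_rhs => rw [← h]
  rw [map_measureReal_apply (by fun_prop) measurableSet_Iic]
  unfold Phi gQ
  congr 1
  ext x
  simp

lemma Phi_eq_cdf : Phi = cdf (gaussianReal 0 1) := by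
  funext y; rw [Phi_eq_measureReal, cdf_eq_real]

lemma Phi_eq_integral (y : ℝ) : Phi y = ∫ t in Iic y, gpdf t := by
  rw [Phi_eq_measureReal, measureReal_def, gaussianReal_apply_eq_integral 0 one_ne_zero,
    ENNReal.toReal_ofReal (setIntegral_nonneg measurableSet_Iic
      fun t _ => gaussianPDFReal_nonneg 0 1 t), gpdf_eq]

lemma hasDerivAt_Phi (y : ℝ) : HasDerivAt Phi (gpdf y) y := by
  have hint : Integrable gpdf := gpdf_eq ▸ integrable_gaussianPDFReal 0 1
  have h : Phi = fun y => Phi 0 + ∫ t in (0 : ℝ)..y, gpdf t := by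
    funext y
    rw [Phi_eq_integral, Phi_eq_integral,
      ← intervalIntegral.integral_Iic_sub_Iic hint.integrableOn hint.integrableOn]
    ring
  rw [h]
  exact ((continuous_gpdf.integral_hasStrictDerivAt 0 y).hasDerivAt).const_add _

@[fun_prop]
lemma continuous_Phi : Continuous Phi :=
  continuous_iff_continuousAt.2 fun y => (hasDerivAt_Phi y).continuousAt

lemma strictMono_Phi : StrictMono Phi :=
  strictMono_of_hasDerivAt_pos hasDerivAt_Phi gpdf_pos

lemma tendsto_Phi_atBot : Tendsto Phi atBot (𝓝 0) := by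
  rw [Phi_eq_cdf]; exact tendsto_cdf_atBot _

lemma tendsto_Phi_atTop : Tendsto Phi atTop (𝓝 1) := by
  rw [Phi_eq_cdf]; exact tendsto_cdf_atTop _

lemma Phi_nonneg (y : ℝ) : 0 ≤ Phi y := measureReal_nonneg

lemma Phi_le_one (y : ℝ) : Phi y ≤ 1 := measureReal_le_one

lemma Phi_pos (y : ℝ) : 0 < Phi y :=
  (Phi_nonneg (y - 1)).trans_lt (strictMono_Phi (by linarith))

lemma Phi_lt_one (y : ℝ) : Phi y < 1 :=
  (strictMono_Phi (by linarith : y < y + 1)).trans_le (Phi_le_one _)

lemma abs_Phi_le_one (y : ℝ) : |Phi y| ≤ 1 := by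
  rw [abs_of_nonneg (Phi_nonneg y)]; exact Phi_le_one y

lemma exists_Phi_eq {p : ℝ} (h0 : 0 < p) (h1 : p < 1) : ∃ y, Phi y = p := by
  obtain ⟨a, ha⟩ := ((tendsto_order.1 tendsto_Phi_atBot).2 p h0).exists
  obtain ⟨b, hb⟩ := ((tendsto_order.1 tendsto_Phi_atTop).1 p h1).exists
  exact mem_range_of_exists_le_of_exists_ge continuous_Phi ⟨a, ha.le⟩ ⟨b, hb.le⟩

/-- Inverse of `Phi`. -/
noncomputable def Psi (p : ℝ) : ℝ := Function.invFun Phi p

lemma Psi_Phi (y : ℝ) : Psi (Phi y) = y :=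
  Function.leftInverse_invFun strictMono_Phi.injective y

lemma Phi_Psi {p : ℝ} (h0 : 0 < p) (h1 : p < 1) : Phi (Psi p) = p :=
  Function.invFun_eq (exists_Phi_eq h0 h1)

lemma strictMonoOn_Psi : StrictMonoOn Psi (Ioo 0 1) := by
  intro p hp q hq hpq
  rw [← strictMono_Phi.lt_iff_lt, Phi_Psi hp.1 hp.2, Phi_Psi hq.1 hq.2]
  exact hpq

lemma continuousAt_Psi {p : ℝ} (h0 : 0 < p) (h1 : p < 1) : ContinuousAt Psi p := by
  refine strictMonoOn_Psi.continuousAt_of_image_mem_nhds (Ioo_mem_nhds h0 h1) ?_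
  have : Psi '' Ioo 0 1 = univ :=
    eq_univ_of_forall fun y => ⟨Phi y, ⟨Phi_pos y, Phi_lt_one y⟩, Psi_Phi y⟩
  rw [this]
  exact univ_mem

lemma hasDerivAt_Psi {p : ℝ} (h0 : 0 < p) (h1 : p < 1) :
    HasDerivAt Psi (gpdf (Psi p))⁻¹ p := by
  refine HasDerivAt.of_local_left_inverse (continuousAt_Psi h0 h1) (hasDerivAt_Phi _)
    (gpdf_pos _).ne' ?_
  filter_upwards [Ioo_mem_nhds h0 h1] with q hq using Phi_Psi hq.1 hq.2

/-- The tangent bound behind shift invariance. -/
lemma Phi_shift_le {c : ℝ} (hc : 0 ≤ c) (y0 y : ℝ) :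
    Phi (y + c) ≤ Phi (y0 + c) + Real.exp (-c * y0 - c ^ 2 / 2) * (Phi y - Phi y0) := by
  set K := Real.exp (-c * y0 - c ^ 2 / 2) with hK
  let G : ℝ → ℝ := fun y => Phi (y + c) - K * Phi y
  have hG : ∀ y, HasDerivAt G (gpdf (y + c) - K * gpdf y) y := fun y =>
    ((hasDerivAt_Phi (y + c)).comp_add_const y c).sub ((hasDerivAt_Phi y).const_mul K)
  have hGc : Continuous G := continuous_iff_continuousAt.2 fun y => (hG y).continuousAt
  suffices G y ≤ G y0 by simp only [G] at this; linarith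
  rcases le_total y y0 with h | h
  · refine monotoneOn_of_hasDerivWithinAt_nonneg (convex_Iic y0) hGc.continuousOn
      (fun z _ => (hG z).hasDerivWithinAt) ?_ h (mem_Iic.2 le_rfl) h
    intro z hz
    rw [interior_Iic, mem_Iio] at hz
    rw [gpdf_shift, ← sub_mul]
    refine mul_nonneg (sub_nonneg.2 (Real.exp_le_exp.2 ?_)) (gpdf_pos z).le
    nlinarith
  · refine antitoneOn_of_hasDerivWithinAt_nonpos (convex_Ici y0) hGc.continuousOn
      (fun z _ => (hG z).hasDerivWithinAt) ?_ (mem_Ici.2 le_rfl) h h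
    intro z hz
    rw [interior_Ici, mem_Ioi] at hz
    rw [gpdf_shift, ← sub_mul]
    refine mul_nonpos_of_nonpos_of_nonneg (sub_nonpos.2 (Real.exp_le_exp.2 ?_)) (gpdf_pos z).le
    nlinarith

section PA

variable {α : Type*} [MeasurableSpace α] (μ : Measure α) [IsProbabilityMeasure μ]

/-- Probit average. -/
noncomputable def PA (F : α → ℝ) : ℝ := Psi (∫ a, Phi (F a) ∂μ)

variable {μ}

lemma integrable_Phi_comp {F : α → ℝ} (hF : Measurable F) :
    Integrable (fun a => Phi (F a)) μ :=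
  Integrable.of_bound (continuous_Phi.measurable.comp hF).aestronglyMeasurable 1
    (ae_of_all _ fun a => by simpa using abs_Phi_le_one (F a))

lemma integral_Phi_pos {F : α → ℝ} (hF : Measurable F) : 0 < ∫ a, Phi (F a) ∂μ := by
  rw [integral_pos_iff_support_of_nonneg (fun a => Phi_nonneg (F a)) (integrable_Phi_comp hF)]
  have : Function.support (fun a => Phi (F a)) = univ :=
    eq_univ_of_forall fun a => (Phi_pos (F a)).ne'
  simp [this]

lemma integral_Phi_lt_one {F : α → ℝ} (hF : Measurable F) : ∫ a, Phi (F a) ∂μ < 1 := by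
  have h : 0 < ∫ a, (1 - Phi (F a)) ∂μ := by
    rw [integral_pos_iff_support_of_nonneg (fun a => sub_nonneg.2 (Phi_le_one (F a)))
      ((integrable_const 1).sub (integrable_Phi_comp hF))]
    have : Function.support (fun a => 1 - Phi (F a)) = univ :=
      eq_univ_of_forall fun a => (sub_pos.2 (Phi_lt_one (F a))).ne'
    simp [this]
  rw [integral_sub (integrable_const 1) (integrable_Phi_comp hF)] at h
  simpa using h

lemma Phi_PA {F : α → ℝ} (hF : Measurable F) : Phi (PA μ F) = ∫ a, Phi (F a) ∂μ :=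
  Phi_Psi (integral_Phi_pos hF) (integral_Phi_lt_one hF)

lemma le_PA_iff {F : α → ℝ} (hF : Measurable F) {y : ℝ} :
    y ≤ PA μ F ↔ Phi y ≤ ∫ a, Phi (F a) ∂μ := by
  rw [← Phi_PA hF, strictMono_Phi.le_iff_le]

lemma PA_mono {F G : α → ℝ} (hF : Measurable F) (hG : Measurable G) (h : ∀ a, F a ≤ G a) :
    PA μ F ≤ PA μ G := by
  rw [le_PA_iff hG, Phi_PA hF]
  exact integral_mono (integrable_Phi_comp hF) (integrable_Phi_comp hG)
    fun a => strictMono_Phi.monotone (h a)

lemma PA_add_le {F : α → ℝ} (hF : Measurable F) {c : ℝ} (hc : 0 ≤ c) :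
    PA μ (fun a => F a + c) ≤ PA μ F + c := by
  rw [← strictMono_Phi.le_iff_le, Phi_PA (hF.add_const c)]
  set y0 := PA μ F with hy0
  set K := Real.exp (-c * y0 - c ^ 2 / 2)
  calc ∫ a, Phi (F a + c) ∂μ ≤ ∫ a, (Phi (y0 + c) + K * (Phi (F a) - Phi y0)) ∂μ :=
        integral_mono (integrable_Phi_comp (hF.add_const c))
          ((integrable_const _).add (((integrable_Phi_comp hF).sub (integrable_const _)).const_mul K))
          fun a => Phi_shift_le hc y0 (F a)
    _ = Phi (y0 + c) := by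
        have h1 : Integrable (fun a => Phi (F a) - Phi y0) μ :=
          (integrable_Phi_comp hF).sub (integrable_const _)
        rw [integral_add (integrable_const _) (h1.const_mul K), integral_const_mul,
          integral_sub (integrable_Phi_comp hF) (integrable_const _)]
        simp [hy0, Phi_PA hF]

lemma abs_PA_sub_le {F G : α → ℝ} (hF : Measurable F) (hG : Measurable G) {c : ℝ}
    (hc : 0 ≤ c) (h : ∀ a, |F a - G a| ≤ c) : |PA μ F - PA μ G| ≤ c := by
  have h1 : PA μ F ≤ PA μ G + c :=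
    (PA_mono hF (hG.add_const c) fun a => by linarith [(abs_le.1 (h a)).2]).trans (PA_add_le hG hc)
  have h2 : PA μ G ≤ PA μ F + c :=
    (PA_mono hG (hF.add_const c) fun a => by linarith [(abs_le.1 (h a)).1]).trans (PA_add_le hF hc)
  exact abs_le.2 ⟨by linarith, by linarith⟩

end PA

end Vale.Agent.P226.Ehr
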