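import Vale.Agent.P226.Basic

/-! Statement wanted from the Ehrhard module (to be proved in `Ehrhard.lean`). -/

open MeasureTheory ProbabilityTheory
open scoped RealInnerProductSpace

namespace Vale.Agent.P226

/-- Superlevel sets of a concave Lipschitz function satisfy Ehrhard concavity in the level. -/
def EhrhardProp : Prop :=
  ∀ (d : ℕ) (V : Eu d → ℝ) (L : NNReal), ConcaveOn ℝ Set.univ V → LipschitzWith L V →
    ∀ (s t a b θ : ℝ), 0 ≤ θ → θ ≤ 1 →
      gQ a ≤ (gam d).real {x | s ≤ V x} → gQ b ≤ (gam d).real {x | t ≤ V x} →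
      gQ ((1 - θ) * a + θ * b) ≤ (gam d).real {x | (1 - θ) * s + θ * t ≤ V x}

/-- The one-dimensional step: integrating one Gaussian variable preserves concavity in the
probit scale. `p` lists the other variables, `x` is the Gaussian one. -/
def EhrhardStepProp : Prop :=
  ∀ (f : ℝ → ℝ → ℝ) (L : NNReal),
    ConcaveOn ℝ Set.univ (fun q : ℝ × ℝ => f q.1 q.2) →
    (∀ s, LipschitzWith L (f s)) →
    ∀ (s t a b θ : ℝ), 0 ≤ θ → θ ≤ 1 →
      gQ a ≤ ∫ x, gQ (-(f s x)) ∂(gaussianReal 0 1) →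
      gQ b ≤ ∫ x, gQ (-(f t x)) ∂(gaussianReal 0 1) →
      gQ ((1 - θ) * a + θ * b) ≤
        ∫ x, gQ (-(f ((1 - θ) * s + θ * t) x)) ∂(gaussianReal 0 1)

end Vale.Agent.P226
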