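import Vale.Agent.P226.Probit

/-!
Constraints on the pair (mass, squared first moment) of one cell, and tools turning endpoint
checks into linear bounds on intervals of masses.
-/

open MeasureTheory ProbabilityTheory Set Filter Topology

namespace Vale.Agent.P226

/-- What is known about a cell of mass `m` and squared moment `s`. -/
structure Feas (m s : ℝ) : Prop where
  nonneg : 0 ≤ s
  ex : ∃ u, gQ u = m ∧ s / 2 + 0.349065 * s ^ 2 ≤ gh u ∧ s ≤ gpdf u ^ 2

/-- A linear bound on the moment itself. -/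
def CapBound (m s A B : ℝ) : Prop := Real.sqrt s ≤ A * m + B

lemma le_two_gh {u : ℝ} {s : ℝ} (h : s / 2 + 0.349065 * s ^ 2 ≤ gh u) :
    s ≤ 2 * gh u := by
  nlinarith [sq_nonneg s]

/-- Linearised deletion bound on `[gQ b, gQ a]`. -/
lemma Feas.psi_seg {m s p q a b s₀ : ℝ} (h : Feas m s) (ha : 0 ≤ a) (hs₀ : 0 ≤ s₀)
    (hl : gQ b ≤ m) (hr : m ≤ gQ a)
    (hA : gh a + 0.349065 * s₀ ^ 2 ≤ (1 / 2 + 0.69813 * s₀) * (p * gQ a + q))
    (hB : gh b + 0.349065 * s₀ ^ 2 ≤ (1 / 2 + 0.69813 * s₀) * (p * gQ b + q)) :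
    s ≤ p * m + q := by
  obtain ⟨u, hu, h1, -⟩ := h.ex
  have hau : a ≤ u := gQ_le_iff.1 (hu ▸ hr)
  have hub : u ≤ b := gQ_le_iff.1 (hu ▸ hl)
  set K : ℝ := 1 / 2 + 0.69813 * s₀
  have hK : 0 < K := by positivity
  have h2 : gh u ≤ (K * p) * gQ u + (K * q - 0.349065 * s₀ ^ 2) :=
    gh_le_of_endpoints ha hau hub (by linarith) (by linarith)
  rw [hu] at h2
  refine le_of_mul_le_mul_left ?_ hK
  have h3 : 0 ≤ 0.349065 * (s - s₀) ^ 2 := by positivity
  simp only [K] at h2 ⊢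
  nlinarith

/-- Slope bound on `(0, gQ a]`. -/
lemma Feas.le_rho {m s ρ a : ℝ} (h : Feas m s) (ha : 0 ≤ a) (hρ : 0 ≤ ρ) (hm : m ≤ gQ a)
    (hA : 2 * gh a ≤ ρ * gQ a) : s ≤ ρ * m := by
  obtain ⟨u, hu, h1, -⟩ := h.ex
  have hau : a ≤ u := gQ_le_iff.1 (hu ▸ hm)
  have h2 := gh_le_of_left (p := ρ / 2) (by linarith) ha hau (by linarith)
  rw [hu] at h2
  linarith [le_two_gh h1]

/-- Chord of twice the gain on `[gQ b, gQ a]`. -/
lemma Feas.le_chord {m s p q a b : ℝ} (h : Feas m s) (ha : 0 ≤ a) (hl : gQ b ≤ m) (hr : m ≤ gQ a)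
    (hA : 2 * gh a ≤ p * gQ a + q) (hB : 2 * gh b ≤ p * gQ b + q) : s ≤ p * m + q := by
  obtain ⟨u, hu, h1, -⟩ := h.ex
  have hau : a ≤ u := gQ_le_iff.1 (hu ▸ hr)
  have hub : u ≤ b := gQ_le_iff.1 (hu ▸ hl)
  have h2 := gh_le_of_endpoints (p := p / 2) (q := q / 2) ha hau hub (by linarith) (by linarith)
  rw [hu] at h2
  linarith [le_two_gh h1]

/-- The profile lies below its tangents as a function of the mass. -/
lemma gpdf_le_tangent (c x : ℝ) : gpdf x ≤ gpdf c + c * (gQ x - gQ c) := by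
  set F : ℝ → ℝ := fun u => gpdf u - c * gQ u with hFdef
  have hF : ∀ u, HasDerivAt F (gpdf u * (c - u)) u := by
    intro u
    refine ((hasDerivAt_gpdf u).sub ((hasDerivAt_gQ u).const_mul c)).congr_deriv ?_
    ring
  have hcF : Continuous F := continuous_iff_continuousAt.2 fun u => (hF u).continuousAt
  suffices F x ≤ F c by simp only [hFdef] at this; linarith
  rcases le_total x c with h | h
  · have hm : MonotoneOn F (Icc x c) := by
      refine monotoneOn_of_deriv_nonneg (convex_Icc x c) hcF.continuousOn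
        (fun u _ => (hF u).differentiableAt.differentiableWithinAt) ?_
      intro u hu
      rw [interior_Icc] at hu
      rw [(hF u).deriv]
      exact mul_nonneg (gpdf_pos u).le (by linarith [hu.2])
    exact hm ⟨le_rfl, h⟩ ⟨h, le_rfl⟩ h
  · have hm : AntitoneOn F (Icc c x) := by
      refine antitoneOn_of_deriv_nonpos (convex_Icc c x) hcF.continuousOn
        (fun u _ => (hF u).differentiableAt.differentiableWithinAt) ?_
      intro u hu
      rw [interior_Icc] at hu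
      rw [(hF u).deriv]
      exact mul_nonpos_of_nonneg_of_nonpos (gpdf_pos u).le (by linarith [hu.1])
    exact hm ⟨le_rfl, h⟩ ⟨h, le_rfl⟩ h

lemma Feas.capBound {m s c A B : ℝ} (h : Feas m s) (hA : A = c)
    (hB : gpdf c - c * gQ c ≤ B) : CapBound m s A B := by
  obtain ⟨u, hu, -, h2⟩ := h.ex
  have h3 := gpdf_le_tangent c u
  have h4 := Real.sqrt_le_sqrt h2
  rw [Real.sqrt_sq (gpdf_pos u).le] at h4
  unfold CapBound
  subst hA
  rw [hu] at h3
  linarith

/-- Squares of affine functions lie below chords. -/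
lemma CapBound.le_line {m s A B p q l r : ℝ} (h : CapBound m s A B) (hs : 0 ≤ s) (hlr : l < r)
    (hl : l ≤ m) (hr : m ≤ r) (h₁ : (A * l + B) ^ 2 ≤ p * l + q)
    (h₂ : (A * r + B) ^ 2 ≤ p * r + q) : s ≤ p * m + q := by
  have h3 : s ≤ (A * m + B) ^ 2 := by
    have := pow_le_pow_left₀ (Real.sqrt_nonneg s) h 2
    rwa [Real.sq_sqrt hs] at this
  refine h3.trans (le_of_mul_le_mul_left ?_ (sub_pos.2 hlr))
  nlinarith [mul_le_mul_of_nonneg_left h₁ (sub_nonneg.2 hr),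
    mul_le_mul_of_nonneg_left h₂ (sub_nonneg.2 hl),
    mul_nonneg (mul_nonneg (mul_nonneg (sub_nonneg.2 hr) (sub_nonneg.2 hl)) (sub_pos.2 hlr).le)
      (sq_nonneg A)]

/-- Squares of a linear bound on `s`. -/
lemma sq_le_line {m s P Q p q l r : ℝ} (hs : 0 ≤ s) (h : s ≤ P * m + Q) (hlr : l < r)
    (hl : l ≤ m) (hr : m ≤ r) (h₁ : (P * l + Q) ^ 2 ≤ p * l + q)
    (h₂ : (P * r + Q) ^ 2 ≤ p * r + q) : s ^ 2 ≤ p * m + q := by
  refine (pow_le_pow_left₀ hs h 2).trans (le_of_mul_le_mul_left ?_ (sub_pos.2 hlr))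
  nlinarith [mul_le_mul_of_nonneg_left h₁ (sub_nonneg.2 hr),
    mul_le_mul_of_nonneg_left h₂ (sub_nonneg.2 hl),
    mul_nonneg (mul_nonneg (mul_nonneg (sub_nonneg.2 hr) (sub_nonneg.2 hl)) (sub_pos.2 hlr).le)
      (sq_nonneg P)]

/-- Fourth powers of affine functions lie below chords. -/
lemma CapBound.sq_le_line {m s A B p q l r : ℝ} (h : CapBound m s A B) (hs : 0 ≤ s) (hlr : l < r)
    (hl : l ≤ m) (hr : m ≤ r) (h₁ : (A * l + B) ^ 4 ≤ p * l + q)
    (h₂ : (A * r + B) ^ 4 ≤ p * r + q) : s ^ 2 ≤ p * m + q := by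
  set P : ℝ := ((A * r + B) ^ 2 - (A * l + B) ^ 2) / (r - l)
  set Q : ℝ := (A * l + B) ^ 2 - P * l
  have hd : r - l ≠ 0 := (sub_pos.2 hlr).ne'
  have e₁ : P * l + Q = (A * l + B) ^ 2 := by simp [Q]
  have e₂ : P * r + Q = (A * r + B) ^ 2 := by
    simp only [Q, P]
    field_simp
    ring
  exact Vale.Agent.P226.sq_le_line hs (h.le_line hs hlr hl hr e₁.ge e₂.ge) hlr hl hr
    (by rw [e₁]; linarith) (by rw [e₂]; linarith)

/-- Gordon's lower bound for the tail. -/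
lemma gpdf_mul_le_gQ (u : ℝ) : gpdf u * u ≤ gQ u * (u ^ 2 + 1) := by
  set G : ℝ → ℝ := fun t => gQ t - gpdf t * t / (t ^ 2 + 1)
  have hG : ∀ t, HasDerivAt G (-2 * gpdf t / (t ^ 2 + 1) ^ 2) t := by
    intro t
    have hne : t ^ 2 + 1 ≠ 0 := by positivity
    refine ((hasDerivAt_gQ t).sub (((hasDerivAt_gpdf t).mul (hasDerivAt_id t)).div
      ((hasDerivAt_pow 2 t).add_const 1) hne)).congr_deriv ?_
    simp only [id, Pi.mul_apply]
    field_simp
    push_cast
    ring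
  have hanti : Antitone G := by
    refine antitone_of_deriv_nonpos (fun t => (hG t).differentiableAt) fun t => ?_
    rw [(hG t).deriv]
    exact div_nonpos_of_nonpos_of_nonneg (by linarith [gpdf_pos t]) (by positivity)
  have hlim : Tendsto G atTop (𝓝 0) := by
    have h1 : Tendsto gpdf atTop (𝓝 0) := by
      have h := gpdf_sq_tendsto.sqrt
      simp only [Real.sqrt_zero] at h
      exact h.congr fun x => Real.sqrt_sq (gpdf_pos x).le
    have h2 : Tendsto (fun t => gpdf t * t / (t ^ 2 + 1)) atTop (𝓝 0) := by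
      refine tendsto_of_tendsto_of_tendsto_of_le_of_le' tendsto_const_nhds h1 ?_ ?_
      · filter_upwards [eventually_ge_atTop 0] with t ht
        exact div_nonneg (mul_nonneg (gpdf_pos t).le ht) (by positivity)
      · filter_upwards with t
        rw [div_le_iff₀ (by positivity)]
        nlinarith [gpdf_pos t, sq_nonneg (t - 1)]
    simpa [G] using gQ_tendsto_atTop.sub h2
  have h := le_of_tendsto hlim (eventually_atTop.2 ⟨u, fun t (ht : u ≤ t) => hanti ht⟩)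
  simp only [G, sub_nonneg] at h
  rwa [div_le_iff₀ (by positivity)] at h

/-- `gh / gQ ^ (3/2)` decreases beyond `√3`. -/
lemma gh_sq_cube_le {a x : ℝ} (ha : 0 ≤ a) (ha3 : 3 ≤ a ^ 2) (hax : a ≤ x) :
    gh x ^ 2 / gQ x ^ 3 ≤ gh a ^ 2 / gQ a ^ 3 := by
  set R : ℝ → ℝ := fun u => gh u ^ 2 / gQ u ^ 3
  have hR : ∀ u, HasDerivAt R
      (gh u * gpdf u * (3 * gh u - 2 * gQ u * ghSlope u) / gQ u ^ 4) u := by
    intro u
    have hne := (gQ_pos u).ne'
    refine (((hasDerivAt_gh u).pow 2).div ((hasDerivAt_gQ u).pow 3) (pow_ne_zero 3 hne)).congr_deriv ?_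
    push_cast
    simp only [Pi.pow_apply]
    field_simp
    ring
  have hm : AntitoneOn R (Ici a) := by
    refine antitoneOn_of_deriv_nonpos (convex_Ici a)
      (fun u _ => (hR u).continuousAt.continuousWithinAt)
      (fun u _ => (hR u).differentiableAt.differentiableWithinAt) ?_
    intro u hu
    rw [interior_Ici] at hu
    have hu0 : 0 < u := ha.trans_lt hu
    have hu3 : 3 ≤ u ^ 2 := ha3.trans (pow_le_pow_left₀ ha hu.out.le 2)
    rw [(hR u).deriv]
    have hq := gQ_pos u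
    have hp := gpdf_pos u
    have hg := gpdf_mul_le_gQ u
    set Y := gpdf u - u * gQ u
    have hY : 0 ≤ Y := gpdf_sub_nonneg u
    have key : 3 * gh u - 2 * gQ u * ghSlope u ≤ 0 := by
      simp only [gh, ghSlope]
      nlinarith [mul_nonneg (sub_nonneg.2 hg) (sub_nonneg.2 hu3), mul_nonneg hY (sub_nonneg.2 hg),
        mul_nonneg hY hp.le, mul_nonneg hY hq.le]
    exact div_nonpos_of_nonpos_of_nonneg
      (mul_nonpos_of_nonneg_of_nonpos (mul_nonneg (mul_nonneg hp.le hY) hp.le) key) (by positivity)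
  exact hm self_mem_Ici hax hax

/-- The smallest cells: `s ≤ τ m √m`. -/
lemma Feas.le_tau {m s ρ a : ℝ} (h : Feas m s) (ha : 0 ≤ a) (ha3 : 3 ≤ a ^ 2) (hρ : 0 ≤ ρ)
    (hm : m ≤ gQ a) (hA : 2 * gh a ≤ ρ * gQ a) :
    s * Real.sqrt (gQ a) ≤ ρ * (m * Real.sqrt m) := by
  obtain ⟨u, hu, h1, -⟩ := h.ex
  have hau : a ≤ u := gQ_le_iff.1 (hu ▸ hm)
  have hs := le_two_gh h1
  have h2 := gh_sq_cube_le ha ha3 hau
  have hqa := gQ_pos a
  have hqu := gQ_pos u
  rw [div_le_div_iff₀ (pow_pos hqu 3) (pow_pos hqa 3)] at h2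
  have hga : 0 ≤ gh a := mul_nonneg (gpdf_pos a).le (gpdf_sub_nonneg a)
  subst hu
  have h7 : (2 * gh a) ^ 2 ≤ (ρ * gQ a) ^ 2 := pow_le_pow_left₀ (by linarith) hA 2
  have hgoal : (s * Real.sqrt (gQ a)) ^ 2 ≤ (ρ * (gQ u * Real.sqrt (gQ u))) ^ 2 := by
    rw [mul_pow, mul_pow, mul_pow, Real.sq_sqrt hqa.le, Real.sq_sqrt hqu.le]
    refine le_of_mul_le_mul_left ?_ (pow_pos hqa 2)
    have h8 := mul_le_mul_of_nonneg_right (pow_le_pow_left₀ h.nonneg hs 2) (pow_pos hqa 3).le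
    have h9 := mul_le_mul_of_nonneg_right h7 (pow_pos hqu 3).le
    linarith
  exact (abs_le_of_sq_le_sq' hgoal (mul_nonneg hρ (mul_nonneg hqu.le (Real.sqrt_nonneg _)))).2

end Vale.Agent.P226
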