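import Vale.Agent.P226.Basic

/-! Statements wanted from the Gaussian geometry module (to be proved in `Geom.lean`). -/

open MeasureTheory ProbabilityTheory
open scoped RealInnerProductSpace

namespace Vale.Agent.P226

/-- Halfspace bathtub bound for first moments. -/
def HalfspaceProp : Prop :=
  ∀ (d : ℕ) (A : Set (Eu d)) (u : ℝ), MeasurableSet A → (gam d).real A = gQ u →
    ‖∫ x in A, x ∂(gam d)‖ ≤ gpdf u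

/-- Small ball bound for the maximum of a centred planar triangle. -/
def TriangleProp : Prop :=
  ∀ (d : ℕ) (a b : Eu d) (r : ℝ), 0 ≤ r → 0 < ‖a‖ ^ 2 * ‖b‖ ^ 2 - ⟪a, b⟫ ^ 2 →
    (gam d).real {x | ⟪a, x⟫ ≤ r ∧ ⟪b, x⟫ ≤ r ∧ -r ≤ ⟪a, x⟫ + ⟪b, x⟫} ≤
      9 * r ^ 2 / (4 * Real.pi * Real.sqrt (‖a‖ ^ 2 * ‖b‖ ^ 2 - ⟪a, b⟫ ^ 2))

/-- Bathtub bound: a set of mass `m` cannot avoid the region where `R` is large. -/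
def BathtubProp : Prop :=
  ∀ (d : ℕ) (A : Set (Eu d)) (R : Eu d → ℝ) (K r : ℝ), MeasurableSet A → Integrable R (gam d) →
    (∀ x, 0 ≤ R x) → 0 ≤ r → (∀ t, 0 ≤ t → (gam d).real {x | R x ≤ t} ≤ K * t ^ 2) →
    r * (gam d).real A - K * r ^ 3 / 3 ≤ ∫ x in A, R x ∂(gam d)

/-- Mass of a cell in terms of three difference vectors. -/
def TriconeProp : Prop :=
  ∀ (d : ℕ) (a b c : Eu d) (D : ℝ), 0 < D →
    D ^ 2 = ‖a‖ ^ 2 * ‖b‖ ^ 2 * ‖c‖ ^ 2 + 2 * ⟪a, b⟫ * ⟪b, c⟫ * ⟪a, c⟫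
      - ‖a‖ ^ 2 * ⟪b, c⟫ ^ 2 - ‖b‖ ^ 2 * ⟪a, c⟫ ^ 2 - ‖c‖ ^ 2 * ⟪a, b⟫ ^ 2 →
    (gam d).real {x | 0 ≤ ⟪a, x⟫ ∧ 0 ≤ ⟪b, x⟫ ∧ 0 ≤ ⟪c, x⟫} ≤
      ‖a + b + c‖ ^ 3 / (8 * Real.pi * D)

/-- First moment of a cone in three dimensions. -/
def Cap3Prop : Prop :=
  ∀ (A : Set (Eu 3)), MeasurableSet A → (∀ (r : ℝ) (x : Eu 3), 0 < r → x ∈ A → r • x ∈ A) →
    ‖∫ x in A, x ∂(gam 3)‖ ≤
      4 / Real.sqrt (2 * Real.pi) * ((gam 3).real A * (1 - (gam 3).real A))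

/-- First moment of a cone in four dimensions, linear form. -/
def Cap4Prop : Prop :=
  ∀ (A : Set (Eu 4)) (t : ℝ), MeasurableSet A →
    (∀ (r : ℝ) (x : Eu 4), 0 < r → x ∈ A → r • x ∈ A) → 0 ≤ t → t < 1 →
    ‖∫ x in A, x ∂(gam 4)‖ ≤
      3 / 4 * Real.sqrt (2 * Real.pi) *
        (t * (gam 4).real A + 2 / Real.pi * ∫ s in t..1, (s - t) * Real.sqrt (1 - s ^ 2))

end Vale.Agent.P226
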