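import Vale.Agent.P226.Basic

/-!
Elementary facts about the normal density, its tail, and the profile `gh`.
-/

open MeasureTheory ProbabilityTheory Set Filter Topology

namespace Vale.Agent.P226

lemma gpdf_eq : gpdf = gaussianPDFReal 0 1 := by
  ext u
  simp [gpdf, gaussianPDFReal]

lemma gpdf_pos (u : ℝ) : 0 < gpdf u := by
  rw [gpdf_eq]
  exact gaussianPDFReal_pos 0 1 u one_ne_zero

lemma gpdf_neg (u : ℝ) : gpdf (-u) = gpdf u := by
  simp [gpdf]

lemma continuous_gpdf : Continuous gpdf := by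
  unfold gpdf
  fun_prop

lemma integrable_gpdf : Integrable gpdf := by
  rw [gpdf_eq]
  exact integrable_gaussianPDFReal 0 1

lemma hasDerivAt_gpdf (u : ℝ) : HasDerivAt gpdf (-u * gpdf u) u := by
  have h1 : HasDerivAt (fun x : ℝ => -x ^ 2 / 2) (-u) u := by
    refine ((hasDerivAt_pow 2 u).neg.div_const 2).congr_deriv ?_
    ring
  refine (h1.exp.const_mul ((Real.sqrt (2 * Real.pi))⁻¹)).congr_deriv ?_
  unfold gpdf
  ring

lemma gQ_eq_integral (u : ℝ) : gQ u = ∫ x in Ioi u, gpdf x := by
  rw [gQ, measureReal_def, gaussianReal_apply_eq_integral 0 one_ne_zero, integral_Ici_eq_integral_Ioi,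
    ENNReal.toReal_ofReal, gpdf_eq]
  exact setIntegral_nonneg measurableSet_Ioi fun x _ => gaussianPDFReal_nonneg 0 1 x

lemma gQ_nonneg (u : ℝ) : 0 ≤ gQ u := measureReal_nonneg

lemma gQ_le_one (u : ℝ) : gQ u ≤ 1 := measureReal_le_one

lemma gQ_sub (a b : ℝ) : gQ a - gQ b = ∫ x in a..b, gpdf x := by
  rw [gQ_eq_integral, gQ_eq_integral]
  rw [← intervalIntegral.integral_interval_add_Ioi (a := a) (b := b)
    integrable_gpdf.integrableOn integrable_gpdf.integrableOn]
  ring

lemma hasDerivAt_gQ (u : ℝ) : HasDerivAt gQ (-gpdf u) u := by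
  have h : HasDerivAt (fun b => ∫ x in (0:ℝ)..b, gpdf x) (gpdf u) u :=
    intervalIntegral.integral_hasDerivAt_right (continuous_gpdf.intervalIntegrable 0 u)
      (continuous_gpdf.stronglyMeasurableAtFilter _ _) continuous_gpdf.continuousAt
  have h2 : gQ = fun b => gQ 0 - ∫ x in (0:ℝ)..b, gpdf x := by
    funext b
    rw [← gQ_sub]
    ring
  rw [h2]
  exact h.const_sub (gQ 0)

lemma continuous_gQ : Continuous gQ :=
  continuous_iff_continuousAt.2 fun u => (hasDerivAt_gQ u).continuousAt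

lemma gQ_strictAnti : StrictAnti gQ :=
  strictAnti_of_hasDerivAt_neg hasDerivAt_gQ fun u => neg_neg_of_pos (gpdf_pos u)

lemma gQ_le_iff {a b : ℝ} : gQ a ≤ gQ b ↔ b ≤ a := gQ_strictAnti.le_iff_ge

lemma gQ_pos (u : ℝ) : 0 < gQ u :=
  (gQ_nonneg (u + 1)).trans_lt (gQ_strictAnti (by linarith))

lemma gQ_lt_one (u : ℝ) : gQ u < 1 :=
  (gQ_strictAnti (by linarith : u - 1 < u)).trans_le (gQ_le_one _)

lemma gQ_neg (u : ℝ) : gQ (-u) = 1 - gQ u := by
  have : NullSingletonClass (gaussianReal 0 1) := nullSingletonClass_gaussianReal one_ne_zero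
  have h : gQ (-u) = (gaussianReal 0 1).real (Iic u) := by
    have hm := gaussianReal_map_neg (μ := 0) (v := 1)
    rw [neg_zero] at hm
    conv_lhs => rw [gQ, measureReal_def, ← hm, Measure.map_apply measurable_neg measurableSet_Ici]
    rw [measureReal_def]
    congr 2
    ext x
    simp
  rw [h, gQ, measureReal_congr (Iio_ae_eq_Iic (a := u)).symm]
  have hc : (Ici u)ᶜ = Iio u := compl_Ici
  rw [← hc, measureReal_compl measurableSet_Ici]
  simp

lemma gQ_zero : gQ 0 = 1 / 2 := by
  have h := gQ_neg 0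
  rw [neg_zero] at h
  linarith

lemma gQ_tendsto_atTop : Tendsto gQ atTop (𝓝 0) := by
  have h := intervalIntegral_tendsto_integral_Ioi 0 integrable_gpdf.integrableOn tendsto_id
  have h2 : gQ = fun b => gQ 0 - ∫ x in (0:ℝ)..b, gpdf x := by
    funext b
    rw [← gQ_sub]
    ring
  rw [h2]
  have h3 := h.const_sub (gQ 0)
  rw [← gQ_eq_integral, sub_self] at h3
  exact h3

lemma exists_gQ_eq {m : ℝ} (h0 : 0 < m) (h1 : m < 1) : ∃ u, gQ u = m := by
  have hb : ∀ᶠ x in atTop, gQ x < m := gQ_tendsto_atTop.eventually (gt_mem_nhds h0)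
  have ha : ∀ᶠ x in atTop, gQ x < 1 - m := gQ_tendsto_atTop.eventually (gt_mem_nhds (by linarith))
  obtain ⟨b, hb⟩ := hb.exists
  obtain ⟨a, ha⟩ := ha.exists
  have ha2 : m < gQ (-a) := by rw [gQ_neg]; linarith
  have hle : -a ≤ b := by
    by_contra hc
    push Not at hc
    have := gQ_strictAnti hc
    linarith
  obtain ⟨u, -, hu⟩ := intermediate_value_Icc' hle continuous_gQ.continuousOn
    ⟨hb.le, ha2.le⟩
  exact ⟨u, hu⟩

/-- `∫_u^∞ Q = φ u - u Q u`, in derivative form. -/
lemma hasDerivAt_gpdf_sub (u : ℝ) :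
    HasDerivAt (fun x => gpdf x - x * gQ x) (-gQ u) u := by
  refine ((hasDerivAt_gpdf u).sub ((hasDerivAt_id u).mul (hasDerivAt_gQ u))).congr_deriv ?_
  simp only [id]
  ring

/-- `x Q x ≤ φ x` on the positive axis. -/
lemma gpdf_sub_nonneg (x : ℝ) : 0 ≤ gpdf x - x * gQ x := by
  rcases le_or_gt x 0 with hx | hx
  · nlinarith [gpdf_pos x, mul_nonpos_of_nonpos_of_nonneg hx (gQ_nonneg x)]
  set G : ℝ → ℝ := fun t => gQ t - gpdf t / t
  have hG : ∀ t, 0 < t → HasDerivAt G (gpdf t / t ^ 2) t := by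
    intro t ht
    refine ((hasDerivAt_gQ t).sub ((hasDerivAt_gpdf t).div (hasDerivAt_id t) ht.ne')).congr_deriv ?_
    simp only [id]
    field_simp
    ring
  have hm : MonotoneOn G (Ioi 0) := by
    refine monotoneOn_of_deriv_nonneg (convex_Ioi 0)
      (fun t ht => (hG t ht).continuousAt.continuousWithinAt)
      (fun t ht => ((hG t (interior_subset ht)).differentiableAt).differentiableWithinAt) ?_
    intro t ht
    rw [(hG t (interior_subset ht)).deriv]
    exact div_nonneg (gpdf_pos t).le (sq_nonneg t)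
  have hG0 : ∀ᶠ t in atTop, G x ≤ gQ t := by
    filter_upwards [eventually_ge_atTop x] with t ht
    refine (hm hx (hx.trans_le ht) ht).trans (sub_le_self _ ?_)
    exact div_nonneg (gpdf_pos t).le (hx.le.trans ht)
  have h := ge_of_tendsto gQ_tendsto_atTop hG0
  simp only [G] at h
  rw [sub_nonpos, le_div_iff₀ hx] at h
  linarith

lemma gh_le_sq {u : ℝ} (hu : 0 ≤ u) : gh u ≤ gpdf u ^ 2 := by
  have := mul_nonneg (mul_nonneg (gpdf_pos u).le hu) (gQ_nonneg u)
  unfold gh
  nlinarith

/-- Slope function of `gh` as a function of the tail mass. -/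
noncomputable def ghSlope (u : ℝ) : ℝ := u * (gpdf u - u * gQ u) + gQ u

lemma hasDerivAt_gh (u : ℝ) : HasDerivAt gh (-gpdf u * ghSlope u) u := by
  refine ((hasDerivAt_gpdf u).mul (hasDerivAt_gpdf_sub u)).congr_deriv ?_
  simp only [ghSlope]
  ring

lemma hasDerivAt_ghSlope (u : ℝ) : HasDerivAt ghSlope (-2 * u * gQ u) u := by
  refine (((hasDerivAt_id u).mul (hasDerivAt_gpdf_sub u)).add (hasDerivAt_gQ u)).congr_deriv ?_
  simp only [id]
  ring

lemma ghSlope_antitone : AntitoneOn ghSlope (Ici 0) := by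
  refine antitoneOn_of_deriv_nonpos (convex_Ici 0)
    (continuous_iff_continuousAt.2 fun u => (hasDerivAt_ghSlope u).continuousAt).continuousOn
    (fun u _ => (hasDerivAt_ghSlope u).differentiableAt.differentiableWithinAt) ?_
  intro u hu
  rw [interior_Ici] at hu
  rw [(hasDerivAt_ghSlope u).deriv]
  nlinarith [gQ_nonneg u, hu.out]

/-- `gh` lies below its chords as a function of the tail mass. -/
lemma gh_le_of_endpoints {p q a b x : ℝ} (ha : 0 ≤ a) (hax : a ≤ x) (hxb : x ≤ b)
    (hA : gh a ≤ p * gQ a + q) (hB : gh b ≤ p * gQ b + q) : gh x ≤ p * gQ x + q := by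
  set F : ℝ → ℝ := fun u => gh u - (p * gQ u + q) with hFdef
  have hF : ∀ u, HasDerivAt F (gpdf u * (p - ghSlope u)) u := by
    intro u
    refine ((hasDerivAt_gh u).sub (((hasDerivAt_gQ u).const_mul p).add_const q)).congr_deriv ?_
    ring
  have hc : Continuous F := continuous_iff_continuousAt.2 fun u => (hF u).continuousAt
  have hd : ∀ u ∈ (univ : Set ℝ), DifferentiableAt ℝ F u := fun u _ => (hF u).differentiableAt
  suffices F x ≤ 0 by simp only [hFdef] at this; linarith
  rcases le_total p (ghSlope x) with h | h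
  · have hm : AntitoneOn F (Icc a x) := by
      refine antitoneOn_of_deriv_nonpos (convex_Icc a x) hc.continuousOn
        (fun u hu => (hd u (mem_univ u)).differentiableWithinAt) ?_
      intro u hu
      rw [interior_Icc] at hu
      rw [(hF u).deriv]
      have h2 : ghSlope x ≤ ghSlope u :=
        ghSlope_antitone (mem_Ici.2 (by linarith [hu.1])) (mem_Ici.2 (by linarith)) hu.2.le
      nlinarith [gpdf_pos u]
    have h3 := hm ⟨le_rfl, hax⟩ ⟨hax, le_rfl⟩ hax
    simp only [hFdef] at h3 ⊢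
    linarith
  · have hm : MonotoneOn F (Icc x b) := by
      refine monotoneOn_of_deriv_nonneg (convex_Icc x b) hc.continuousOn
        (fun u hu => (hd u (mem_univ u)).differentiableWithinAt) ?_
      intro u hu
      rw [interior_Icc] at hu
      rw [(hF u).deriv]
      have h2 : ghSlope u ≤ ghSlope x :=
        ghSlope_antitone (mem_Ici.2 (by linarith)) (mem_Ici.2 (by linarith [hu.1])) hu.1.le
      exact mul_nonneg (gpdf_pos u).le (by linarith)
    have h3 := hm ⟨le_rfl, hxb⟩ ⟨hxb, le_rfl⟩ hxb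
    simp only [hFdef] at h3 ⊢
    linarith

lemma gpdf_sq_tendsto : Tendsto (fun u => gpdf u ^ 2) atTop (𝓝 0) := by
  have h1 : Tendsto (fun u : ℝ => -u ^ 2 / 2) atTop atBot := by
    have h0 : Tendsto (fun u : ℝ => u ^ 2) atTop atTop := tendsto_pow_atTop two_ne_zero
    exact (tendsto_neg_atTop_atBot.comp (h0.atTop_div_const two_pos)).congr fun u => by
      simp [neg_div]
  have h2 : Tendsto gpdf atTop (𝓝 0) := by
    have h3 := (Real.tendsto_exp_atBot.comp h1).const_mul ((Real.sqrt (2 * Real.pi))⁻¹)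
    rw [mul_zero] at h3
    exact h3
  simpa using h2.pow 2

/-- `gh / gQ` decreases: a slope bound at `a` holds beyond `a`. -/
lemma gh_le_of_left {p a x : ℝ} (hp : 0 ≤ p) (ha : 0 ≤ a) (hax : a ≤ x)
    (hA : gh a ≤ p * gQ a) : gh x ≤ p * gQ x := by
  refine le_of_forall_pos_le_add fun ε hε => ?_
  obtain ⟨B, hB1, hB2⟩ :=
    ((gpdf_sq_tendsto.eventually (gt_mem_nhds hε)).and (eventually_ge_atTop x)).exists
  refine gh_le_of_endpoints ha hax hB2 (by linarith) ?_
  have := gh_le_sq (u := B) (by linarith)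
  nlinarith [gQ_nonneg B]

/-- `u φ u` is increasing on `[0,1]` and decreasing afterwards. -/
lemma hasDerivAt_id_mul_gpdf (u : ℝ) :
    HasDerivAt (fun x => x * gpdf x) ((1 - u ^ 2) * gpdf u) u := by
  refine ((hasDerivAt_id u).mul (hasDerivAt_gpdf u)).congr_deriv ?_
  simp only [id]
  ring

lemma id_mul_gpdf_monotone : MonotoneOn (fun x => x * gpdf x) (Icc 0 1) := by
  refine monotoneOn_of_deriv_nonneg (convex_Icc 0 1)
    (continuous_id.mul continuous_gpdf).continuousOn
    (fun u _ => (hasDerivAt_id_mul_gpdf u).differentiableAt.differentiableWithinAt) ?_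
  intro u hu
  rw [interior_Icc] at hu
  rw [(hasDerivAt_id_mul_gpdf u).deriv]
  exact mul_nonneg (by nlinarith [hu.1, hu.2]) (gpdf_pos u).le

lemma id_mul_gpdf_antitone : AntitoneOn (fun x => x * gpdf x) (Ici 1) := by
  refine antitoneOn_of_deriv_nonpos (convex_Ici 1)
    (continuous_id.mul continuous_gpdf).continuousOn
    (fun u _ => (hasDerivAt_id_mul_gpdf u).differentiableAt.differentiableWithinAt) ?_
  intro u hu
  rw [interior_Ici] at hu
  rw [(hasDerivAt_id_mul_gpdf u).deriv]
  exact mul_nonpos_of_nonpos_of_nonneg (by nlinarith [hu.out]) (gpdf_pos u).le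

/-- The squared profile lies below its tangent as a function of the tail mass. -/
lemma gpdf_sq_le_tangent {c b x : ℝ} (hc : c ∈ Icc (0:ℝ) 1) (hb : 1 ≤ b) (hx : x ≤ b)
    (hcb : c * gpdf c ≤ b * gpdf b) :
    gpdf x ^ 2 ≤ gpdf c ^ 2 + 2 * (c * gpdf c) * (gQ x - gQ c) := by
  set F : ℝ → ℝ := fun u => gpdf u ^ 2 - 2 * (c * gpdf c) * gQ u with hFdef
  have hF : ∀ u, HasDerivAt F (2 * gpdf u * (c * gpdf c - u * gpdf u)) u := by
    intro u
    refine (((hasDerivAt_gpdf u).pow 2).sub
      ((hasDerivAt_gQ u).const_mul (2 * (c * gpdf c)))).congr_deriv ?_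
    push_cast
    ring
  have hcF : Continuous F := continuous_iff_continuousAt.2 fun u => (hF u).continuousAt
  suffices F x ≤ F c by simp only [hFdef] at this; linarith
  rcases le_total x c with h | h
  · have hm : MonotoneOn F (Icc x c) := by
      refine monotoneOn_of_deriv_nonneg (convex_Icc x c) hcF.continuousOn
        (fun u _ => (hF u).differentiableAt.differentiableWithinAt) ?_
      intro u hu
      rw [interior_Icc] at hu
      rw [(hF u).deriv]
      refine mul_nonneg (by linarith [gpdf_pos u]) ?_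
      rcases le_total u 0 with hu0 | hu0
      · nlinarith [gpdf_pos u, gpdf_pos c, hc.1]
      · have := id_mul_gpdf_monotone ⟨hu0, by linarith [hu.2, hc.2]⟩ hc hu.2.le
        linarith
    exact hm ⟨le_rfl, h⟩ ⟨h, le_rfl⟩ h
  · have hm : AntitoneOn F (Icc c x) := by
      refine antitoneOn_of_deriv_nonpos (convex_Icc c x) hcF.continuousOn
        (fun u _ => (hF u).differentiableAt.differentiableWithinAt) ?_
      intro u hu
      rw [interior_Icc] at hu
      rw [(hF u).deriv]
      refine mul_nonpos_of_nonneg_of_nonpos (by linarith [gpdf_pos u]) ?_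
      rcases le_total u 1 with hu1 | hu1
      · have := id_mul_gpdf_monotone hc ⟨by linarith [hc.1, hu.1], hu1⟩ hu.1.le
        linarith
      · have := id_mul_gpdf_antitone (mem_Ici.2 hu1) (mem_Ici.2 hb) (by linarith [hu.2])
        linarith
    exact hm ⟨le_rfl, h⟩ ⟨h, le_rfl⟩ h

end Vale.Agent.P226
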