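import Vale.Agent.P226.Crit
import Vale.Agent.P226.Probit
import Vale.Agent.P226.EhrhardStatement
import Vale.Agent.P226.GeomStatement

/-!
The deletion gain of a cell is at most `gh u` divided by its shift derivative.
-/

open MeasureTheory ProbabilityTheory Set Filter Topology
open scoped RealInnerProductSpace

namespace Vale.Agent.P226

lemma exp_neg_le_quadratic (y : ℝ) :
    Real.exp (-y) ≤ 1 - y + 2 * y ^ 2 * Real.exp |y| := by
  have h1 : (1:ℝ) ≤ Real.exp |y| := Real.one_le_exp (abs_nonneg y)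
  rcases le_or_gt |y| 1 with h | h
  · have h2 := Real.abs_exp_sub_one_sub_id_le (x := -y) (by rwa [abs_neg])
    have h3 := le_abs_self (Real.exp (-y) - 1 - -y)
    have h4 : y ^ 2 * 1 ≤ y ^ 2 * Real.exp |y| := mul_le_mul_of_nonneg_left h1 (sq_nonneg y)
    nlinarith [sq_nonneg y]
  · have h2 : Real.exp (-y) ≤ Real.exp |y| := Real.exp_le_exp.2 (neg_le_abs y)
    have h3 : |y| + 1 ≤ Real.exp |y| := Real.add_one_le_exp _
    have h4 : 1 * Real.exp |y| ≤ y ^ 2 * Real.exp |y| := by
      refine mul_le_mul_of_nonneg_right ?_ (Real.exp_pos _).le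
      nlinarith [sq_abs y]
    nlinarith [le_abs_self y]

lemma integrable_sq_mul_exp_abs_inner {d : ℕ} (u : Eu d) :
    Integrable (fun x => ⟪u, x⟫ ^ 2 * Real.exp |⟪u, x⟫|) (gam d) := by
  refine Integrable.mono' ((((integrable_exp_inner ((2:ℝ) • u)).add
    (integrable_exp_inner ((-2:ℝ) • u))).const_mul 2)) (by fun_prop) (ae_of_all _ fun x => ?_)
  simp only [Pi.add_apply, real_inner_smul_left, Real.norm_eq_abs]
  set y := ⟪u, x⟫
  rw [abs_of_nonneg (by positivity)]
  have h1 : y ^ 2 ≤ 2 * Real.exp |y| := by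
    have := Real.quadratic_le_exp_of_nonneg (abs_nonneg y)
    nlinarith [sq_abs y, abs_nonneg y]
  have h2 : Real.exp |y| * Real.exp |y| ≤ Real.exp (2 * y) + Real.exp (-2 * y) := by
    rw [← Real.exp_add]
    rcases abs_cases y with ⟨h, -⟩ | ⟨h, -⟩ <;> rw [h]
    · rw [← two_mul]
      exact le_add_of_nonneg_right (Real.exp_pos _).le
    · rw [show -y + -y = -2 * y by ring]
      exact le_add_of_nonneg_left (Real.exp_pos _).le
  nlinarith [Real.exp_pos |y|]

lemma gpdf_sub_tendsto : Tendsto (fun x => gpdf x - x * gQ x) atTop (𝓝 0) := by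
  have h2 : Tendsto gpdf atTop (𝓝 0) := by
    have h := gpdf_sq_tendsto.sqrt
    simp only [Real.sqrt_zero] at h
    exact h.congr fun x => Real.sqrt_sq (gpdf_pos x).le
  refine tendsto_of_tendsto_of_tendsto_of_le_of_le' tendsto_const_nhds h2
    (Eventually.of_forall gpdf_sub_nonneg) ?_
  filter_upwards [eventually_ge_atTop 0] with x hx
  have := mul_nonneg hx (gQ_nonneg x)
  linarith

lemma gh_nonneg (u : ℝ) : 0 ≤ gh u := mul_nonneg (gpdf_pos u).le (gpdf_sub_nonneg u)

lemma integral_gQ_line (u κ : ℝ) (hκ : 0 < κ) :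
    IntegrableOn (fun t => gQ (u + κ * t)) (Ioi 0) ∧
      ∫ t in Ioi (0:ℝ), gQ (u + κ * t) = (gpdf u - u * gQ u) / κ := by
  set g : ℝ → ℝ := fun t => -(gpdf (u + κ * t) - (u + κ * t) * gQ (u + κ * t)) / κ with hg
  have hd : ∀ t, HasDerivAt g (gQ (u + κ * t)) t := by
    intro t
    refine ((((hasDerivAt_gpdf_sub (u + κ * t)).comp t
      (((hasDerivAt_id t).const_mul κ).const_add u)).neg).div_const κ).congr_deriv ?_
    field_simp
  have ht : Tendsto g atTop (𝓝 0) := by
    have h := ((gpdf_sub_tendsto.comp (tendsto_atTop_add_const_left _ u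
      (tendsto_id.const_mul_atTop hκ))).neg).div_const κ
    simpa [g] using h
  refine ⟨integrableOn_Ioi_deriv_of_nonneg (hd 0).continuousAt.continuousWithinAt
    (fun t _ => hd t) (fun t _ => gQ_nonneg _) ht, ?_⟩
  rw [integral_Ioi_of_hasDerivAt_of_nonneg' (fun t _ => hd t) (fun t _ => gQ_nonneg _) ht]
  simp [g]
  ring

namespace Crit

variable {n : ℕ} (C : Crit n)

/-- Mass of a cell. -/
noncomputable def m (i : Fin (n + 1)) : ℝ := (gam n).real (C.cell i)

lemma sum_m : ∑ i, C.m i = 1 := by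
  simp only [m]
  rw [← measureReal_iUnion_fintype C.disjoint_cell C.measurable_cell, C.iUnion_cell,
    probReal_univ]

lemma m_pos (hn : 1 ≤ n) (i : Fin (n + 1)) : 0 < C.m i := by
  refine lt_of_le_of_ne measureReal_nonneg fun h => ?_
  have h0 : gam n (C.cell i) = 0 :=
    (measureReal_eq_zero_iff (measure_ne_top _ _)).1 h.symm
  have hz : C.mom i = 0 := setIntegral_measure_zero _ h0
  have := C.s_pos hn i
  rw [C.mom_eq] at hz
  simp [s, hz] at this

lemma m_lt_one (hn : 1 ≤ n) (i : Fin (n + 1)) : C.m i < 1 := by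
  have hne : (Finset.univ.erase i).Nonempty := by
    rw [← Finset.card_pos]
    simp
    omega
  have h := C.sum_m
  rw [← Finset.add_sum_erase _ _ (Finset.mem_univ i)] at h
  have := Finset.sum_pos (fun j _ => C.m_pos hn j) hne
  linarith

/-- The tail parameter of a cell. -/
noncomputable def u (hn : 1 ≤ n) (i : Fin (n + 1)) : ℝ :=
  Classical.choose (exists_gQ_eq (C.m_pos hn i) (C.m_lt_one hn i))

lemma gQ_u (hn : 1 ≤ n) (i : Fin (n + 1)) : gQ (C.u hn i) = C.m i :=
  Classical.choose_spec (exists_gQ_eq (C.m_pos hn i) (C.m_lt_one hn i))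

lemma real_ccell (i : Fin (n + 1)) : (gam n).real (C.ccell i) = C.m i :=
  (measureReal_congr (C.cell_ae_eq_ccell i)).symm

lemma erase_nonempty (hn : 1 ≤ n) (i : Fin (n + 1)) : (Finset.univ.erase i).Nonempty := by
  rw [← Finset.card_pos]
  simp
  omega

/-- Advantage of index `i` over all others. -/
noncomputable def margin (hn : 1 ≤ n) (i : Fin (n + 1)) (x : Eu n) : ℝ :=
  (Finset.univ.erase i).inf' (erase_nonempty hn i) fun j => ⟪C.z i - C.z j, x⟫

lemma le_margin_iff (hn : 1 ≤ n) (i : Fin (n + 1)) (x : Eu n) (t : ℝ) :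
    t ≤ C.margin hn i x ↔ ∀ j, j ≠ i → t ≤ ⟪C.z i - C.z j, x⟫ := by
  rw [margin, Finset.le_inf'_iff]
  simp

lemma margin_eq (hn : 1 ≤ n) (i : Fin (n + 1)) (x : Eu n) :
    C.margin hn i x = ⟪C.z i, x⟫ - gMax (Finset.univ.erase i) (erase_nonempty hn i) C.z x := by
  refine le_antisymm ?_ ?_
  · obtain ⟨j, hj, h⟩ := exists_gMax_eq (Finset.univ.erase i) (erase_nonempty hn i) C.z x
    rw [h, ← inner_sub_left]
    exact Finset.inf'_le _ hj
  · refine Finset.le_inf' _ _ fun j hj => ?_
    rw [inner_sub_left]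
    linarith [le_gMax (hR := erase_nonempty hn i) (z := C.z) hj x]

lemma setOf_zero_le_margin (hn : 1 ≤ n) (i : Fin (n + 1)) :
    {x | 0 ≤ C.margin hn i x} = C.ccell i := by
  ext x
  simp only [Set.mem_ofPred_eq, C.le_margin_iff, ccell, inner_sub_left, sub_nonneg]
  exact ⟨fun h j => by rcases eq_or_ne j i with rfl | hj; exacts [le_rfl, h j hj],
    fun h j _ => h j⟩

lemma concave_margin (hn : 1 ≤ n) (i : Fin (n + 1)) :
    ConcaveOn ℝ univ (C.margin hn i) := by
  refine ⟨convex_univ, fun x _ y _ a b ha hb _ => (C.le_margin_iff hn i _ _).2 fun j hj => ?_⟩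
  rw [inner_add_right, real_inner_smul_right, real_inner_smul_right, smul_eq_mul, smul_eq_mul]
  exact add_le_add
    (mul_le_mul_of_nonneg_left ((C.le_margin_iff hn i x _).1 le_rfl j hj) ha)
    (mul_le_mul_of_nonneg_left ((C.le_margin_iff hn i y _).1 le_rfl j hj) hb)

lemma lipschitz_margin (hn : 1 ≤ n) (i : Fin (n + 1)) :
    ∃ L : NNReal, LipschitzWith L (C.margin hn i) := by
  refine ⟨(∑ j, ‖C.z i - C.z j‖).toNNReal, LipschitzWith.of_le_add_mul _ fun x y => ?_⟩
  rw [Real.coe_toNNReal _ (Finset.sum_nonneg fun j _ => norm_nonneg _)]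
  suffices h : C.margin hn i x - (∑ j, ‖C.z i - C.z j‖) * dist x y ≤ C.margin hn i y by linarith
  refine (C.le_margin_iff hn i y _).2 fun j hj => ?_
  have h1 := (C.le_margin_iff hn i x _).1 le_rfl j hj
  have h2 : ⟪C.z i - C.z j, x - y⟫ ≤ ‖C.z i - C.z j‖ * ‖x - y‖ := real_inner_le_norm _ _
  have h3 : ‖C.z i - C.z j‖ * ‖x - y‖ ≤ (∑ j, ‖C.z i - C.z j‖) * dist x y := by
    rw [dist_eq_norm]
    exact mul_le_mul_of_nonneg_right (Finset.single_le_sum
      (f := fun j => ‖C.z i - C.z j‖) (fun j _ => norm_nonneg _) (Finset.mem_univ j)) (norm_nonneg _)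
  rw [inner_sub_right] at h2
  linarith

lemma measurable_margin (hn : 1 ≤ n) (i : Fin (n + 1)) : Measurable (C.margin hn i) := by
  obtain ⟨L, hL⟩ := C.lipschitz_margin hn i
  exact hL.continuous.measurable

lemma level_le_linear (hn : 1 ≤ n) (i : Fin (n + 1)) :
    ∃ K : ℝ, ∀ t, 0 ≤ t → t ≤ 1 →
      (gam n).real {x | t ≤ C.margin hn i x} ≤
        C.m i - t * ((n:ℝ) / (n + 1)) + K * t ^ 2 := by
  obtain ⟨w, hw⟩ := C.exists_dual i
  refine ⟨∫ x, 2 * (⟪w, x⟫ ^ 2 * Real.exp |⟪w, x⟫|) ∂(gam n), fun t ht0 ht1 => ?_⟩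
  set f : Eu n → ℝ := (C.ccell i).indicator fun _ => 1 with hf
  have hset : {x | t ≤ C.margin hn i x} = (fun x => x + (-t) • w) ⁻¹' C.ccell i := by
    ext x
    simp only [Set.mem_ofPred_eq, C.le_margin_iff, mem_preimage, ← C.setOf_zero_le_margin hn i,
      inner_add_right, real_inner_smul_right]
    constructor <;> intro h j hj <;> have h1 := h j hj <;>
      rw [real_inner_comm w, hw j hj] at * <;> linarith
  have hmeas : MeasurableSet {x | t ≤ C.margin hn i x} :=
    measurableSet_le measurable_const (C.measurable_margin hn i)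
  have h1 : (gam n).real {x | t ≤ C.margin hn i x} = ∫ x, f (x + (-t) • w) ∂(gam n) := by
    rw [← integral_indicator_one hmeas, hset]
    refine integral_congr_ae (ae_of_all _ fun x => ?_)
    by_cases hx : x + (-t) • w ∈ C.ccell i <;>
      simp only [f, indicator, mem_preimage, hx, if_true, if_false, Pi.one_apply]
  rw [h1, gam_integral_shift _ f (measurable_const.indicator (C.measurable_ccell i)) 1
    (fun x => by by_cases hx : x ∈ C.ccell i <;> simp [f, hx])]
  have hq := (integrable_sq_mul_exp_abs_inner w).const_mul 2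
  have hlin : ∫ x in C.ccell i, ⟪w, x⟫ ∂(gam n) = (n:ℝ) / (n + 1) := by
    rw [← setIntegral_congr_set (C.cell_ae_eq_ccell i), C.setIntegral_inner_cell,
      C.inner_dual_self hw]
  have i2 : IntegrableOn (fun x => 1 - t * ⟪w, x⟫) (C.ccell i) (gam n) :=
    ((integrable_const 1).sub ((integrable_inner_gam w).const_mul t)).integrableOn
  have i3 : Integrable (fun x => t ^ 2 * (2 * (⟪w, x⟫ ^ 2 * Real.exp |⟪w, x⟫|))) (gam n) :=
    hq.const_mul _
  calc ∫ x, f x * Real.exp (⟪(-t) • w, x⟫ - ‖(-t) • w‖ ^ 2 / 2) ∂(gam n)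
      ≤ ∫ x, ((C.ccell i).indicator (fun x => 1 - t * ⟪w, x⟫) x +
          t ^ 2 * (2 * (⟪w, x⟫ ^ 2 * Real.exp |⟪w, x⟫|))) ∂(gam n) := by
        refine integral_mono_of_nonneg (ae_of_all _ fun x => ?_)
          ((i2.integrable_indicator (C.measurable_ccell i)).add i3) (ae_of_all _ fun x => ?_)
        · exact mul_nonneg (indicator_nonneg (fun _ _ => zero_le_one) x) (Real.exp_pos _).le
        · by_cases hx : x ∈ C.ccell i
          · simp only [f, indicator_of_mem hx, one_mul, real_inner_smul_left]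
            refine le_trans (Real.exp_le_exp.2 (sub_le_self _ (by positivity)))
              (le_trans (le_of_eq (by ring_nf)) ((exp_neg_le_quadratic (t * ⟪w, x⟫)).trans ?_))
            have he : Real.exp |t * ⟪w, x⟫| ≤ Real.exp |⟪w, x⟫| := by
              refine Real.exp_le_exp.2 ?_
              rw [abs_mul, abs_of_nonneg ht0]
              exact mul_le_of_le_one_left (abs_nonneg _) ht1
            have hsq : (0:ℝ) ≤ 2 * (t * ⟪w, x⟫) ^ 2 := by positivity
            have := mul_le_mul_of_nonneg_left he hsq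
            linarith
          · simp only [f, indicator_of_notMem hx, zero_mul, zero_add]
            positivity
    _ = C.m i - t * ((n:ℝ) / (n + 1)) +
          (∫ x, 2 * (⟪w, x⟫ ^ 2 * Real.exp |⟪w, x⟫|) ∂(gam n)) * t ^ 2 := by
        rw [integral_add (i2.integrable_indicator (C.measurable_ccell i)) i3,
          integral_indicator (C.measurable_ccell i), integral_const_mul,
          integral_sub (integrable_const _).integrableOn
            ((integrable_inner_gam w).const_mul t).integrableOn,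
          integral_const_mul, hlin, setIntegral_const, C.real_ccell, smul_eq_mul]
        ring

lemma level_le_gQ (hE : EhrhardProp) (hn : 1 ≤ n) (i : Fin (n + 1)) {t : ℝ} (ht : 0 < t) :
    (gam n).real {x | t ≤ C.margin hn i x} ≤
      gQ (C.u hn i + (n:ℝ) / (n + 1) / gpdf (C.u hn i) * t) := by
  set H : ℝ := (gam n).real {x | t ≤ C.margin hn i x}
  set u₀ := C.u hn i
  set D : ℝ := (n:ℝ) / (n + 1)
  rcases eq_or_lt_of_le (measureReal_nonneg (μ := gam n) (s := {x | t ≤ C.margin hn i x})) with h | h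
  · rw [show H = 0 from h.symm]
    exact gQ_nonneg _
  have hH1 : H < 1 := by
    refine lt_of_le_of_lt ?_ (C.m_lt_one hn i)
    rw [← C.real_ccell i, ← C.setOf_zero_le_margin hn i]
    exact measureReal_mono (fun x (hx : t ≤ _) => ht.le.trans hx)
  obtain ⟨a, ha⟩ := exists_gQ_eq h hH1
  obtain ⟨L, hL⟩ := C.lipschitz_margin hn i
  obtain ⟨K, hK⟩ := C.level_le_linear hn i
  set F : ℝ → ℝ := fun θ => gQ (u₀ + θ * (a - u₀)) + θ * t * D - K * (θ * t) ^ 2 with hF
  have hd : HasDerivAt F (-gpdf u₀ * (a - u₀) + t * D) 0 := by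
    have h1 := (hasDerivAt_gQ (u₀ + 0 * (a - u₀))).comp (0:ℝ)
      (((hasDerivAt_id (0:ℝ)).mul_const (a - u₀)).const_add u₀)
    refine ((h1.add (((hasDerivAt_id (0:ℝ)).mul_const t).mul_const D)).sub
      ((((hasDerivAt_id (0:ℝ)).mul_const t).pow 2).const_mul K)).congr_deriv ?_
    simp
  have hle : -gpdf u₀ * (a - u₀) + t * D ≤ 0 := by
    refine le_of_tendsto hd.tendsto_slope_zero_right ?_
    filter_upwards [Ioo_mem_nhdsGT (lt_min one_pos (one_div_pos.2 ht))] with θ hθ
    have h0 : gQ u₀ ≤ (gam n).real {x | 0 ≤ C.margin hn i x} := by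
      rw [C.setOf_zero_le_margin, C.real_ccell, C.gQ_u]
    have hθt : θ * t ≤ 1 := by
      have := hθ.2.le.trans (min_le_right _ _)
      rwa [le_div_iff₀ ht] at this
    have hconc := hE n (C.margin hn i) L (C.concave_margin hn i) hL 0 t u₀ a θ hθ.1.le
      (hθ.2.le.trans (min_le_left _ _)) h0 ha.le
    rw [show (1 - θ) * 0 + θ * t = θ * t by ring,
      show (1 - θ) * u₀ + θ * a = u₀ + θ * (a - u₀) by ring] at hconc
    have hlin := hK (θ * t) (mul_nonneg hθ.1.le ht.le) hθt
    have hF0 : F 0 = C.m i := by simp [F, u₀, C.gQ_u]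
    simp only [zero_add, smul_eq_mul]
    refine mul_nonpos_of_nonneg_of_nonpos (inv_nonneg.2 hθ.1.le) ?_
    simp only [hF0]
    simp only [F]
    linarith
  rw [show H = gQ a from ha.symm]
  refine gQ_le_iff.2 ?_
  have hp := gpdf_pos u₀
  have : t * D / gpdf u₀ ≤ a - u₀ := by
    rw [div_le_iff₀ hp]
    linarith
  calc u₀ + D / gpdf u₀ * t = u₀ + t * D / gpdf u₀ := by ring
    _ ≤ a := by linarith

lemma gain_le (hE : EhrhardProp) (hn : 1 ≤ n) (i : Fin (n + 1)) :
    (∑ j, C.s j) - gPhi (Finset.univ.erase i) (erase_nonempty hn i) C.z ≤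
      ((n:ℝ) + 1) / n * gh (C.u hn i) := by
  set R := Finset.univ.erase i
  have hR := erase_nonempty hn i
  set f : Eu n → ℝ := fun x => max (C.margin hn i x) 0 with hf
  have hfeq : ∀ x, f x = gMax Finset.univ Finset.univ_nonempty C.z x - gMax R hR C.z x := by
    intro x
    simp only [f, C.margin_eq hn i x]
    have hmax : gMax Finset.univ Finset.univ_nonempty C.z x =
        max ⟪C.z i, x⟫ (gMax R hR C.z x) := by
      refine le_antisymm (gMax_le fun j _ => ?_)
        (max_le (le_gMax (Finset.mem_univ i) x) (gMax_le fun j _ => le_gMax (Finset.mem_univ j) x))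
      rcases eq_or_ne j i with rfl | hj
      · exact le_max_left _ _
      · exact (le_gMax (hR := hR) (by simp [R, hj]) x).trans (le_max_right _ _)
    rw [hmax, ← max_sub_sub_right, sub_self]
  have hint : Integrable f (gam n) :=
    ((integrable_gMax _ _ _).sub (integrable_gMax R hR C.z)).congr
      (ae_of_all _ fun x => (hfeq x).symm)
  have hg : (∑ j, C.s j) - gPhi R hR C.z = ∫ x, f x ∂(gam n) := by
    simp only [s, ← C.phi_eq, gPhi]
    rw [← integral_sub (integrable_gMax _ _ _) (integrable_gMax R hR C.z)]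
    exact integral_congr_ae (ae_of_all _ fun x => (hfeq x).symm)
  rw [hg, hint.integral_eq_integral_meas_le (ae_of_all _ fun x => le_max_right _ _)]
  set D : ℝ := (n:ℝ) / (n + 1)
  have hD : 0 < D := by
    have : (1:ℝ) ≤ n := Nat.one_le_cast.2 hn
    positivity
  obtain ⟨hi, hv⟩ := integral_gQ_line (C.u hn i) (D / gpdf (C.u hn i))
    (div_pos hD (gpdf_pos _))
  refine (integral_mono_of_nonneg (ae_of_all _ fun t => measureReal_nonneg) hi ?_).trans
    (le_of_eq ?_)
  · rw [EventuallyLE, ae_restrict_iff' measurableSet_Ioi]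
    refine ae_of_all _ fun t (ht : 0 < t) => ?_
    have hset : {a | t ≤ f a} = {a | t ≤ C.margin hn i a} := by
      ext a
      simp [f, le_max_iff, not_le.2 ht]
    rw [hset]
    exact C.level_le_gQ hE hn i ht
  · rw [hv]
    simp only [D, gh]
    field_simp

lemma phi_erase_le (hn : 1 ≤ n) (i : Fin (n + 1)) :
    gPhi (Finset.univ.erase i) (erase_nonempty hn i) C.z ≤
      Real.sqrt c2 * Real.sqrt ((∑ j, C.s j) - ((n:ℝ) + 1) / n * C.s i) := by
  set R := Finset.univ.erase i
  refine (gPhi_le_of_bound R (erase_nonempty hn i) (C.bound _ (le_of_eq (by simp [R]))) C.z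
    (-(n:ℝ)⁻¹ • C.z i)).trans (le_of_eq ?_)
  congr 2
  have hn0 : (n:ℝ) ≠ 0 := by positivity
  have hsum : ∑ j ∈ R, C.z j = -C.z i := by
    have h := C.sum_z
    rw [← Finset.add_sum_erase _ _ (Finset.mem_univ i)] at h
    exact eq_neg_of_add_eq_zero_right h
  have hcard : (R.card : ℝ) = n := by simp [R]
  have hsq : ∑ j ∈ R, ‖C.z j‖ ^ 2 = (∑ j, C.s j) - C.s i := by
    simp only [s]
    rw [← Finset.add_sum_erase _ _ (Finset.mem_univ i)]
    ring
  simp only [norm_sub_sq_real, Finset.sum_add_distrib, Finset.sum_sub_distrib, ← Finset.mul_sum,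
    ← sum_inner, hsum, hsq, Finset.sum_const, nsmul_eq_mul, hcard, real_inner_smul_right,
    inner_neg_left, real_inner_self_eq_norm_sq, norm_smul, mul_pow, Real.norm_eq_abs, sq_abs, s,
    neg_sq]
  field_simp
  ring

lemma s_le_sq (hH : HalfspaceProp) (hn : 1 ≤ n) (i : Fin (n + 1)) :
    C.s i ≤ gpdf (C.u hn i) ^ 2 := by
  have h := hH n (C.cell i) (C.u hn i) (C.measurable_cell i) (C.gQ_u hn i).symm
  rw [← mom, C.mom_eq] at h
  exact pow_le_pow_left₀ (norm_nonneg _) h 2

/-- The deletion inequality. -/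
lemma s_gh (hE : EhrhardProp) (hH : HalfspaceProp) (hn : 3 ≤ n) (i : Fin (n + 1)) :
    C.s i / 2 + ((n:ℝ) + 1) / n * C.s i ^ 2 / (8 * c2) ≤ gh (C.u (by omega) i) := by
  have hn1 : 1 ≤ n := by omega
  set F := ∑ j, C.s j
  set k : ℝ := ((n:ℝ) + 1) / n
  have hn0 : (0:ℝ) < n := by positivity
  have hk : k ≤ 4 / 3 := by
    rw [div_le_iff₀ hn0]
    have : (3:ℝ) ≤ n := by exact_mod_cast hn
    linarith
  have hk0 : 0 < k := by positivity
  set x := k * C.s i
  have hs0 : 0 ≤ C.s i := sq_nonneg _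
  have hF : c2 < F := C.gt
  have hg := C.gain_le hE hn1 i
  have hp := C.phi_erase_le hn1 i
  have hsb : C.s i ≤ 0.16 := by
    refine (C.s_le_sq hH hn1 i).trans ?_
    have h2 : gpdf (C.u hn1 i) ≤ 0.3989422805 := by
      unfold gpdf
      refine le_trans (mul_le_of_le_one_right (by positivity) (Real.exp_le_one_iff.2 ?_)) ?_
      · nlinarith [sq_nonneg (C.u hn1 i)]
      · have hs : 1 / 0.3989422805 ≤ Real.sqrt (2 * Real.pi) := by
          refine Real.le_sqrt_of_sq_le ?_
          nlinarith [Real.pi_gt_d20]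
        have hpos : 0 < Real.sqrt (2 * Real.pi) := by positivity
        rw [inv_le_comm₀ hpos (by norm_num)]
        simpa using hs
    nlinarith [gpdf_pos (C.u hn1 i)]
  have hc : 0.358 ≤ c2 := by
    unfold c2
    rw [le_div_iff₀ (by positivity)]
    nlinarith [Real.pi_lt_d6]
  have hc0 := c2_pos
  have hx0 : 0 ≤ x := by positivity
  have hx : x ≤ 0.214 := by nlinarith
  set a := x / 2 + x ^ 2 / (8 * c2)
  have ha : 2 * a ≤ c2 := by
    have : x ^ 2 / (8 * c2) ≤ 0.214 ^ 2 / (8 * 0.358) := by gcongr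
    norm_num at this
    simp only [a]
    linarith
  have hsq : Real.sqrt c2 * Real.sqrt (F - x) ≤ F - a := by
    rw [← Real.sqrt_mul hc0.le, Real.sqrt_le_left (by linarith)]
    have e : a ^ 2 - x ^ 2 / 4 = a ^ 2 - (x / 2) ^ 2 := by ring
    have h1 : 0 ≤ a ^ 2 - x ^ 2 / 4 := by
      rw [e]
      have : x / 2 ≤ a := le_add_of_nonneg_right (by positivity)
      nlinarith
    have h2 : 8 * c2 * (x ^ 2 / (8 * c2)) = x ^ 2 := by field_simp
    have h3 : (F - a) ^ 2 - c2 * (F - x) =
        (F - c2) ^ 2 + (F - c2) * (c2 - 2 * a) + (a ^ 2 - x ^ 2 / 4) := by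
      have : c2 * a = c2 * x / 2 + x ^ 2 / 8 := by
        simp only [a]
        rw [mul_add, ← mul_div_assoc]
        field_simp
      linear_combination -2 * this
    nlinarith [mul_nonneg (sub_nonneg.2 hF.le) (sub_nonneg.2 ha), sq_nonneg (F - c2)]
  have h4 : a ≤ k * gh (C.u hn1 i) := by linarith
  have h5 : k * (C.s i / 2 + k * C.s i ^ 2 / (8 * c2)) ≤ k * gh (C.u hn1 i) := by
    refine le_trans (le_of_eq ?_) h4
    simp only [a, x]
    ring
  exact le_of_mul_le_mul_left h5 hk0

end Crit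

end Vale.Agent.P226
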