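import Vale.Agent.P226.Basic

/-!
Transport, splitting off one coordinate and translation for the standard Gaussian measure.
-/

open MeasureTheory ProbabilityTheory Set Filter
open scoped RealInnerProductSpace

namespace Vale.Agent.P226

/-- An isometric embedding pulls the Gaussian measure back through its adjoint. -/
lemma gam_map_adjoint {n d : ℕ} (T : Eu n →ₗᵢ[ℝ] Eu d) :
    (gam d).map (ContinuousLinearMap.adjoint T.toContinuousLinearMap) = gam n := by
  set S := ContinuousLinearMap.adjoint T.toContinuousLinearMap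
  have : IsProbabilityMeasure ((gam d).map S) :=
    Measure.isProbabilityMeasure_map S.continuous.measurable.aemeasurable
  apply Measure.ext_of_charFun
  ext t
  have hS : ∀ x, ⟪S x, t⟫ = ⟪x, T t⟫ := fun x =>
    ContinuousLinearMap.adjoint_inner_left T.toContinuousLinearMap t x
  have h : charFun ((gam d).map S) t = charFun (gam d) (T t) := by
    rw [charFun_apply, charFun_apply,
      integral_map S.continuous.measurable.aemeasurable
        (Measurable.aestronglyMeasurable (by fun_prop))]
    simp only [hS]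
  rw [h, charFun_stdGaussian, charFun_stdGaussian, T.norm_map]

lemma exists_basis_head {n : ℕ} (e : Eu (n + 1)) (he : ‖e‖ = 1) :
    ∃ b : OrthonormalBasis (Fin (n + 1)) ℝ (Eu (n + 1)), b 0 = e := by
  have hv : Orthonormal ℝ (({0} : Set (Fin (n + 1))).domRestrict fun _ => e) :=
    orthonormal_iff_ite.2 fun i j => by
      obtain ⟨i, rfl⟩ := i
      obtain ⟨j, rfl⟩ := j
      simp [Set.domRestrict, he]
  obtain ⟨b, hb⟩ := hv.exists_orthonormalBasis_extension_of_card_eq
    (by simp [finrank_euclideanSpace])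
  exact ⟨b, hb 0 rfl⟩

/-- Splitting off the coordinate along a unit vector. -/
noncomputable def splitMap {n : ℕ} (b : OrthonormalBasis (Fin (n + 1)) ℝ (Eu (n + 1)))
    (p : ℝ × (Fin n → ℝ)) : Eu (n + 1) :=
  p.1 • b 0 + ∑ i, p.2 i • b i.succ

@[fun_prop]
lemma continuous_splitMap {n : ℕ} (b : OrthonormalBasis (Fin (n + 1)) ℝ (Eu (n + 1))) :
    Continuous (splitMap b) := by
  unfold splitMap
  fun_prop

lemma measurePreserving_splitMap {n : ℕ} (b : OrthonormalBasis (Fin (n + 1)) ℝ (Eu (n + 1))) :
    MeasurePreserving (splitMap b)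
      ((gaussianReal 0 1).prod (Measure.pi fun _ : Fin n => gaussianReal 0 1)) (gam (n + 1)) := by
  refine ⟨(continuous_splitMap b).measurable, ?_⟩
  have h := measurePreserving_piFinSuccAbove (fun _ : Fin (n + 1) => gaussianReal 0 1) 0
  rw [← h.map_eq, Measure.map_map (continuous_splitMap b).measurable h.measurable,
    gam, stdGaussian_eq_map_pi_orthonormalBasis b]
  congr 1
  funext x
  simp [splitMap, Fin.sum_univ_succ, Fin.tail]

lemma inner_head_splitMap {n : ℕ} (b : OrthonormalBasis (Fin (n + 1)) ℝ (Eu (n + 1)))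
    (p : ℝ × (Fin n → ℝ)) : ⟪b 0, splitMap b p⟫ = p.1 := by
  simp only [splitMap, inner_add_right, real_inner_smul_right, inner_sum,
    b.inner_eq_ite]
  simp [(Fin.succ_ne_zero _).symm]

lemma gaussianReal_integral_shift (g : ℝ → ℝ) (a : ℝ) :
    ∫ s, g (s + a) ∂(gaussianReal 0 1) =
      ∫ s, g s * Real.exp (a * s - a ^ 2 / 2) ∂(gaussianReal 0 1) := by
  have hm : (gaussianReal 0 1).map (fun x => x + a) = gaussianReal a 1 := by
    simpa using gaussianReal_map_add_const (μ := 0) (v := 1) a
  have he : MeasurableEmbedding (fun x : ℝ => x + a) :=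
    (MeasurableEquiv.addRight a).measurableEmbedding
  rw [← he.integral_map, hm, integral_gaussianReal_eq_integral_smul one_ne_zero,
    integral_gaussianReal_eq_integral_smul one_ne_zero]
  refine integral_congr_ae (ae_of_all _ fun x => ?_)
  simp only [gaussianPDFReal, smul_eq_mul, NNReal.coe_one, mul_one]
  have hexp : Real.exp (-(x - a) ^ 2 / 2) =
      Real.exp (-(x - 0) ^ 2 / 2) * Real.exp (a * x - a ^ 2 / 2) := by
    rw [← Real.exp_add]
    ring_nf
  rw [hexp]
  ring

lemma integrable_exp_inner {d : ℕ} (w : Eu d) :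
    Integrable (fun x => Real.exp ⟪w, x⟫) (gam d) := by
  rw [gam, stdGaussian, integrable_map_measure (by fun_prop)
    (Measurable.aemeasurable (by fun_prop))]
  have h : ∀ x : Fin (Module.finrank ℝ (Eu d)) → ℝ,
      Real.exp ⟪w, ∑ i, x i • stdOrthonormalBasis ℝ (Eu d) i⟫ =
        ∏ i, Real.exp (⟪w, stdOrthonormalBasis ℝ (Eu d) i⟫ * x i) := by
    intro x
    rw [inner_sum, Real.exp_sum]
    refine Finset.prod_congr rfl fun i _ => ?_
    rw [real_inner_smul_right, mul_comm]
  simp only [Function.comp_def, h]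
  exact Integrable.fintype_prod fun i => integrable_exp_mul_gaussianReal _

/-- Translation formula. -/
lemma gam_integral_shift {d : ℕ} (w : Eu d) (f : Eu d → ℝ) (hf : Measurable f) (B : ℝ)
    (hB : ∀ x, |f x| ≤ B) :
    ∫ x, f (x + w) ∂(gam d) = ∫ x, f x * Real.exp (⟪w, x⟫ - ‖w‖ ^ 2 / 2) ∂(gam d) := by
  by_cases hw : w = 0
  · subst hw
    simp
  cases d with
  | zero => exact absurd (Subsingleton.elim w 0) hw
  | succ n =>
    set a : ℝ := ‖w‖
    have ha : 0 < a := norm_pos_iff.2 hw
    obtain ⟨b, hb⟩ := exists_basis_head (a⁻¹ • w) (by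
      rw [norm_smul, norm_inv, Real.norm_of_nonneg ha.le]
      exact inv_mul_cancel₀ ha.ne')
    have hwb : w = a • b 0 := by rw [hb, smul_inv_smul₀ ha.ne']
    have hp := measurePreserving_splitMap b
    have hi1 : Integrable (fun x => f (x + w)) (gam (n + 1)) :=
      Integrable.of_bound (hf.comp (measurable_add_const w)).aestronglyMeasurable B
        (ae_of_all _ fun x => hB _)
    have hi2 : Integrable (fun x => f x * Real.exp (⟪w, x⟫ - ‖w‖ ^ 2 / 2)) (gam (n + 1)) := by
      have h := ((integrable_exp_inner w).div_const (Real.exp (‖w‖ ^ 2 / 2))).bdd_mul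
        hf.aestronglyMeasurable (c := B) (ae_of_all _ fun x => hB x)
      refine h.congr (ae_of_all _ fun x => ?_)
      simp [Real.exp_sub]
    have hj1 : Integrable (fun z => f (splitMap b z + w))
        ((gaussianReal 0 1).prod (Measure.pi fun _ : Fin n => gaussianReal 0 1)) :=
      hp.integrable_comp_of_integrable hi1
    have hj2 : Integrable (fun z => f (splitMap b z) *
        Real.exp (⟪w, splitMap b z⟫ - ‖w‖ ^ 2 / 2))
        ((gaussianReal 0 1).prod (Measure.pi fun _ : Fin n => gaussianReal 0 1)) :=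
      hp.integrable_comp_of_integrable hi2
    rw [← hp.map_eq, integral_map hp.measurable.aemeasurable (by rw [hp.map_eq]; exact hi1.1),
      integral_map hp.measurable.aemeasurable (by rw [hp.map_eq]; exact hi2.1),
      integral_prod_symm _ hj1, integral_prod_symm _ hj2]
    refine integral_congr_ae (ae_of_all _ fun y => ?_)
    have e1 : ∀ s, splitMap b (s, y) + w = splitMap b (s + a, y) := by
      intro s
      rw [hwb]
      simp only [splitMap]
      module
    have e2 : ∀ s, ⟪w, splitMap b (s, y)⟫ = a * s := by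
      intro s
      rw [hwb, real_inner_smul_left, inner_head_splitMap]
    simp only [e1, e2]
    exact gaussianReal_integral_shift (fun s => f (splitMap b (s, y))) a

lemma gam_map_inner {d : ℕ} (w : Eu d) :
    (gam d).map (fun x => ⟪w, x⟫) = gaussianReal 0 (‖w‖ ^ 2).toNNReal := by
  have h := IsGaussian.map_eq_gaussianReal (μ := gam d) (innerSL ℝ w)
  rw [variance_dual_stdGaussian, integral_strongDual_stdGaussian, innerSL_apply_norm] at h
  exact h

lemma integrable_inner_gam {d : ℕ} (w : Eu d) : Integrable (fun x => ⟪w, x⟫) (gam d) :=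
  (IsGaussian.integrable_dual (gam d) (innerSL ℝ w))

lemma integral_inner_gam {d : ℕ} (w : Eu d) : ∫ x, ⟪w, x⟫ ∂(gam d) = 0 :=
  integral_strongDual_stdGaussian (innerSL ℝ w)

lemma hyperplane_null {d : ℕ} (w : Eu d) (hw : w ≠ 0) (c : ℝ) :
    gam d {x | ⟪w, x⟫ = c} = 0 := by
  have h : gam d {x | ⟪w, x⟫ = c} = (gam d).map (fun x => ⟪w, x⟫) {c} := by
    rw [Measure.map_apply (by fun_prop) (measurableSet_singleton c)]
    rfl
  rw [h, gam_map_inner]
  have : NullSingletonClass (gaussianReal 0 (‖w‖ ^ 2).toNNReal) :=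
    nullSingletonClass_gaussianReal (by simp [Real.toNNReal_eq_zero, hw])
  exact measure_singleton c

end Vale.Agent.P226
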