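import Vale.Agent.P226.GeomCap

/-!
Gaussian geometry facts for the propeller problem: the six statements of `GeomStatement`.
-/

namespace Vale.Agent.P226

theorem halfspace : HalfspaceProp := Geo.halfspace

theorem triangle : TriangleProp := Geo.triangle

theorem bathtub : BathtubProp := Geo.bathtub

theorem tricone : TriconeProp := Geo.tricone

theorem cap3 : Cap3Prop := Geo.cap3

theorem cap4 : Cap4Prop := Geo.cap4

end Vale.Agent.P226
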