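import Vale.Agent.P226.GeomTri

/-!
First moments of cones in dimensions three and four.
-/

open MeasureTheory ProbabilityTheory Set
open scoped RealInnerProductSpace

namespace Vale.Agent.P226.Geo

lemma exists_coord {n : ℕ} (e : Eu (n + 1)) (he : ‖e‖ = 1) :
    ∃ φ : Eu (n + 1) ≃ₗᵢ[ℝ] Eu (n + 1), ∀ x, φ x 0 = ⟪e, x⟫ := by
  have ho : Orthonormal ℝ (fun _ : ({0} : Set (Fin (n + 1))) => e) := by
    rw [orthonormal_iff_ite]
    rintro ⟨i, hi⟩ ⟨j, hj⟩
    simp only [mem_singleton_iff] at hi hj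
    subst hi hj
    simp [he]
  obtain ⟨b, hb⟩ := Orthonormal.exists_orthonormalBasis_extension_of_card_eq
    (𝕜 := ℝ) (ι := Fin (n + 1)) (v := fun _ => e) (s := {0}) finrank_euclideanSpace ho
  refine ⟨b.repr, fun x => ?_⟩
  rw [b.repr_apply_apply, hb 0 rfl]

lemma split_head {n : ℕ} :
    (gam (n + 1)).map (fun y => (y 0, WithLp.toLp 2 (fun i : Fin n => y i.succ))) =
      N1.prod (gam n) := by
  have h := measurePreserving_piFinSuccAbove (fun _ : Fin (n + 1) => N1) 0
  have h2 : MeasurePreserving (WithLp.toLp 2 : (Fin n → ℝ) → Eu n) (piN n) (gam n) :=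
    ⟨by fun_prop, (gam_eq_map n).symm⟩
  have h3 := (MeasurePreserving.id N1).prod h2
  rw [gam_eq_map (n + 1), Measure.map_map (by fun_prop) (by fun_prop), ← (h3.comp h).map_eq]
  rfl

/-- `∫_0^1` in the variable `u = 1/√(1+s²)`. -/
lemma integral_subst (G : ℝ → ℝ) :
    ∫ u in Ioo (0 : ℝ) 1, G u =
      ∫ s in Ioi (0 : ℝ), s / Real.sqrt (1 + s ^ 2) ^ 3 * G (Real.sqrt (1 + s ^ 2))⁻¹ := by
  set f : ℝ → ℝ := fun s => (Real.sqrt (1 + s ^ 2))⁻¹ with hf
  have hd : ∀ s ∈ Ioi (0 : ℝ),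
      HasDerivWithinAt f (-(s / Real.sqrt (1 + s ^ 2) ^ 3)) (Ioi 0) s := by
    intro s _
    have h0 : (0 : ℝ) < 1 + s ^ 2 := by positivity
    have hR : Real.sqrt (1 + s ^ 2) ≠ 0 := (Real.sqrt_pos.2 h0).ne'
    refine ((((hasDerivAt_pow 2 s).const_add 1).sqrt h0.ne').inv hR).congr_deriv ?_
      |>.hasDerivWithinAt
    field_simp
    push_cast
    ring
  have hinj : InjOn f (Ioi 0) := by
    intro a ha b hb hab
    have h := Real.sqrt_inj (by positivity) (by positivity) |>.1 (inv_injective hab)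
    exact (sq_eq_sq₀ (le_of_lt ha) (le_of_lt hb)).1 (by linarith)
  have himg : f '' Ioi 0 = Ioo 0 1 := by
    ext u
    constructor
    · rintro ⟨s, hs, rfl⟩
      have hs0 : (0 : ℝ) < s := hs
      have h1 : 1 < Real.sqrt (1 + s ^ 2) := by
        rw [← Real.sqrt_one]
        exact Real.sqrt_lt_sqrt zero_le_one (by rw [Real.sqrt_one]; nlinarith)
      exact ⟨by rw [hf]; positivity, inv_lt_one_of_one_lt₀ h1⟩
    · rintro ⟨h0, h1⟩
      have h2 : 0 < (u⁻¹) ^ 2 - 1 := by
        have : 1 < u⁻¹ := one_lt_inv_iff₀.2 ⟨h0, h1⟩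
        nlinarith
      refine ⟨Real.sqrt ((u⁻¹) ^ 2 - 1), Real.sqrt_pos.2 h2, ?_⟩
      simp only [hf, Real.sq_sqrt h2.le, add_sub_cancel, Real.sqrt_sq (inv_pos.2 h0).le, inv_inv]
  rw [← himg, integral_image_eq_integral_abs_deriv_smul measurableSet_Ioi hd hinj]
  refine setIntegral_congr_fun measurableSet_Ioi fun s hs => ?_
  simp only [smul_eq_mul, abs_neg, hf]
  rw [abs_of_nonneg (div_nonneg (le_of_lt hs) (by positivity))]

/-- The positive part `(⟪e,x⟫ - t‖x‖)⁺` integrates to a one-dimensional integral. -/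
lemma excess_integral (k : ℕ) (e : Eu (k + 3)) (he : ‖e‖ = 1) (t : ℝ) (ht : 0 ≤ t) :
    ∫ x, max (⟪e, x⟫ - t * ‖x‖) 0 ∂(gam (k + 3)) =
      ((k : ℝ) + 2) / Real.sqrt (2 * Real.pi) *
        ∫ u in Ioo (0 : ℝ) 1, max (u - t) 0 * Real.sqrt (1 - u ^ 2) ^ k := by
  set H : ℝ → ℝ → ℝ := fun z r => max (z - t * Real.sqrt (z ^ 2 + r ^ 2)) 0 with hH
  have hHle : ∀ z r, H z r ≤ |z| := fun z r => by
    simp only [hH]
    exact max_le (by nlinarith [le_abs_self z, Real.sqrt_nonneg (z ^ 2 + r ^ 2)]) (abs_nonneg z)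
  have hH0 : ∀ z r, 0 ≤ H z r := fun z r => le_max_right _ _
  have hHm : Continuous fun p : ℝ × ℝ => H p.1 p.2 := by simp only [hH]; fun_prop
  -- step one: coordinates
  obtain ⟨φ, hφ⟩ := exists_coord e he
  have h1 : ∫ x, max (⟪e, x⟫ - t * ‖x‖) 0 ∂(gam (k + 3)) =
      ∫ z, ∫ w, H z ‖w‖ ∂(gam (k + 2)) ∂N1 := by
    have hint : Integrable (fun p : ℝ × Eu (k + 2) => H p.1 ‖p.2‖) (N1.prod (gam (k + 2))) := by
      refine Integrable.mono' ((IsGaussian.integrable_fun_id (μ := N1)).abs.comp_fst _)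
        (hHm.comp (continuous_fst.prodMk continuous_snd.norm)).aestronglyMeasurable
        (Filter.Eventually.of_forall fun p => ?_)
      rw [Real.norm_eq_abs, abs_of_nonneg (hH0 _ _)]
      exact hHle _ _
    have hmeas : AEStronglyMeasurable (fun p : ℝ × Eu (k + 2) => H p.1 ‖p.2‖)
        ((gam (k + 2 + 1)).map
          (fun y => (y 0, WithLp.toLp 2 (fun i : Fin (k + 2) => y i.succ)))) :=
      (hHm.comp (continuous_fst.prodMk continuous_snd.norm)).aestronglyMeasurable
    rw [← integral_prod _ hint, ← split_head, integral_map (by fun_prop) hmeas]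
    conv_rhs => rw [← (⟨φ.continuous.measurable, stdGaussian_map φ⟩ :
      MeasurePreserving φ (gam (k + 2 + 1)) (gam (k + 2 + 1))).integral_comp
        φ.toHomeomorph.measurableEmbedding]
    refine integral_congr_ae (Filter.Eventually.of_forall fun x => ?_)
    simp only [hH, hφ]
    congr 3
    rw [← φ.norm_map x, ← Real.sqrt_sq (norm_nonneg (φ x)), EuclideanSpace.norm_sq_eq,
      EuclideanSpace.norm_sq_eq, Fin.sum_univ_succ]
    simp [hφ]
  -- step two: radial law
  have h2 : ∀ z, ∫ w, H z ‖w‖ ∂(gam (k + 2)) =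
      (∫ r in Ioi (0 : ℝ), r ^ (k + 1) * Real.exp (-r ^ 2 / 2) * H z r) / mom (k + 1) :=
    fun z => integral_norm_gam (by omega) (H z)
  set K : ℝ → ℝ → ℝ := fun z s => s ^ (k + 1) * z ^ (k + 3) *
    Real.exp (-(1 + s ^ 2) * z ^ 2 / 2) * max (1 - t * Real.sqrt (1 + s ^ 2)) 0 with hK
  set κ := (Real.sqrt (2 * Real.pi))⁻¹ with hκ
  have h3 : ∀ z, gpdf z * ∫ w, H z ‖w‖ ∂(gam (k + 2)) =
      (Ioi (0 : ℝ)).indicator (fun z => κ / mom (k + 1) * ∫ s in Ioi (0 : ℝ), K z s) z := by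
    intro z
    rw [h2]
    by_cases hz : 0 < z
    · rw [indicator_of_mem (mem_Ioi.2 hz)]
      have hsc := integral_comp_mul_left_Ioi
        (fun r => r ^ (k + 1) * Real.exp (-r ^ 2 / 2) * H z r) 0 hz
      rw [mul_zero, smul_eq_mul] at hsc
      have hr : ∫ r in Ioi (0 : ℝ), r ^ (k + 1) * Real.exp (-r ^ 2 / 2) * H z r =
          z * ∫ s in Ioi (0 : ℝ), (z * s) ^ (k + 1) * Real.exp (-(z * s) ^ 2 / 2) * H z (z * s) := by
        rw [hsc, ← mul_assoc, mul_inv_cancel₀ hz.ne', one_mul]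
      rw [hr, ← mul_div_assoc, div_mul_eq_mul_div, ← integral_const_mul, ← integral_const_mul,
        ← integral_const_mul]
      congr 1
      refine setIntegral_congr_fun measurableSet_Ioi fun s _ => ?_
      simp only [hK, hH, gpdf, hκ]
      rw [show z ^ 2 + (z * s) ^ 2 = z ^ 2 * (1 + s ^ 2) by ring, Real.sqrt_mul (sq_nonneg z),
        Real.sqrt_sq hz.le, show z - t * (z * Real.sqrt (1 + s ^ 2)) =
          z * (1 - t * Real.sqrt (1 + s ^ 2)) by ring,
        show max (z * (1 - t * Real.sqrt (1 + s ^ 2))) 0 =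
          z * max (1 - t * Real.sqrt (1 + s ^ 2)) 0 by rw [mul_max_of_nonneg _ _ hz.le, mul_zero],
        show -(1 + s ^ 2) * z ^ 2 / 2 = -z ^ 2 / 2 + -(z * s) ^ 2 / 2 by ring, Real.exp_add]
      ring
    · rw [indicator_of_notMem (by simpa using hz)]
      have : ∀ r, H z r = 0 := fun r => le_antisymm (max_le (by
        nlinarith [Real.sqrt_nonneg (z ^ 2 + r ^ 2)]) le_rfl) (hH0 z r)
      simp [this]
  -- step three: swap
  have hscale : ∀ s : ℝ, ∫ z in Ioi (0 : ℝ), z ^ (k + 3) * Real.exp (-(1 + s ^ 2) * z ^ 2 / 2) =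
      mom (k + 3) * (Real.sqrt (1 + s ^ 2))⁻¹ ^ (k + 4) := by
    intro s
    set q := Real.sqrt (1 + s ^ 2) with hq
    have hq0 : 0 < q := Real.sqrt_pos.2 (by positivity)
    have hsc := integral_comp_mul_left_Ioi (fun r => r ^ (k + 3) * Real.exp (-r ^ 2 / 2)) 0 hq0
    rw [mul_zero, smul_eq_mul, ← mom] at hsc
    have he : ∀ z, (q * z) ^ (k + 3) * Real.exp (-(q * z) ^ 2 / 2) =
        q ^ (k + 3) * (z ^ (k + 3) * Real.exp (-(1 + s ^ 2) * z ^ 2 / 2)) := fun z => by
      rw [mul_pow q z 2, hq, Real.sq_sqrt (by positivity)]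
      ring_nf
    simp only [he, integral_const_mul] at hsc
    have : mom (k + 3) * q⁻¹ ^ (k + 4) * q ^ (k + 3) = q⁻¹ * mom (k + 3) := by
      rw [pow_succ, mul_assoc, mul_assoc, mul_comm (q⁻¹) (q ^ (k + 3)), ← mul_assoc (q⁻¹ ^ (k + 3)),
        ← mul_pow, inv_mul_cancel₀ hq0.ne', one_pow, one_mul, mul_comm]
    exact mul_left_cancel₀ (pow_ne_zero (k + 3) hq0.ne') (by rw [hsc, ← this]; ring)
  have hKint : Integrable (Function.uncurry K)
      ((volume.restrict (Ioi 0)).prod (volume.restrict (Ioi 0))) := by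
    have hc : Continuous (Function.uncurry K) := by
      simp only [hK, Function.uncurry_def]; fun_prop
    refine (integrable_prod_iff' hc.aestronglyMeasurable).2 ⟨?_, ?_⟩
    · refine Filter.Eventually.of_forall fun s => ?_
      have hi : IntegrableOn (fun z : ℝ => z ^ ((k + 3 : ℕ) : ℝ) *
          Real.exp (-((1 + s ^ 2) / 2) * z ^ (2 : ℝ))) (Ioi 0) :=
        integrableOn_rpow_mul_exp_neg_mul_rpow
          (by linarith [(Nat.cast_nonneg (k + 3) : (0 : ℝ) ≤ _)]) (by norm_num) (by positivity)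
      refine (hi.const_mul (s ^ (k + 1) * max (1 - t * Real.sqrt (1 + s ^ 2)) 0)).congr ?_
      refine Filter.Eventually.of_forall fun z => ?_
      simp only [Real.rpow_natCast, Real.rpow_two, hK, Function.uncurry_apply_pair]
      ring_nf
    · have hb : Integrable (fun s : ℝ => mom (k + 3) * (1 + s ^ 2)⁻¹)
          (volume.restrict (Ioi 0)) := (integrable_inv_one_add_sq.const_mul _).integrableOn
      refine hb.mono' (hc.norm.stronglyMeasurable.integral_prod_left'
        (μ := volume.restrict (Ioi (0 : ℝ)))).aestronglyMeasurable ?_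
      filter_upwards [ae_restrict_mem measurableSet_Ioi] with s hs
      have hs0 : (0 : ℝ) < s := hs
      have hq0 : 0 < Real.sqrt (1 + s ^ 2) := Real.sqrt_pos.2 (by positivity)
      rw [Real.norm_eq_abs, abs_of_nonneg (integral_nonneg fun _ => norm_nonneg _)]
      refine le_trans (le_of_eq (setIntegral_congr_fun measurableSet_Ioi
        (g := fun z => s ^ (k + 1) * max (1 - t * Real.sqrt (1 + s ^ 2)) 0 *
          (z ^ (k + 3) * Real.exp (-(1 + s ^ 2) * z ^ 2 / 2))) fun z hz => ?_)) ?_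
      · have hz0 : (0 : ℝ) < z := hz
        simp only [hK, Function.uncurry_apply_pair, Real.norm_eq_abs]
        rw [abs_of_nonneg (by positivity)]
        ring
      rw [integral_const_mul, hscale]
      have hsq : s ≤ Real.sqrt (1 + s ^ 2) := Real.le_sqrt_of_sq_le (by linarith)
      have hmax : max (1 - t * Real.sqrt (1 + s ^ 2)) 0 ≤ 1 :=
        max_le (by nlinarith) zero_le_one
      have hm : 0 ≤ mom (k + 3) := setIntegral_nonneg measurableSet_Ioi fun r hr =>
        mul_nonneg (pow_nonneg (le_of_lt hr) _) (Real.exp_pos _).le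
      have hA : s ^ (k + 1) * (Real.sqrt (1 + s ^ 2))⁻¹ ^ (k + 4) ≤ (1 + s ^ 2)⁻¹ := by
        have h5 : s ^ (k + 1) * (Real.sqrt (1 + s ^ 2))⁻¹ ^ (k + 1) ≤ 1 := by
          rw [← mul_pow]
          refine pow_le_one₀ (by positivity) ?_
          rw [← div_eq_mul_inv, div_le_one hq0]
          exact hsq
        have h6 : (Real.sqrt (1 + s ^ 2))⁻¹ ^ 3 ≤ (1 + s ^ 2)⁻¹ := by
          rw [pow_succ, inv_pow, Real.sq_sqrt (by positivity)]
          refine mul_le_of_le_one_right (by positivity) (inv_le_one_of_one_le₀ ?_)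
          exact Real.one_le_sqrt.2 (by nlinarith)
        calc _ = s ^ (k + 1) * (Real.sqrt (1 + s ^ 2))⁻¹ ^ (k + 1) *
              (Real.sqrt (1 + s ^ 2))⁻¹ ^ 3 := by ring
          _ ≤ 1 * (1 + s ^ 2)⁻¹ := mul_le_mul h5 h6 (by positivity) zero_le_one
          _ = _ := one_mul _
      calc _ = max (1 - t * Real.sqrt (1 + s ^ 2)) 0 * (mom (k + 3) *
            (s ^ (k + 1) * (Real.sqrt (1 + s ^ 2))⁻¹ ^ (k + 4))) := by ring
        _ ≤ 1 * (mom (k + 3) * (1 + s ^ 2)⁻¹) :=
          mul_le_mul hmax (mul_le_mul_of_nonneg_left hA hm) (by positivity) zero_le_one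
        _ = _ := one_mul _
  have hmom : mom (k + 3) = ((k : ℝ) + 2) * mom (k + 1) := by
    rw [mom_add_two]; push_cast; ring
  have hm1 : mom (k + 1) ≠ 0 := by
    rw [mom_eq_Gamma]
    exact (mul_pos (mul_pos (by positivity) (by norm_num))
      (Real.Gamma_pos_of_pos (by positivity))).ne'
  rw [h1, integral_N1]
  simp only [h3]
  rw [integral_indicator measurableSet_Ioi, integral_const_mul, integral_integral_swap hKint,
    integral_subst, ← integral_const_mul, ← integral_const_mul]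
  refine setIntegral_congr_fun measurableSet_Ioi fun s hs => ?_
  have hs0 : (0 : ℝ) < s := hs
  have hin : ∫ z in Ioi (0 : ℝ), K z s = s ^ (k + 1) * max (1 - t * Real.sqrt (1 + s ^ 2)) 0 *
      (mom (k + 3) * (Real.sqrt (1 + s ^ 2))⁻¹ ^ (k + 4)) := by
    rw [← hscale, ← integral_const_mul]
    refine setIntegral_congr_fun measurableSet_Ioi fun z _ => ?_
    simp only [hK]
    ring
  rw [hin]
  set q := Real.sqrt (1 + s ^ 2) with hq
  have hq0 : 0 < q := Real.sqrt_pos.2 (by positivity)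
  have hq2 : q ^ 2 = 1 + s ^ 2 := Real.sq_sqrt (by positivity)
  have hmx : max (q⁻¹ - t) 0 = q⁻¹ * max (1 - t * q) 0 := by
    rw [mul_max_of_nonneg _ _ (inv_pos.2 hq0).le, mul_zero]
    congr 1
    field_simp
  have hw : Real.sqrt (1 - q⁻¹ ^ 2) = s * q⁻¹ := by
    rw [show 1 - q⁻¹ ^ 2 = (s * q⁻¹) ^ 2 by field_simp; linarith,
      Real.sqrt_sq (by positivity)]
  rw [hmx, hw, hmom, hκ]
  simp only [inv_pow, div_pow, mul_pow]
  field_simp
  ring

lemma integrable_norm (d : ℕ) : Integrable (fun x : Eu d => ‖x‖) (gam d) :=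
  (IsGaussian.integrable_fun_id (μ := gam d)).norm

/-- Bathtub bound for the first moment of a cone. -/
lemma cone_moment_le (k : ℕ) {A : Set (Eu (k + 3))} (hAm : MeasurableSet A) (hA : IsCone A)
    (t : ℝ) (ht : 0 ≤ t) (ht1 : t ≤ 1) :
    ‖∫ x in A, x ∂(gam (k + 3))‖ ≤
      t * ((gam (k + 3)).real A * (mom (k + 3) / mom (k + 2))) +
        ((k : ℝ) + 2) / Real.sqrt (2 * Real.pi) *
          ∫ u in t..1, (u - t) * Real.sqrt (1 - u ^ 2) ^ k := by
  have hnorm : ∫ x, ‖x‖ ∂(gam (k + 3)) = mom (k + 3) / mom (k + 2) := by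
    rw [integral_norm_gam (by omega) fun r => r]
    congr 1
    refine setIntegral_congr_fun measurableSet_Ioi fun r _ => ?_
    simp only [show k + 3 - 1 = k + 2 from rfl]
    ring
  have hcone := cone_integral (by omega) hAm hA fun r => r
  rw [hnorm] at hcone
  have hu : ∫ u in Ioo (0 : ℝ) 1, max (u - t) 0 * Real.sqrt (1 - u ^ 2) ^ k =
      ∫ u in t..1, (u - t) * Real.sqrt (1 - u ^ 2) ^ k := by
    rw [intervalIntegral.integral_of_le ht1, ← integral_Ioc_eq_integral_Ioo]
    have he : ∀ u : ℝ, max (u - t) 0 * Real.sqrt (1 - u ^ 2) ^ k =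
        (Ioi t).indicator (fun u => (u - t) * Real.sqrt (1 - u ^ 2) ^ k) u := fun u => by
      by_cases h : t < u
      · rw [indicator_of_mem (mem_Ioi.2 h), max_eq_left (by linarith)]
      · rw [indicator_of_notMem (by simpa using h), max_eq_right (by linarith), zero_mul]
    simp only [he]
    rw [setIntegral_indicator measurableSet_Ioi, Ioc_inter_Ioi, max_eq_right ht]
  set v := ∫ x in A, x ∂(gam (k + 3)) with hv
  have hexc : 0 ≤ ((k : ℝ) + 2) / Real.sqrt (2 * Real.pi) *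
      ∫ u in t..1, (u - t) * Real.sqrt (1 - u ^ 2) ^ k :=
    mul_nonneg (by positivity) (intervalIntegral.integral_nonneg ht1 fun u hu =>
      mul_nonneg (by linarith [hu.1]) (by positivity))
  rcases eq_or_ne v 0 with h0 | h0
  · rw [h0, norm_zero]
    refine add_nonneg (mul_nonneg ht (mul_nonneg measureReal_nonneg ?_)) hexc
    rw [← hnorm]
    exact integral_nonneg fun _ => norm_nonneg _
  obtain ⟨e, he_def⟩ : ∃ e, e = ‖v‖⁻¹ • v := ⟨_, rfl⟩
  have he : ‖e‖ = 1 := by simp [he_def, norm_smul, h0]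
  have hve : ‖v‖ = ∫ x in A, ⟪e, x⟫ ∂(gam (k + 3)) := by
    rw [integral_inner (IsGaussian.integrable_fun_id (μ := gam (k + 3))).integrableOn e, ← hv,
      he_def, real_inner_smul_left, real_inner_self_eq_norm_sq, sq, ← mul_assoc,
      inv_mul_cancel₀ (norm_ne_zero_iff.2 h0), one_mul]
  have hi : Integrable (fun x => ⟪e, x⟫ - t * ‖x‖) (gam (k + 3)) :=
    (integrable_inner _ e).sub ((integrable_norm _).const_mul t)
  have h3 : ∫ x in A, (⟪e, x⟫ - t * ‖x‖) ∂(gam (k + 3)) ≤
      ∫ x, max (⟪e, x⟫ - t * ‖x‖) 0 ∂(gam (k + 3)) :=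
    (setIntegral_mono hi.integrableOn hi.pos_part.integrableOn fun x => le_max_left _ _).trans
      (setIntegral_le_integral hi.pos_part
        (Filter.Eventually.of_forall fun x => le_max_right _ _))
  rw [integral_sub (integrable_inner _ e).integrableOn
    ((integrable_norm _).const_mul t).integrableOn, integral_const_mul, hcone,
    excess_integral k e he t ht, hu] at h3
  linarith

lemma mom_three_div_two : mom 3 / mom 2 = 4 / Real.sqrt (2 * Real.pi) := by
  rw [mom_add_two 1, mom_add_two 0, mom_one, mom_zero, Real.sqrt_div' _ (by norm_num : (0 : ℝ) ≤ 2),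
    Real.sqrt_mul (by norm_num : (0 : ℝ) ≤ 2)]
  have h2 : Real.sqrt 2 ^ 2 = 2 := Real.sq_sqrt (by norm_num)
  have hp : 0 < Real.sqrt Real.pi := Real.sqrt_pos.2 Real.pi_pos
  have hs : 0 < Real.sqrt 2 := Real.sqrt_pos.2 (by norm_num)
  push_cast
  field_simp
  nlinarith

lemma mom_four_div_three : mom 4 / mom 3 = 3 / 4 * Real.sqrt (2 * Real.pi) := by
  rw [mom_add_two 2, mom_add_two 1, mom_add_two 0, mom_one, mom_zero,
    Real.sqrt_div' _ (by norm_num : (0 : ℝ) ≤ 2), Real.sqrt_mul (by norm_num : (0 : ℝ) ≤ 2)]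
  have h2 : Real.sqrt 2 ^ 2 = 2 := Real.sq_sqrt (by norm_num)
  have hs : 0 < Real.sqrt 2 := Real.sqrt_pos.2 (by norm_num)
  push_cast
  field_simp
  nlinarith

theorem cap3 : Cap3Prop := by
  intro A hAm hA
  wlog hm : (gam 3).real A ≤ 1 / 2 generalizing A
  · have hc : (gam 3).real Aᶜ = 1 - (gam 3).real A := probReal_compl_eq_one_sub hAm
    have h := this Aᶜ hAm.compl (IsCone.compl hA) (by rw [hc]; push Not at hm; linarith)
    have hz : ∫ x in Aᶜ, x ∂(gam 3) = -∫ x in A, x ∂(gam 3) := by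
      rw [eq_neg_iff_add_eq_zero, add_comm, integral_add_compl hAm IsGaussian.integrable_fun_id,
        integral_id_stdGaussian]
    rw [hz, norm_neg, hc] at h
    linarith
  set m := (gam 3).real A with hm_def
  have hm0 : 0 ≤ m := measureReal_nonneg
  have h := cone_moment_le 0 hAm hA (1 - 2 * m) (by linarith) (by linarith)
  rw [mom_three_div_two, ← hm_def] at h
  have hI : ∫ u in (1 - 2 * m)..1, (u - (1 - 2 * m)) * Real.sqrt (1 - u ^ 2) ^ 0 =
      2 * m ^ 2 := by
    simp only [pow_zero, mul_one]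
    rw [intervalIntegral.integral_comp_sub_right (fun u => u) (1 - 2 * m), integral_id]
    ring
  rw [hI] at h
  refine h.trans (le_of_eq ?_)
  push_cast
  ring

theorem cap4 : Cap4Prop := by
  intro A t hAm hA ht0 ht1
  have h := cone_moment_le 1 hAm hA t ht0 ht1.le
  rw [mom_four_div_three] at h
  simp only [pow_one] at h
  refine h.trans (le_of_eq ?_)
  have hs : Real.sqrt (2 * Real.pi) ^ 2 = 2 * Real.pi := Real.sq_sqrt (by positivity)
  have hp : 0 < Real.sqrt (2 * Real.pi) := Real.sqrt_pos.2 (by positivity)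
  push_cast
  field_simp
  linear_combination (-6 * ∫ u in t..1, (u - t) * Real.sqrt (1 - u ^ 2)) * hs

end Vale.Agent.P226.Geo
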