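import Vale.Agent.P226.GeomLaw
import Vale.Agent.P226.GeomStatement

/-!
Bathtub bounds and small-ball bounds for triangles and triangular cones.
-/

open MeasureTheory ProbabilityTheory Set
open scoped RealInnerProductSpace

namespace Vale.Agent.P226.Geo

lemma gpdf_eq' : gpdf = gaussianPDFReal 0 1 := by
  funext u; simp [gpdf, gaussianPDFReal]

lemma gpdf_le (u : ℝ) : gpdf u ≤ (Real.sqrt (2 * Real.pi))⁻¹ := by
  unfold gpdf
  calc (Real.sqrt (2 * Real.pi))⁻¹ * Real.exp (-u ^ 2 / 2)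
      ≤ (Real.sqrt (2 * Real.pi))⁻¹ * 1 := by
        refine mul_le_mul_of_nonneg_left (Real.exp_le_one_iff.2 ?_) (by positivity)
        nlinarith [sq_nonneg u]
    _ = _ := mul_one _

lemma integral_N1 (f : ℝ → ℝ) : ∫ x, f x ∂N1 = ∫ x, gpdf x * f x := by
  rw [integral_gaussianReal_eq_integral_smul one_ne_zero, gpdf_eq']
  simp

lemma integral_pos_shift (u : ℝ) : ∫ x, max (x - u) 0 ∂N1 = gpdf u - u * gQ u := by
  have hI : ∫ x in Ioi u, x * gpdf x = gpdf u := by
    have hd : ∀ x ∈ Ici u, HasDerivAt (fun x => -gpdf x) (x * gpdf x) x := fun x _ => by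
      have h : HasDerivAt (fun x : ℝ => -x ^ 2 / 2) (-x) x := by
        simpa using ((hasDerivAt_pow 2 x).neg.div_const 2).congr_deriv (by ring : _ = -x)
      exact ((h.exp.const_mul ((Real.sqrt (2 * Real.pi))⁻¹)).neg).congr_deriv
        (by unfold gpdf; ring)
    have hint : IntegrableOn (fun x => x * gpdf x) (Ioi u) := by
      refine (Integrable.const_mul (integrable_mul_exp_neg_mul_sq (b := 1 / 2) (by norm_num))
        ((Real.sqrt (2 * Real.pi))⁻¹)).integrableOn.congr_fun ?_ measurableSet_Ioi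
      intro x _
      simp only [gpdf]
      ring_nf
    have ht : Filter.Tendsto (fun x => -gpdf x) Filter.atTop (nhds 0) := by
      have h0 : Filter.Tendsto (fun x : ℝ => -x ^ 2 / 2) Filter.atTop Filter.atBot := by
        refine Filter.Tendsto.atBot_div_const (by norm_num) ?_
        exact Filter.tendsto_neg_atTop_atBot.comp (Filter.tendsto_pow_atTop (by norm_num))
      simpa [gpdf] using ((Real.tendsto_exp_atBot.comp h0).const_mul
        ((Real.sqrt (2 * Real.pi))⁻¹)).neg
    rw [integral_Ioi_of_hasDerivAt_of_tendsto' hd hint ht]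
    ring
  have hQ : (∫ x in Ioi u, gpdf x) = gQ u := by
    rw [gQ, measureReal_def, gaussianReal_apply_eq_integral 0 one_ne_zero, ← gpdf_eq',
      ENNReal.toReal_ofReal, integral_Ici_eq_integral_Ioi]
    rw [gpdf_eq']
    exact setIntegral_nonneg measurableSet_Ici fun x _ => gaussianPDFReal_nonneg 0 1 x
  rw [integral_N1, show (fun x => gpdf x * max (x - u) 0) =
      (Ioi u).indicator (fun x => x * gpdf x - u * gpdf x) from funext fun x => by
    by_cases h : u < x
    · rw [indicator_of_mem (mem_Ioi.2 h), max_eq_left (by linarith)]; ring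
    · rw [indicator_of_notMem (by simpa using h), max_eq_right (by linarith), mul_zero],
    integral_indicator measurableSet_Ioi, integral_sub, integral_const_mul, hI, hQ]
  · refine (Integrable.const_mul (integrable_mul_exp_neg_mul_sq (b := 1 / 2) (by norm_num))
      ((Real.sqrt (2 * Real.pi))⁻¹)).integrableOn.congr_fun ?_ measurableSet_Ioi
    intro x _
    simp only [gpdf]
    ring_nf
  · exact (gpdf_eq' ▸ (integrable_gaussianPDFReal 0 1).const_mul u).integrableOn

lemma integrable_inner (d : ℕ) (e : Eu d) : Integrable (fun x => ⟪e, x⟫) (gam d) :=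
  (IsGaussian.integrable_fun_id (μ := gam d)).const_inner e

theorem halfspace : HalfspaceProp := by
  intro d A u hA hm
  set v := ∫ x in A, x ∂(gam d) with hv
  rcases eq_or_ne v 0 with h0 | h0
  · rw [h0, norm_zero]
    unfold gpdf
    positivity
  set e := ‖v‖⁻¹ • v with he_def
  have he : ‖e‖ = 1 := by simp [he_def, norm_smul, h0]
  have hve : ‖v‖ = ∫ x in A, ⟪e, x⟫ ∂(gam d) := by
    rw [integral_inner (IsGaussian.integrable_fun_id (μ := gam d)).integrableOn e, ← hv, he_def,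
      real_inner_smul_left, real_inner_self_eq_norm_sq, sq, ← mul_assoc,
      inv_mul_cancel₀ (norm_ne_zero_iff.2 h0), one_mul]
  have hi := integrable_inner d e
  have hi' : Integrable (fun x => max (⟪e, x⟫ - u) 0) (gam d) :=
    (hi.sub (integrable_const u)).pos_part
  have h2 : ∫ x, max (⟪e, x⟫ - u) 0 ∂(gam d) = gpdf u - u * gQ u := by
    rw [← integral_pos_shift u, ← map_inner_one e he, integral_map (by fun_prop) (by fun_prop)]
  have h3 : ∫ x in A, (⟪e, x⟫ - u) ∂(gam d) ≤ ∫ x, max (⟪e, x⟫ - u) 0 ∂(gam d) :=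
    (setIntegral_mono (hi.sub (integrable_const u)).integrableOn hi'.integrableOn
      fun x => le_max_left _ _).trans
      (setIntegral_le_integral hi' (Filter.Eventually.of_forall fun x => le_max_right _ _))
  rw [integral_sub hi.integrableOn (integrable_const u).integrableOn, setIntegral_const, h2, smul_eq_mul, hm]
    at h3
  linarith

theorem bathtub : BathtubProp := by
  intro d A R K r hA hR hR0 hr hK
  have hf : Integrable (fun x => max (r - R x) 0) (gam d) :=
    ((integrable_const r).sub hR).pos_part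
  have h1 : r * (gam d).real A - ∫ x in A, R x ∂(gam d) ≤ ∫ x, max (r - R x) 0 ∂(gam d) := by
    have h : ∫ x in A, (r - R x) ∂(gam d) = r * (gam d).real A - ∫ x in A, R x ∂(gam d) := by
      rw [integral_sub (integrable_const r).integrableOn hR.integrableOn, setIntegral_const, smul_eq_mul,
        mul_comm]
    rw [← h]
    exact (setIntegral_mono ((integrable_const r).sub hR).integrableOn hf.integrableOn
      fun x => le_max_left _ _).trans
      (setIntegral_le_integral hf (Filter.Eventually.of_forall fun x => le_max_right _ _))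
  have h2 : ∫ x, max (r - R x) 0 ∂(gam d) ≤ K * r ^ 3 / 3 := by
    rw [hf.integral_eq_integral_meas_lt (Filter.Eventually.of_forall fun x => le_max_right _ _)]
    have hKi : IntegrableOn ((Iic r).indicator fun t => K * (r - t) ^ 2) (Ioi (0 : ℝ)) := by
      rw [IntegrableOn, integrable_indicator_iff measurableSet_Iic, IntegrableOn,
        Measure.restrict_restrict measurableSet_Iic, inter_comm, Ioi_inter_Iic]
      exact (by fun_prop : Continuous fun t : ℝ => K * (r - t) ^ 2).integrableOn_Ioc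
    refine (integral_mono_of_nonneg (Filter.Eventually.of_forall fun t => measureReal_nonneg)
      hKi ?_).trans (le_of_eq ?_)
    · filter_upwards [ae_restrict_mem measurableSet_Ioi] with t ht
      have ht0 : (0 : ℝ) < t := ht
      by_cases htr : t ≤ r
      · rw [indicator_of_mem (mem_Iic.2 htr)]
        refine le_trans (measureReal_mono ?_) (hK (r - t) (by linarith))
        intro x hx
        simp only [mem_ofPred_eq, lt_max_iff] at hx ⊢
        rcases hx with hx | hx <;> linarith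
      · rw [indicator_of_notMem (by simpa using htr),
          show {a : Eu d | t < max (r - R a) 0} = ∅ from ?_, measureReal_empty]
        ext x
        simp only [mem_ofPred_eq, lt_max_iff, mem_empty_iff_false, iff_false]
        push Not at htr
        rintro (hx | hx) <;> linarith [hR0 x]
    · rw [setIntegral_indicator measurableSet_Iic, Ioi_inter_Iic,
        ← intervalIntegral.integral_of_le hr, intervalIntegral.integral_const_mul,
        intervalIntegral.integral_comp_sub_left (fun t => t ^ 2) r, integral_pow]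
      norm_num
      ring
  linarith

lemma N1_real_uIcc_le (l h : ℝ) :
    N1.real (uIcc l h) ≤ |h - l| * (Real.sqrt (2 * Real.pi))⁻¹ := by
  rw [measureReal_def, gaussianReal_apply_eq_integral 0 one_ne_zero, ← gpdf_eq',
    ENNReal.toReal_ofReal (setIntegral_nonneg measurableSet_uIcc fun x _ => by
      unfold gpdf; positivity)]
  refine (setIntegral_mono_on (gpdf_eq' ▸ integrable_gaussianPDFReal 0 1).integrableOn
    (integrableOn_const (by simp [uIcc, Real.volume_Icc]))
    measurableSet_uIcc fun x _ => gpdf_le x).trans (le_of_eq ?_)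
  simp [measureReal_def, uIcc, Real.volume_Icc, max_sub_min_eq_abs]

/-- The profile of slices of a right triangle. -/
noncomputable def slice (U : ℝ) : ℝ → ℝ := (Icc 0 U).indicator fun s => U - s

lemma slice_nonneg (U s : ℝ) : 0 ≤ slice U s :=
  indicator_nonneg (fun x hx => sub_nonneg.2 hx.2) s

/-- Small ball bound for an affinely transformed planar triangle. -/
lemma plane_tri (α β δ a0 b0 U : ℝ) (hα : α ≠ 0) (hδ : δ ≠ 0) (hU : 0 ≤ U) :
    (N1.prod N1).real {p : ℝ × ℝ | 0 ≤ a0 + α * p.1 ∧ 0 ≤ b0 + β * p.1 + δ * p.2 ∧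
        a0 + α * p.1 + (b0 + β * p.1 + δ * p.2) ≤ U} ≤
      U ^ 2 / (4 * Real.pi * |α * δ|) := by
  set S := {p : ℝ × ℝ | 0 ≤ a0 + α * p.1 ∧ 0 ≤ b0 + β * p.1 + δ * p.2 ∧
    a0 + α * p.1 + (b0 + β * p.1 + δ * p.2) ≤ U} with hS_def
  set κ := (Real.sqrt (2 * Real.pi))⁻¹ with hκ
  have hSm : MeasurableSet S := by
    have h1 : MeasurableSet {p : ℝ × ℝ | 0 ≤ a0 + α * p.1} :=
      measurableSet_le measurable_const (by fun_prop)
    have h2 : MeasurableSet {p : ℝ × ℝ | 0 ≤ b0 + β * p.1 + δ * p.2} :=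
      measurableSet_le measurable_const (by fun_prop)
    have h3 : MeasurableSet {p : ℝ × ℝ | a0 + α * p.1 + (b0 + β * p.1 + δ * p.2) ≤ U} :=
      measurableSet_le (by fun_prop) measurable_const
    exact h1.inter (h2.inter h3)
  have hslice : ∀ X, N1.real (Prod.mk X ⁻¹' S) ≤ slice U (a0 + α * X) * (κ / |δ|) := by
    intro X
    by_cases hX : a0 + α * X ∈ Icc 0 U
    · have hsub : Prod.mk X ⁻¹' S ⊆
          uIcc ((-b0 - β * X) / δ) ((U - (a0 + α * X) - b0 - β * X) / δ) := by
        intro Y hY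
        obtain ⟨_, h2, h3⟩ := hY
        rw [mem_uIcc]
        rcases lt_or_gt_of_ne hδ with hneg | hpos
        · right
          rw [div_le_iff_of_neg hneg, le_div_iff_of_neg hneg]
          constructor <;> nlinarith
        · left
          rw [div_le_iff₀ hpos, le_div_iff₀ hpos]
          constructor <;> nlinarith
      refine (measureReal_mono hsub).trans ((N1_real_uIcc_le _ _).trans (le_of_eq ?_))
      rw [slice, indicator_of_mem hX, div_sub_div_same, abs_div,
        abs_of_nonneg (show 0 ≤ U - (a0 + α * X) - b0 - β * X - (-b0 - β * X) by linarith [hX.2])]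
      ring
    · have hempty : Prod.mk X ⁻¹' S = ∅ := by
        ext Y
        simp only [hS_def, mem_preimage, mem_ofPred_eq, mem_empty_iff_false, iff_false]
        rintro ⟨h1, h2, h3⟩
        exact hX ⟨h1, by linarith⟩
      rw [hempty, measureReal_empty]
      have := slice_nonneg U (a0 + α * X)
      positivity
  have hmain : (N1.prod N1).real S = ∫ X, N1.real (Prod.mk X ⁻¹' S) ∂N1 := by
    have h := integral_prod (μ := N1) (ν := N1) (S.indicator fun _ => (1 : ℝ))
      ((integrable_const 1).indicator hSm)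
    rw [integral_indicator_const _ hSm] at h
    simp only [smul_eq_mul, mul_one] at h
    rw [h]
    refine integral_congr_ae (Filter.Eventually.of_forall fun X => ?_)
    show ∫ Y, (Prod.mk X ⁻¹' S).indicator (fun _ => (1 : ℝ)) Y ∂N1 = N1.real (Prod.mk X ⁻¹' S)
    rw [integral_indicator_const _ (measurable_prodMk_left hSm)]
    simp
  have hgi : Integrable (fun X => slice U (a0 + α * X)) := by
    have h0 : Integrable (slice U) := by
      rw [slice, integrable_indicator_iff measurableSet_Icc]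
      exact (by fun_prop : Continuous fun s : ℝ => U - s).integrableOn_Icc
    exact (h0.comp_add_left a0).comp_mul_left' hα
  have hgm : Measurable fun X => slice U (a0 + α * X) :=
    ((measurable_const.sub measurable_id).indicator measurableSet_Icc).comp
      (by fun_prop : Measurable fun X : ℝ => a0 + α * X)
  have hgN : Integrable (fun X => slice U (a0 + α * X) * (κ / |δ|)) N1 := by
    refine Integrable.mul_const (Integrable.of_bound hgm.aestronglyMeasurable U
      (Filter.Eventually.of_forall fun X => ?_)) _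
    rw [Real.norm_eq_abs, abs_of_nonneg (slice_nonneg _ _), slice]
    exact indicator_apply_le' (fun h => by linarith [h.1]) (fun _ => hU)
  rw [hmain]
  refine (integral_mono_of_nonneg (Filter.Eventually.of_forall fun X => measureReal_nonneg) hgN
    (Filter.Eventually.of_forall hslice)).trans ?_
  rw [integral_mul_const, integral_N1]
  have h1 : ∫ X, gpdf X * slice U (a0 + α * X) ≤ κ * (|α⁻¹| * (U ^ 2 / 2)) := by
    have h2 : ∫ X, slice U (a0 + α * X) = |α⁻¹| * (U ^ 2 / 2) := by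
      rw [Measure.integral_comp_mul_left (fun y => slice U (a0 + y)) α,
        integral_add_left_eq_self (slice U) a0, smul_eq_mul, slice,
        integral_indicator measurableSet_Icc, integral_Icc_eq_integral_Ioc,
        ← intervalIntegral.integral_of_le hU,
        intervalIntegral.integral_comp_sub_left (fun s => s) U, integral_id]
      ring
    rw [← h2, ← integral_const_mul]
    refine integral_mono_of_nonneg (Filter.Eventually.of_forall fun X =>
      mul_nonneg (by unfold gpdf; positivity) (slice_nonneg _ _)) (hgi.const_mul κ)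
      (Filter.Eventually.of_forall fun X =>
        mul_le_mul_of_nonneg_right (gpdf_le X) (slice_nonneg _ _))
  refine (mul_le_mul_of_nonneg_right h1 (by positivity)).trans (le_of_eq ?_)
  have hs : Real.sqrt (2 * Real.pi) ^ 2 = 2 * Real.pi := Real.sq_sqrt (by positivity)
  rw [hκ, abs_inv, abs_mul]
  field_simp
  rw [hs]
  ring

theorem triangle : TriangleProp := by
  intro d a b r hr hG
  set G := ‖a‖ ^ 2 * ‖b‖ ^ 2 - ⟪a, b⟫ ^ 2 with hG_def
  have hA0 : ‖a‖ ≠ 0 := by
    intro h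
    have h' : a = 0 := norm_eq_zero.1 h
    simp [hG_def, h'] at hG
  obtain ⟨e, he_def⟩ : ∃ e, e = ‖a‖⁻¹ • a := ⟨_, rfl⟩
  obtain ⟨w, hw_def⟩ : ∃ w, w = b - ⟪e, b⟫ • e := ⟨_, rfl⟩
  have hee : ⟪e, e⟫ = 1 := by
    rw [he_def, real_inner_smul_left, real_inner_smul_right, real_inner_self_eq_norm_sq]
    field_simp
  have hne : ‖e‖ = 1 := by rw [norm_eq_sqrt_real_inner, hee, Real.sqrt_one]
  have hw2 : ‖w‖ ^ 2 * ‖a‖ ^ 2 = G := by
    have he1 : ⟪e, b⟫ * ‖a‖ = ⟪a, b⟫ := by rw [he_def, real_inner_smul_left]; field_simp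
    rw [hw_def, norm_sub_sq_real, norm_smul, real_inner_smul_right, real_inner_comm e b, mul_pow,
      Real.norm_eq_abs, sq_abs, hne, hG_def]
    linear_combination -(⟪e, b⟫ * ‖a‖ + ⟪a, b⟫) * he1
  have hw0 : ‖w‖ ≠ 0 := fun h => by rw [h] at hw2; simp at hw2; linarith
  obtain ⟨f, hf_def⟩ : ∃ f, f = ‖w‖⁻¹ • w := ⟨_, rfl⟩
  have hew : ⟪e, w⟫ = 0 := by
    rw [hw_def, inner_sub_right, real_inner_smul_right, hee]
    ring
  have ho : Orthonormal ℝ ![e, f] := by
    rw [orthonormal_iff_ite]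
    have hff : ⟪f, f⟫ = 1 := by
      rw [hf_def, real_inner_smul_left, real_inner_smul_right, real_inner_self_eq_norm_sq]
      field_simp
    have hef : ⟪e, f⟫ = 0 := by rw [hf_def, real_inner_smul_right, hew, mul_zero]
    have hnf : ‖f‖ = 1 := by rw [norm_eq_sqrt_real_inner, hff, Real.sqrt_one]
    intro i j
    fin_cases i <;> fin_cases j <;> simp [hef, hne, hnf, show ⟪f, e⟫ = (0 : ℝ) by rw [real_inner_comm]; exact hef]
  have ha : ∀ x : Eu d, ⟪a, x⟫ = ‖a‖ * ⟪e, x⟫ := fun x => by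
    rw [he_def, real_inner_smul_left]; field_simp
  have hb : ∀ x : Eu d, ⟪b, x⟫ = ⟪e, b⟫ * ⟪e, x⟫ + ‖w‖ * ⟪f, x⟫ := fun x => by
    rw [hf_def, real_inner_smul_left, ← mul_assoc, mul_inv_cancel₀ hw0, one_mul, hw_def,
      inner_sub_left, real_inner_smul_left]
    ring
  have h := plane_tri (-‖a‖) (-⟪e, b⟫) (-‖w‖) r r (3 * r) (neg_ne_zero.2 hA0) (neg_ne_zero.2 hw0)
    (by linarith)
  have habs : |-‖a‖ * -‖w‖| = Real.sqrt G := by
    rw [← hw2, ← mul_pow, Real.sqrt_sq (by positivity), neg_mul_neg,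
      abs_of_nonneg (by positivity), mul_comm]
  rw [habs] at h
  refine le_trans ?_ (h.trans (le_of_eq (by ring)))
  rw [← map_inner_two e f ho, map_measureReal_apply (by fun_prop)]
  · refine measureReal_mono ?_
    intro x hx
    obtain ⟨h1, h2, h3⟩ := hx
    rw [ha] at h1 h3
    rw [hb] at h2 h3
    refine ⟨?_, ?_, ?_⟩ <;> linarith
  · have h1 : MeasurableSet {p : ℝ × ℝ | 0 ≤ r + -‖a‖ * p.1} :=
      measurableSet_le measurable_const (by fun_prop)
    have h2 : MeasurableSet {p : ℝ × ℝ | 0 ≤ r + -⟪e, b⟫ * p.1 + -‖w‖ * p.2} :=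
      measurableSet_le measurable_const (by fun_prop)
    have h3 : MeasurableSet
        {p : ℝ × ℝ | r + -‖a‖ * p.1 + (r + -⟪e, b⟫ * p.1 + -‖w‖ * p.2) ≤ 3 * r} :=
      measurableSet_le (by fun_prop) measurable_const
    exact h1.inter (h2.inter h3)

lemma integral_sq_nonneg_half : ∫ z, (Ici (0 : ℝ)).indicator (fun z => z ^ 2) z ∂N1 = 1 / 2 := by
  set f := (Ici (0 : ℝ)).indicator fun z : ℝ => z ^ 2 with hf
  have hfm : Measurable f := (measurable_id.pow_const 2).indicator measurableSet_Ici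
  have hsq : Integrable (fun z : ℝ => z ^ 2) N1 :=
    (IsGaussian.memLp_two_id (μ := N1)).integrable_sq
  have hfi : Integrable f N1 := hsq.indicator measurableSet_Ici
  have hneg : N1.map (fun x => -x) = N1 := by simpa using gaussianReal_map_neg (μ := 0) (v := 1)
  have h1 : ∫ z, f (-z) ∂N1 = ∫ z, f z ∂N1 := by
    conv_rhs => rw [← hneg]
    rw [integral_map (by fun_prop) hfm.aestronglyMeasurable]
  have hfi' : Integrable (fun z => f (-z)) N1 := by
    refine Integrable.mono' hsq (hfm.comp measurable_neg).aestronglyMeasurable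
      (Filter.Eventually.of_forall fun z => ?_)
    rw [Real.norm_eq_abs, hf]
    by_cases hz : z ≤ 0 <;> simp [hz]; positivity
  have h2 : ∫ z, f z + f (-z) ∂N1 = 1 := by
    have he : (fun z => f z + f (-z)) = fun z : ℝ => z ^ 2 := by
      funext z
      rcases lt_trichotomy z 0 with hz | hz | hz
      · simp [hf, hz.not_ge, hz.le]
      · simp [hf, hz]
      · simp [hf, hz.le, hz.not_ge]
    rw [he]
    have hv := variance_eq_sub (IsGaussian.memLp_two_id (μ := N1))
    rw [variance_id_gaussianReal] at hv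
    simp only [Pi.pow_apply, id_eq, integral_id_gaussianReal, NNReal.coe_one] at hv
    linarith
  rw [integral_add hfi hfi', h1] at h2
  linarith

theorem tricone : TriconeProp := by
  intro d a b c D hD hdet
  set s := a + b + c with hs_def
  set S := ‖s‖ ^ 2 with hS_def
  have hid : D ^ 2 = ‖a‖ ^ 2 * ‖b‖ ^ 2 * S + 2 * ⟪a, b⟫ * ⟪b, s⟫ * ⟪a, s⟫
      - ‖a‖ ^ 2 * ⟪b, s⟫ ^ 2 - ‖b‖ ^ 2 * ⟪a, s⟫ ^ 2 - S * ⟪a, b⟫ ^ 2 := by
    rw [hdet, hS_def, hs_def, ← real_inner_self_eq_norm_sq (a + b + c)]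
    simp only [inner_add_left, inner_add_right, real_inner_self_eq_norm_sq,
      real_inner_comm a b, real_inner_comm a c, real_inner_comm b c]
    ring
  have hs0 : ‖s‖ ≠ 0 := by
    intro h
    have h' : s = 0 := norm_eq_zero.1 h
    rw [hS_def, h] at hid
    simp [h'] at hid
    linarith
  have hSpos : 0 < S := by
    rw [hS_def]; exact pow_pos (lt_of_le_of_ne (norm_nonneg s) (Ne.symm hs0)) 2
  obtain ⟨e, he_def⟩ : ∃ e, e = ‖s‖⁻¹ • s := ⟨_, rfl⟩
  have hee : ⟪e, e⟫ = 1 := by
    rw [he_def, real_inner_smul_left, real_inner_smul_right, real_inner_self_eq_norm_sq]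
    field_simp
  obtain ⟨wa, hwa_def⟩ : ∃ wa, wa = a - ⟪e, a⟫ • e := ⟨_, rfl⟩
  have hne : ‖e‖ = 1 := by rw [norm_eq_sqrt_real_inner, hee, Real.sqrt_one]
  have hea : ⟪e, a⟫ * ‖s‖ = ⟪a, s⟫ := by
    rw [he_def, real_inner_smul_left, real_inner_comm a s]; field_simp
  have hwa2 : ‖wa‖ ^ 2 * S = ‖a‖ ^ 2 * S - ⟪a, s⟫ ^ 2 := by
    rw [hwa_def, norm_sub_sq_real, norm_smul, real_inner_smul_right, real_inner_comm e a, mul_pow,
      Real.norm_eq_abs, sq_abs, hne, hS_def]
    linear_combination -(⟪e, a⟫ * ‖s‖ + ⟪a, s⟫) * hea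
  have hwab : ⟪wa, b⟫ * S = ⟪a, b⟫ * S - ⟪a, s⟫ * ⟪b, s⟫ := by
    rw [hwa_def, inner_sub_left, real_inner_smul_left, he_def, real_inner_smul_left,
      real_inner_smul_left, real_inner_comm s a, real_inner_comm s b, hS_def]
    field_simp
  have hwa0 : ‖wa‖ ≠ 0 := by
    intro h
    rw [h] at hwa2
    have h' : wa = 0 := norm_eq_zero.1 h
    rw [h', inner_zero_left, zero_mul] at hwab
    have : D ^ 2 * S = (‖a‖ ^ 2 * S - ⟪a, s⟫ ^ 2) * (‖b‖ ^ 2 * S - ⟪b, s⟫ ^ 2) -
        (⟪a, b⟫ * S - ⟪a, s⟫ * ⟪b, s⟫) ^ 2 := by rw [hid]; ring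
    rw [← hwa2, ← hwab] at this
    simp at this
    rcases this with h1 | h1 <;> linarith
  obtain ⟨f, hf_def⟩ : ∃ f, f = ‖wa‖⁻¹ • wa := ⟨_, rfl⟩
  have hew : ⟪e, wa⟫ = 0 := by
    rw [hwa_def, inner_sub_right, real_inner_smul_right, hee]; ring
  have hff : ⟪f, f⟫ = 1 := by
    rw [hf_def, real_inner_smul_left, real_inner_smul_right, real_inner_self_eq_norm_sq]
    field_simp
  have hef : ⟪e, f⟫ = 0 := by rw [hf_def, real_inner_smul_right, hew, mul_zero]
  obtain ⟨wb, hwb_def⟩ : ∃ wb, wb = b - ⟪e, b⟫ • e - ⟪f, b⟫ • f := ⟨_, rfl⟩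
  have hewb : ⟪e, wb⟫ = 0 := by
    rw [hwb_def, inner_sub_right, inner_sub_right, real_inner_smul_right, real_inner_smul_right,
      hee, hef]; ring
  have hfwb : ⟪f, wb⟫ = 0 := by
    rw [hwb_def, inner_sub_right, inner_sub_right, real_inner_smul_right, real_inner_smul_right,
      hff, real_inner_comm e f, hef]; ring
  have hwb2 : ‖wb‖ ^ 2 = ‖b‖ ^ 2 - ⟪e, b⟫ ^ 2 - ⟪f, b⟫ ^ 2 := by
    rw [hwb_def, ← real_inner_self_eq_norm_sq, ← real_inner_self_eq_norm_sq b]
    simp only [inner_sub_left, inner_sub_right, real_inner_smul_left, real_inner_smul_right, hee,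
      hff, hef, real_inner_comm e f, real_inner_comm b e, real_inner_comm b f]
    ring
  have hprod : (‖wa‖ * ‖wb‖ * ‖s‖) ^ 2 = D ^ 2 := by
    have h1 : ⟪e, b⟫ ^ 2 * S = ⟪b, s⟫ ^ 2 := by
      rw [he_def, real_inner_smul_left, real_inner_comm b s, hS_def]; field_simp
    have h2 : ⟪f, b⟫ * ‖wa‖ = ⟪wa, b⟫ := by
      rw [hf_def, real_inner_smul_left]; field_simp
    refine mul_right_cancel₀ hSpos.ne' ?_
    rw [mul_pow, mul_pow, hwb2, ← hS_def, hid]
    linear_combination (‖b‖ ^ 2 * S - ⟪b, s⟫ ^ 2) * hwa2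
      - (⟪wa, b⟫ * S + (⟪a, b⟫ * S - ⟪a, s⟫ * ⟪b, s⟫)) * hwab
      - ‖wa‖ ^ 2 * S * h1 - S ^ 2 * (⟪f, b⟫ * ‖wa‖ + ⟪wa, b⟫) * h2
  have hprod' : ‖wa‖ * ‖wb‖ * ‖s‖ = D :=
    (sq_eq_sq₀ (by positivity) hD.le).1 hprod
  have hwb0 : ‖wb‖ ≠ 0 := fun h => by rw [h] at hprod'; simp at hprod'; linarith
  obtain ⟨g, hg_def⟩ : ∃ g, g = ‖wb‖⁻¹ • wb := ⟨_, rfl⟩
  have ho : Orthonormal ℝ ![e, f, g] := by
    rw [orthonormal_iff_ite]
    have hgg : ⟪g, g⟫ = 1 := by
      rw [hg_def, real_inner_smul_left, real_inner_smul_right, real_inner_self_eq_norm_sq]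
      field_simp
    have heg : ⟪e, g⟫ = 0 := by rw [hg_def, real_inner_smul_right, hewb, mul_zero]
    have hfg : ⟪f, g⟫ = 0 := by rw [hg_def, real_inner_smul_right, hfwb, mul_zero]
    have hnf : ‖f‖ = 1 := by rw [norm_eq_sqrt_real_inner, hff, Real.sqrt_one]
    have hng : ‖g‖ = 1 := by rw [norm_eq_sqrt_real_inner, hgg, Real.sqrt_one]
    intro i j
    fin_cases i <;> fin_cases j <;>
      simp [hne, hnf, hng, hef, heg, hfg, show ⟪f, e⟫ = (0 : ℝ) by rw [real_inner_comm]; exact hef,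
        show ⟪g, e⟫ = (0 : ℝ) by rw [real_inner_comm]; exact heg,
        show ⟪g, f⟫ = (0 : ℝ) by rw [real_inner_comm]; exact hfg]
  have hu : ∀ x : Eu d, ⟪a, x⟫ + ⟪b, x⟫ + ⟪c, x⟫ = ‖s‖ * ⟪e, x⟫ := fun x => by
    rw [he_def, real_inner_smul_left, hs_def, inner_add_left, inner_add_left]
    rw [← hs_def]; field_simp
  have ha : ∀ x : Eu d, ⟪a, x⟫ = ⟪e, a⟫ * ⟪e, x⟫ + ‖wa‖ * ⟪f, x⟫ := fun x => by
    rw [hf_def, real_inner_smul_left, ← mul_assoc, mul_inv_cancel₀ hwa0, one_mul, hwa_def,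
      inner_sub_left, real_inner_smul_left]
    ring
  have hb : ∀ x : Eu d,
      ⟪b, x⟫ = ⟪e, b⟫ * ⟪e, x⟫ + ⟪f, b⟫ * ⟪f, x⟫ + ‖wb‖ * ⟪g, x⟫ := fun x => by
    rw [hg_def, real_inner_smul_left, ← mul_assoc, mul_inv_cancel₀ hwb0, one_mul, hwb_def,
      inner_sub_left, inner_sub_left, real_inner_smul_left, real_inner_smul_left]
    ring
  set T := {p : ℝ × (ℝ × ℝ) | 0 ≤ ⟪e, a⟫ * p.1 + ‖wa‖ * p.2.1 ∧
    0 ≤ ⟪e, b⟫ * p.1 + ⟪f, b⟫ * p.2.1 + ‖wb‖ * p.2.2 ∧
    ⟪e, a⟫ * p.1 + ‖wa‖ * p.2.1 + (⟪e, b⟫ * p.1 + ⟪f, b⟫ * p.2.1 + ‖wb‖ * p.2.2) ≤ ‖s‖ * p.1}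
    with hT_def
  have hTm : MeasurableSet T := by
    have h1 : MeasurableSet {p : ℝ × (ℝ × ℝ) | 0 ≤ ⟪e, a⟫ * p.1 + ‖wa‖ * p.2.1} :=
      measurableSet_le measurable_const (by fun_prop)
    have h2 : MeasurableSet
        {p : ℝ × (ℝ × ℝ) | 0 ≤ ⟪e, b⟫ * p.1 + ⟪f, b⟫ * p.2.1 + ‖wb‖ * p.2.2} :=
      measurableSet_le measurable_const (by fun_prop)
    have h3 : MeasurableSet {p : ℝ × (ℝ × ℝ) | ⟪e, a⟫ * p.1 + ‖wa‖ * p.2.1 +
        (⟪e, b⟫ * p.1 + ⟪f, b⟫ * p.2.1 + ‖wb‖ * p.2.2) ≤ ‖s‖ * p.1} :=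
      measurableSet_le (by fun_prop) (by fun_prop)
    exact h1.inter (h2.inter h3)
  have hle : (gam d).real {x | 0 ≤ ⟪a, x⟫ ∧ 0 ≤ ⟪b, x⟫ ∧ 0 ≤ ⟪c, x⟫} ≤
      (N1.prod (N1.prod N1)).real T := by
    rw [← map_inner_three e f g ho, map_measureReal_apply (by fun_prop) hTm]
    refine measureReal_mono ?_
    intro x hx
    obtain ⟨h1, h2, h3⟩ := hx
    have hu' := hu x
    rw [ha, hb] at hu'
    rw [ha] at h1
    rw [hb] at h2
    refine ⟨h1, h2, ?_⟩
    linarith
  refine hle.trans ?_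
  have hmain : (N1.prod (N1.prod N1)).real T = ∫ Z, (N1.prod N1).real (Prod.mk Z ⁻¹' T) ∂N1 := by
    have h := integral_prod (μ := N1) (ν := N1.prod N1) (T.indicator fun _ => (1 : ℝ))
      ((integrable_const 1).indicator hTm)
    rw [integral_indicator_const _ hTm] at h
    simp only [smul_eq_mul, mul_one] at h
    rw [h]
    refine integral_congr_ae (Filter.Eventually.of_forall fun X => ?_)
    show ∫ Y, (Prod.mk X ⁻¹' T).indicator (fun _ => (1 : ℝ)) Y ∂(N1.prod N1) =
      (N1.prod N1).real (Prod.mk X ⁻¹' T)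
    rw [integral_indicator_const _ (measurable_prodMk_left hTm)]
    simp
  set C := S / (4 * Real.pi * |‖wa‖ * ‖wb‖|) with hC
  have hbound : ∀ Z, (N1.prod N1).real (Prod.mk Z ⁻¹' T) ≤
      C * (Ici (0 : ℝ)).indicator (fun z => z ^ 2) Z := by
    intro Z
    by_cases hZ : 0 ≤ Z
    · rw [indicator_of_mem (mem_Ici.2 hZ)]
      have h := plane_tri ‖wa‖ ⟪f, b⟫ ‖wb‖ (⟪e, a⟫ * Z) (⟪e, b⟫ * Z) (‖s‖ * Z) hwa0 hwb0
        (by positivity)
      refine le_trans (le_of_eq ?_) (h.trans (le_of_eq ?_))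
      · rfl
      · rw [hC, hS_def]; ring
    · rw [indicator_of_notMem (by simpa using hZ), mul_zero]
      have hempty : Prod.mk Z ⁻¹' T = ∅ := by
        ext p
        simp only [hT_def, mem_preimage, mem_ofPred_eq, mem_empty_iff_false, iff_false]
        rintro ⟨h1, h2, h3⟩
        have : ‖s‖ * Z < 0 := mul_neg_of_pos_of_neg
          (lt_of_le_of_ne (norm_nonneg s) (Ne.symm hs0)) (not_le.1 hZ)
        linarith
      rw [hempty, measureReal_empty]
  have hi : Integrable (fun Z => C * (Ici (0 : ℝ)).indicator (fun z => z ^ 2) Z) N1 :=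
    (((IsGaussian.memLp_two_id (μ := N1)).integrable_sq).indicator measurableSet_Ici).const_mul C
  rw [hmain]
  refine (integral_mono_of_nonneg (Filter.Eventually.of_forall fun Z => measureReal_nonneg) hi
    (Filter.Eventually.of_forall hbound)).trans (le_of_eq ?_)
  rw [integral_const_mul, integral_sq_nonneg_half, hC, hS_def, ← hprod',
    abs_of_nonneg (by positivity)]
  field_simp
  ring

end Vale.Agent.P226.Geo
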