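import Vale.Agent.P226.Gauss

/-!
The expected maximum `gPhi` of a Gaussian family, and its elementary properties.
-/

open MeasureTheory ProbabilityTheory Set Filter
open scoped RealInnerProductSpace

namespace Vale.Agent.P226

variable {ι : Type*} {d : ℕ}

/-- The maximum of the linear forms `⟪z i, ·⟫`, `i ∈ R`. -/
noncomputable def gMax (R : Finset ι) (hR : R.Nonempty) (z : ι → Eu d) (x : Eu d) : ℝ :=
  R.sup' hR fun i => ⟪z i, x⟫

/-- Its Gaussian expectation. -/
noncomputable def gPhi (R : Finset ι) (hR : R.Nonempty) (z : ι → Eu d) : ℝ :=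
  ∫ x, gMax R hR z x ∂(gam d)

lemma le_gMax {R : Finset ι} {hR : R.Nonempty} {z : ι → Eu d} {i : ι} (hi : i ∈ R) (x : Eu d) :
    ⟪z i, x⟫ ≤ gMax R hR z x :=
  Finset.le_sup' (fun i => ⟪z i, x⟫) hi

lemma gMax_le {R : Finset ι} {hR : R.Nonempty} {z : ι → Eu d} {x : Eu d} {c : ℝ}
    (h : ∀ i ∈ R, ⟪z i, x⟫ ≤ c) : gMax R hR z x ≤ c :=
  Finset.sup'_le hR _ h

lemma exists_gMax_eq (R : Finset ι) (hR : R.Nonempty) (z : ι → Eu d) (x : Eu d) :
    ∃ i ∈ R, gMax R hR z x = ⟪z i, x⟫ :=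
  Finset.exists_mem_eq_sup' hR _

lemma abs_gMax_le (R : Finset ι) (hR : R.Nonempty) (z : ι → Eu d) (x : Eu d) :
    |gMax R hR z x| ≤ ∑ i ∈ R, |⟪z i, x⟫| := by
  obtain ⟨i, hi, h⟩ := exists_gMax_eq R hR z x
  rw [h]
  exact Finset.single_le_sum (f := fun i => |⟪z i, x⟫|) (fun j _ => abs_nonneg _) hi

lemma continuous_gMax (R : Finset ι) (hR : R.Nonempty) (z : ι → Eu d) :
    Continuous (gMax R hR z) :=
  Continuous.finset_sup'_apply hR fun _ _ => by fun_prop

lemma integrable_gMax (R : Finset ι) (hR : R.Nonempty) (z : ι → Eu d) :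
    Integrable (gMax R hR z) (gam d) := by
  refine Integrable.mono' (integrable_finsetSum R fun i _ => (integrable_inner_gam (z i)).abs)
    (continuous_gMax R hR z).aestronglyMeasurable (ae_of_all _ fun x => ?_)
  exact abs_gMax_le R hR z x

lemma gMax_sub (R : Finset ι) (hR : R.Nonempty) (z : ι → Eu d) (b x : Eu d) :
    gMax R hR (fun i => z i - b) x = gMax R hR z x - ⟪b, x⟫ := by
  refine le_antisymm ?_ ?_
  · refine gMax_le fun i hi => ?_
    rw [inner_sub_left]
    linarith [le_gMax (hR := hR) (z := z) hi x]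
  · obtain ⟨i, hi, h⟩ := exists_gMax_eq R hR z x
    rw [h]
    have := le_gMax (hR := hR) (z := fun i => z i - b) hi x
    rw [inner_sub_left] at this
    linarith

lemma gPhi_sub (R : Finset ι) (hR : R.Nonempty) (z : ι → Eu d) (b : Eu d) :
    gPhi R hR (fun i => z i - b) = gPhi R hR z := by
  unfold gPhi
  simp only [gMax_sub]
  rw [integral_sub (integrable_gMax R hR z) (integrable_inner_gam b), integral_inner_gam, sub_zero]

lemma gMax_map {κ : Type*} (R : Finset κ) (hR : R.Nonempty) (e : κ ↪ ι) (z : ι → Eu d)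
    (x : Eu d) : gMax (R.map e) (hR.map) z x = gMax R hR (fun k => z (e k)) x :=
  Finset.sup'_map (f := e) (fun i => ⟪z i, x⟫) (hR.map)

lemma gPhi_map {κ : Type*} (R : Finset κ) (hR : R.Nonempty) (e : κ ↪ ι) (z : ι → Eu d) :
    gPhi (R.map e) (hR.map) z = gPhi R hR (fun k => z (e k)) := by
  unfold gPhi
  exact integral_congr_ae (ae_of_all _ fun x => gMax_map R hR e z x)

lemma gPhi_isometry {n : ℕ} (R : Finset ι) (hR : R.Nonempty) (T : Eu n →ₗᵢ[ℝ] Eu d)
    (w : ι → Eu n) : gPhi R hR (fun i => T (w i)) = gPhi R hR w := by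
  unfold gPhi
  conv_rhs => rw [← gam_map_adjoint T]
  rw [integral_map (ContinuousLinearMap.continuous _).measurable.aemeasurable
    (continuous_gMax R hR w).aestronglyMeasurable]
  refine integral_congr_ae (ae_of_all _ fun x => ?_)
  simp only [gMax]
  refine Finset.sup'_congr hR rfl fun i _ => ?_
  exact (ContinuousLinearMap.adjoint_inner_right T.toContinuousLinearMap (w i) x).symm

lemma gPhi_smul (R : Finset ι) (hR : R.Nonempty) (z : ι → Eu d) {a : ℝ} (ha : 0 ≤ a) :
    gPhi R hR (fun i => a • z i) = a * gPhi R hR z := by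
  unfold gPhi
  rw [← integral_const_mul]
  refine integral_congr_ae (ae_of_all _ fun x => ?_)
  simp only [gMax, real_inner_smul_left]
  exact (Finset.mul₀_sup' ha (fun i => ⟪z i, x⟫) R hR).symm

lemma abs_gPhi_sub_le (R : Finset ι) (hR : R.Nonempty) (z w : ι → Eu d) :
    |gPhi R hR z - gPhi R hR w| ≤ (∫ x, ‖x‖ ∂(gam d)) * ∑ i ∈ R, ‖z i - w i‖ := by
  have key : ∀ (p q : ι → Eu d) (x : Eu d),
      gMax R hR p x - gMax R hR q x ≤ ‖x‖ * ∑ i ∈ R, ‖p i - q i‖ := by
    intro p q x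
    obtain ⟨i, hi, h⟩ := exists_gMax_eq R hR p x
    have h2 := le_gMax (hR := hR) (z := q) hi x
    have h3 : ⟪p i - q i, x⟫ ≤ ‖p i - q i‖ * ‖x‖ := real_inner_le_norm _ _
    have h4 : ‖p i - q i‖ ≤ ∑ j ∈ R, ‖p j - q j‖ :=
      Finset.single_le_sum (f := fun j => ‖p j - q j‖) (fun j _ => norm_nonneg _) hi
    rw [inner_sub_left] at h3
    nlinarith [norm_nonneg x]
  have hn : Integrable (fun x : Eu d => ‖x‖) (gam d) := IsGaussian.integrable_id.norm
  rw [gPhi, gPhi, ← integral_sub (integrable_gMax R hR z) (integrable_gMax R hR w),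
    ← integral_mul_const]
  refine (abs_integral_le_integral_abs).trans (integral_mono_of_nonneg
    (ae_of_all _ fun x => abs_nonneg _) (hn.mul_const _) (ae_of_all _ fun x => ?_))
  have h1 := key z w x
  have h2 := key w z x
  simp only [norm_sub_rev (w _)] at h2
  exact abs_le.2 ⟨by linarith, h1⟩

lemma continuous_gPhi [Fintype ι] (R : Finset ι) (hR : R.Nonempty) :
    Continuous fun z : ι → Eu d => gPhi R hR z := by
  refine continuous_iff_continuousAt.2 fun z => ?_
  refine continuousAt_of_locally_lipschitz one_pos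
    ((∫ x, ‖x‖ ∂(gam d)) * R.card) fun y _ => ?_
  rw [Real.dist_eq]
  refine (abs_gPhi_sub_le R hR y z).trans ?_
  rw [mul_assoc]
  refine mul_le_mul_of_nonneg_left ?_ (integral_nonneg fun x => norm_nonneg x)
  have : ∀ i ∈ R, ‖y i - z i‖ ≤ dist y z := by
    intro i _
    rw [← dist_eq_norm]
    exact dist_le_pi_dist y z i
  simpa using Finset.sum_le_card_nsmul R _ _ this

lemma inner_setIntegral_gam (A : Set (Eu d)) (v : Eu d) :
    ⟪v, ∫ x in A, x ∂(gam d)⟫ = ∫ x in A, ⟪v, x⟫ ∂(gam d) :=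
  (integral_inner (IsGaussian.integrable_id.integrableOn) v).symm

/-- A partition indexed by `ι` certifies a lower bound on `gPhi`. -/
lemma sum_inner_le_gPhi [Fintype ι] (R : Finset ι) (hR : R.Nonempty) (z w : ι → Eu d)
    (A : ι → Set (Eu d)) (hA : ∀ i, MeasurableSet (A i))
    (hd : Pairwise fun i j => AEDisjoint (gam d) (A i) (A j))
    (hc : (⋃ i, A i) =ᵐ[gam d] univ)
    (hw : ∀ i, ∀ x, ⟪w i, x⟫ ≤ gMax R hR z x) :
    ∑ i, ⟪w i, ∫ x in A i, x ∂(gam d)⟫ ≤ gPhi R hR z := by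
  have h : ∫ x in ⋃ i, A i, gMax R hR z x ∂(gam d) =
      ∑' i, ∫ x in A i, gMax R hR z x ∂(gam d) :=
    integral_iUnion_ae (fun i => (hA i).nullMeasurableSet) hd (integrable_gMax R hR z).integrableOn
  rw [setIntegral_congr_set hc, setIntegral_univ, tsum_fintype] at h
  rw [gPhi, h]
  refine Finset.sum_le_sum fun i _ => ?_
  rw [inner_setIntegral_gam]
  exact setIntegral_mono (integrable_inner_gam _).integrableOn
    (integrable_gMax R hR z).integrableOn (hw i)

end Vale.Agent.P226
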