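import Vale.Agent.P226.Crit
import Vale.Agent.P226.GeomTri

/-!
The cases of at most three vectors, and the propeller bound from the impossibility of critical
configurations.
-/

open MeasureTheory ProbabilityTheory Set
open scoped RealInnerProductSpace

namespace Vale.Agent.P226

lemma gMax_neg_eq {ι : Type*} {d : ℕ} (R : Finset ι) (hR : R.Nonempty) (z : ι → Eu d) (x : Eu d) :
    gMax R hR z (-x) = -(R.inf' hR fun i => ⟪z i, x⟫) := by
  obtain ⟨j, hj, hjx⟩ := exists_gMax_eq R hR z (-x)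
  obtain ⟨i, hi, hix⟩ := Finset.exists_mem_eq_inf' hR (fun i => ⟪z i, x⟫)
  refine le_antisymm ?_ ?_
  · rw [hjx, inner_neg_right]
    exact neg_le_neg (Finset.inf'_le _ hj)
  · rw [hix, ← inner_neg_right]
    exact le_gMax hi (-x)

lemma gpdf_zero_sq : gpdf 0 ^ 2 = 1 / (2 * Real.pi) := by
  have h : gpdf 0 = (Real.sqrt (2 * Real.pi))⁻¹ := by simp [gpdf]
  rw [h, inv_pow, Real.sq_sqrt (by positivity), one_div]

lemma integral_max_inner {d : ℕ} (w : Eu d) :
    ∫ x, max ⟪w, x⟫ 0 ∂(gam d) = ‖w‖ * gpdf 0 := by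
  rcases eq_or_ne w 0 with rfl | hw
  · simp
  have he : ‖‖w‖⁻¹ • w‖ = 1 := by simp [norm_smul, hw]
  have h : ∀ x, max ⟪w, x⟫ 0 = ‖w‖ * max (⟪‖w‖⁻¹ • w, x⟫ - 0) 0 := fun x => by
    rw [mul_max_of_nonneg _ _ (norm_nonneg w), mul_zero, sub_zero, real_inner_smul_left,
      ← mul_assoc, mul_inv_cancel₀ (norm_ne_zero_iff.2 hw), one_mul]
  simp only [h]
  rw [integral_const_mul]
  congr 1
  have h2 := Geo.integral_pos_shift 0
  rw [← Geo.map_inner_one _ he, integral_map (by fun_prop) (by fun_prop), zero_mul, sub_zero] at h2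
  exact h2

lemma integral_abs_inner {d : ℕ} (w : Eu d) :
    ∫ x, |⟪w, x⟫| ∂(gam d) = 2 * ‖w‖ * gpdf 0 := by
  have h : ∀ x : Eu d, |⟪w, x⟫| = 2 * max ⟪w, x⟫ 0 - ⟪w, x⟫ := fun x => by
    rcases le_total 0 ⟪w, x⟫ with h | h
    · rw [max_eq_left h, abs_of_nonneg h]; ring
    · rw [max_eq_right h, abs_of_nonpos h]; ring
  simp only [h]
  rw [integral_sub ((integrable_inner_gam w).pos_part.const_mul 2) (integrable_inner_gam w),
    integral_const_mul, integral_max_inner, integral_inner_gam]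
  ring

lemma max_sub_min_three (a b c : ℝ) :
    max (max a b) c - min (min a b) c = (|a - b| + |b - c| + |c - a|) / 2 := by
  rcases le_total a b with h | h <;> rcases le_total b c with h' | h' <;>
    rcases le_total c a with h'' | h'' <;>
    simp only [max_def, min_def, abs_of_nonneg, abs_of_nonpos, sub_nonneg, sub_nonpos, h, h', h''] <;>
    split_ifs <;> linarith

lemma gPhi_three {d : ℕ} (z : Fin 3 → Eu d) :
    gPhi Finset.univ Finset.univ_nonempty z =
      (‖z 0 - z 1‖ + ‖z 1 - z 2‖ + ‖z 2 - z 0‖) * gpdf 0 / 2 := by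
  have hmax : ∀ x, gMax Finset.univ Finset.univ_nonempty z x =
      max (max ⟪z 0, x⟫ ⟪z 1, x⟫) ⟪z 2, x⟫ := fun x => by
    refine le_antisymm (gMax_le fun i _ => ?_)
      (max_le (max_le (le_gMax (Finset.mem_univ _) x) (le_gMax (Finset.mem_univ _) x))
        (le_gMax (Finset.mem_univ _) x))
    fin_cases i <;> simp
  have hneg : MeasurePreserving (fun x : Eu d => -x) (gam d) (gam d) :=
    ⟨measurable_neg, stdGaussian_map (LinearIsometryEquiv.neg ℝ)⟩
  have h2 : gPhi Finset.univ Finset.univ_nonempty z =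
      ∫ x, gMax Finset.univ Finset.univ_nonempty z (-x) ∂(gam d) :=
    (hneg.integral_comp (MeasurableEquiv.neg (Eu d)).measurableEmbedding _).symm
  have hi : Integrable (fun x => gMax Finset.univ Finset.univ_nonempty z x) (gam d) :=
    integrable_gMax _ _ _
  have hi' : Integrable (fun x => gMax Finset.univ Finset.univ_nonempty z (-x)) (gam d) :=
    hneg.integrable_comp_of_integrable hi
  have hsum : ∀ x, gMax Finset.univ Finset.univ_nonempty z x +
      gMax Finset.univ Finset.univ_nonempty z (-x) =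
        (|⟪z 0 - z 1, x⟫| + |⟪z 1 - z 2, x⟫| + |⟪z 2 - z 0, x⟫|) / 2 := fun x => by
    rw [hmax, hmax]
    simp only [inner_neg_right, max_neg_neg, inner_sub_left]
    rw [← max_sub_min_three]
    ring
  have h3 : 2 * gPhi Finset.univ Finset.univ_nonempty z =
      ∫ x, (|⟪z 0 - z 1, x⟫| + |⟪z 1 - z 2, x⟫| + |⟪z 2 - z 0, x⟫|) / 2 ∂(gam d) := by
    simp only [← hsum]
    rw [integral_add hi hi', ← h2, two_mul]
    rfl
  have iA : ∀ w : Eu d, Integrable (fun x => |⟪w, x⟫|) (gam d) := fun w =>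
    (integrable_inner_gam w).abs
  rw [integral_div, integral_add ((iA _).fun_add (iA _)) (iA _), integral_add (iA _) (iA _),
    integral_abs_inner, integral_abs_inner, integral_abs_inner] at h3
  linarith

lemma three_bound {d : ℕ} (z : Fin 3 → Eu d) :
    gPhi Finset.univ Finset.univ_nonempty z ≤ Real.sqrt c2 * Real.sqrt (∑ i, ‖z i‖ ^ 2) := by
  rw [gPhi_three, ← Real.sqrt_mul c2_pos.le, Fin.sum_univ_three]
  set L := ‖z 0 - z 1‖ + ‖z 1 - z 2‖ + ‖z 2 - z 0‖ with hL
  have h1 : L ^ 2 ≤ 3 * (‖z 0 - z 1‖ ^ 2 + ‖z 1 - z 2‖ ^ 2 + ‖z 2 - z 0‖ ^ 2) := by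
    rw [hL]
    nlinarith [sq_nonneg (‖z 0 - z 1‖ - ‖z 1 - z 2‖), sq_nonneg (‖z 1 - z 2‖ - ‖z 2 - z 0‖),
      sq_nonneg (‖z 2 - z 0‖ - ‖z 0 - z 1‖)]
  have h2 : ‖z 0 - z 1‖ ^ 2 + ‖z 1 - z 2‖ ^ 2 + ‖z 2 - z 0‖ ^ 2 ≤
      3 * (‖z 0‖ ^ 2 + ‖z 1‖ ^ 2 + ‖z 2‖ ^ 2) := by
    have h := sq_nonneg ‖z 0 + z 1 + z 2‖
    simp only [norm_sub_sq_real]
    simp only [norm_add_sq_real, inner_add_left] at h
    rw [real_inner_comm (z 2) (z 0)] at h
    linarith
  refine Real.le_sqrt_of_sq_le ?_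
  have hp : gpdf 0 ^ 2 = 1 / (2 * Real.pi) := gpdf_zero_sq
  rw [div_pow, mul_pow, hp, c2]
  have hpi := Real.pi_pos
  calc L ^ 2 * (1 / (2 * Real.pi)) / 2 ^ 2
      ≤ 9 * (‖z 0‖ ^ 2 + ‖z 1‖ ^ 2 + ‖z 2‖ ^ 2) * (1 / (2 * Real.pi)) / 2 ^ 2 := by
        gcongr; linarith
    _ = _ := by ring

theorem propBound_small (k : ℕ) (hk : k ≤ 3) : PropBound k := by
  intro d z h
  interval_cases k
  · exact absurd h (by simp)
  · have : gPhi Finset.univ h z = 0 := by
      have he : ∀ x, gMax Finset.univ h z x = ⟪z 0, x⟫ := fun x =>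
        le_antisymm (gMax_le fun i _ => by rw [Subsingleton.elim i 0])
          (le_gMax (Finset.mem_univ _) x)
      simp only [gPhi, he, integral_inner_gam]
    rw [this]
    positivity
  · have he : ∀ x, gMax Finset.univ h z x =
        ⟪(2 : ℝ)⁻¹ • (z 0 + z 1), x⟫ + |⟪(2 : ℝ)⁻¹ • (z 0 - z 1), x⟫| := fun x => by
      have hm : gMax Finset.univ h z x = max ⟪z 0, x⟫ ⟪z 1, x⟫ := by
        refine le_antisymm (gMax_le fun i _ => ?_)
          (max_le (le_gMax (Finset.mem_univ _) x) (le_gMax (Finset.mem_univ _) x))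
        fin_cases i <;> simp
      rw [hm, real_inner_smul_left, real_inner_smul_left, inner_add_left, inner_sub_left,
        abs_mul, max_def]
      norm_num
      split_ifs with h'
      · rw [abs_of_nonpos (sub_nonpos.2 h')]; ring
      · rw [abs_of_nonneg (by linarith : 0 ≤ ⟪z 0, x⟫ - ⟪z 1, x⟫)]; ring
    simp only [gPhi, he]
    rw [integral_add (integrable_inner_gam _) (integrable_inner_gam _).abs, integral_inner_gam,
      integral_abs_inner, zero_add, ← Real.sqrt_mul c2_pos.le, Fin.sum_univ_two, norm_smul]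
    refine Real.le_sqrt_of_sq_le ?_
    have hp : gpdf 0 ^ 2 = 1 / (2 * Real.pi) := gpdf_zero_sq
    have h2 : ‖z 0 - z 1‖ ^ 2 ≤ 2 * (‖z 0‖ ^ 2 + ‖z 1‖ ^ 2) := by
      have h := sq_nonneg ‖z 0 + z 1‖
      rw [norm_add_sq_real] at h
      rw [norm_sub_sq_real]
      linarith
    have hpi := Real.pi_pos
    rw [c2, mul_pow, mul_pow, mul_pow, hp]
    norm_num
    calc 4 * (1 / 4 * ‖z 0 - z 1‖ ^ 2) * (Real.pi⁻¹ * (1 / 2))
        ≤ 4 * (1 / 4 * (2 * (‖z 0‖ ^ 2 + ‖z 1‖ ^ 2))) * (Real.pi⁻¹ * (1 / 2)) := by gcongr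
      _ = 8 * (‖z 0‖ ^ 2 + ‖z 1‖ ^ 2) * (8 * Real.pi)⁻¹ := by ring
      _ ≤ 9 * (‖z 0‖ ^ 2 + ‖z 1‖ ^ 2) * (8 * Real.pi)⁻¹ := by gcongr; norm_num
      _ = _ := by ring
  · exact three_bound z

theorem propBound_all (h : ∀ n, 3 ≤ n → Crit n → False) : ∀ k, PropBound k := by
  intro k
  induction k using Nat.strong_induction_on with
  | _ k ih =>
    by_cases hk : k ≤ 3
    · exact propBound_small k hk
    obtain ⟨n, rfl⟩ : ∃ n, k = n + 1 := ⟨k - 1, by omega⟩
    exact propBound_succ (by omega) (fun j hj => ih j (by omega)) (h n (by omega))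

theorem propeller_of_crit (h : ∀ n, 3 ≤ n → Crit n → False) :
    ∀ (d k : ℕ) (A : Fin k → Set (Eu d)), (∀ i, MeasurableSet (A i)) →
      Pairwise (fun i j => AEDisjoint (gam d) (A i) (A j)) →
      ∑ i, ‖∫ x in A i, x ∂(gam d)‖ ^ 2 ≤ 9 / (8 * Real.pi) := by
  intro d k A hA hd
  set z : Fin (k + 1) → Eu d := Fin.snoc (fun i => ∫ x in A i, x ∂(gam d)) 0 with hz
  set B : Fin (k + 1) → Set (Eu d) := Fin.snoc A (⋃ i, A i)ᶜ with hB
  have hBm : ∀ i, MeasurableSet (B i) := by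
    intro i
    induction i using Fin.lastCases with
    | last => simpa [hB] using (MeasurableSet.iUnion hA).compl
    | cast j => simpa [hB] using hA j
  have hlast : ∀ j, AEDisjoint (gam d) (A j) (⋃ i, A i)ᶜ := fun j =>
    (disjoint_compl_right.mono_left (subset_iUnion A j)).aedisjoint
  have hBd : Pairwise fun i j => AEDisjoint (gam d) (B i) (B j) := by
    intro i j hij
    induction i using Fin.lastCases with
    | last =>
      induction j using Fin.lastCases with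
      | last => exact absurd rfl hij
      | cast j => simpa [hB] using (hlast j).symm
    | cast i =>
      induction j using Fin.lastCases with
      | last => simpa [hB] using hlast i
      | cast j => simpa [hB] using hd (fun he => hij (by rw [he]))
  have hcov : (⋃ i, B i) = univ := by
    refine eq_univ_of_forall fun x => ?_
    by_cases hx : x ∈ ⋃ i, A i
    · obtain ⟨i, hi⟩ := mem_iUnion.1 hx
      exact mem_iUnion.2 ⟨i.castSucc, by simpa [hB] using hi⟩
    · exact mem_iUnion.2 ⟨Fin.last k, by simpa [hB] using hx⟩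
  have hne : (Finset.univ : Finset (Fin (k + 1))).Nonempty := Finset.univ_nonempty
  have hlow := sum_inner_le_gPhi Finset.univ hne z z B hBm hBd (Filter.EventuallyEq.of_eq hcov)
    fun i x => le_gMax (Finset.mem_univ i) x
  have hup := propBound_all h (k + 1) d z hne
  set F := ∑ i, ‖∫ x in A i, x ∂(gam d)‖ ^ 2 with hF
  have e1 : ∑ i, ⟪z i, ∫ x in B i, x ∂(gam d)⟫ = F := by
    simp [Fin.sum_univ_castSucc, hz, hB, hF]
  have e2 : ∑ i, ‖z i‖ ^ 2 = F := by simp [Fin.sum_univ_castSucc, hz, hF]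
  rw [e1] at hlow
  rw [e2] at hup
  have hF0 : 0 ≤ F := Finset.sum_nonneg fun i _ => sq_nonneg _
  have h1 := hlow.trans hup
  have h2 : F ≤ c2 := by
    by_contra hc
    push Not at hc
    have : Real.sqrt c2 * Real.sqrt F < Real.sqrt F * Real.sqrt F :=
      mul_lt_mul_of_pos_right (Real.sqrt_lt_sqrt c2_pos.le hc) (Real.sqrt_pos.2 (c2_pos.trans hc))
    rw [Real.mul_self_sqrt hF0] at this
    linarith
  exact h2

end Vale.Agent.P226
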