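import Vale.Agent.P226.Tests
import Vale.Agent.P226.Bounds

/-!
The facts about a critical configuration used in the case analysis.
-/

open MeasureTheory ProbabilityTheory Set Filter
open scoped RealInnerProductSpace

namespace Vale.Agent.P226.Crit

variable {n : ℕ} (C : Crit n)

lemma c2_lo : (0.358098 : ℝ) ≤ c2 := by
  unfold c2
  rw [le_div_iff₀ (by positivity)]
  nlinarith [Real.pi_lt_d6]

lemma total_gt : 0.358098 < ∑ i, C.s i := c2_lo.trans_lt C.gt

lemma m_le_one (i : Fin (n + 1)) : C.m i ≤ 1 := measureReal_le_one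

lemma m_nonneg (i : Fin (n + 1)) : 0 ≤ C.m i := measureReal_nonneg

lemma s_nonneg (i : Fin (n + 1)) : 0 ≤ C.s i := sq_nonneg _

lemma feas (hE : EhrhardProp) (hH : HalfspaceProp) (hn : 3 ≤ n) (i : Fin (n + 1)) :
    Feas (C.m i) (C.s i) := by
  have hn1 : 1 ≤ n := by omega
  refine ⟨C.s_nonneg i, C.u hn1 i, C.gQ_u hn1 i, ?_, C.s_le_sq hH hn1 i⟩
  refine le_trans ?_ (C.s_gh hE hH hn i)
  have h1 : (1:ℝ) ≤ ((n:ℝ) + 1) / n := by
    rw [le_div_iff₀ (by positivity)]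
    linarith
  have h2 : 0.349065 ≤ 1 / (8 * c2) := by
    unfold c2
    field_simp
    nlinarith [Real.pi_gt_d6]
  have h3 : 0.349065 * C.s i ^ 2 ≤ ((n:ℝ) + 1) / n * C.s i ^ 2 / (8 * c2) := by
    calc 0.349065 * C.s i ^ 2 ≤ 1 / (8 * c2) * C.s i ^ 2 :=
          mul_le_mul_of_nonneg_right h2 (sq_nonneg _)
      _ = 1 * C.s i ^ 2 / (8 * c2) := by ring
      _ ≤ _ := by gcongr; linarith [c2_pos]
  linarith

/-- The cells other than three given ones. -/
def rest (a b e : Fin (n + 1)) : Finset (Fin (n + 1)) := ((Finset.univ.erase a).erase b).erase e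

lemma mem_rest {a b e j : Fin (n + 1)} : j ∈ rest a b e ↔ j ≠ a ∧ j ≠ b ∧ j ≠ e := by
  simp [rest]
  tauto

lemma split3 {a b e : Fin (n + 1)} (hab : a ≠ b) (hae : a ≠ e) (hbe : b ≠ e)
    (f : Fin (n + 1) → ℝ) : ∑ i, f i = f a + f b + f e + ∑ j ∈ rest a b e, f j := by
  rw [← Finset.add_sum_erase _ f (Finset.mem_univ a),
    ← Finset.add_sum_erase _ f (by simp [hab.symm] : b ∈ Finset.univ.erase a),
    ← Finset.add_sum_erase _ f
      (by simp [hae.symm, hbe.symm] : e ∈ (Finset.univ.erase a).erase b)]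
  simp only [rest]
  ring

lemma card_rest {a b e : Fin (n + 1)} (hab : a ≠ b) (hae : a ≠ e) (hbe : b ≠ e) :
    (rest a b e).card + 3 = n + 1 := by
  have h1 : b ∈ Finset.univ.erase a := by simp [hab.symm]
  have h2 : e ∈ (Finset.univ.erase a).erase b := by simp [hae.symm, hbe.symm]
  have := Finset.card_erase_add_one h2
  have := Finset.card_erase_add_one h1
  have := Finset.card_erase_add_one (Finset.mem_univ a)
  simp only [rest, Finset.card_univ, Fintype.card_fin] at *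
  omega

lemma exists_top (hn : 2 ≤ n) : ∃ a b e : Fin (n + 1), a ≠ b ∧ a ≠ e ∧ b ≠ e ∧
    C.m e ≤ C.m b ∧ C.m b ≤ C.m a ∧ ∀ j ∈ rest a b e, C.m j ≤ C.m e := by
  obtain ⟨a, -, ha⟩ := Finset.exists_max_image Finset.univ C.m Finset.univ_nonempty
  have c1 := Finset.card_erase_add_one (Finset.mem_univ a)
  simp only [Finset.card_univ, Fintype.card_fin] at c1
  obtain ⟨b, hb, hb'⟩ := Finset.exists_max_image (Finset.univ.erase a) C.m
    (Finset.card_pos.1 (by omega))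
  have c2 := Finset.card_erase_add_one hb
  obtain ⟨e, he, he'⟩ := Finset.exists_max_image ((Finset.univ.erase a).erase b) C.m
    (Finset.card_pos.1 (by omega))
  simp only [Finset.mem_erase, Finset.mem_univ, and_true] at hb he
  refine ⟨a, b, e, hb.symm, he.2.symm, he.1.symm, hb' e (by simp [he.2]), ha b (Finset.mem_univ b),
    fun j hj => he' j ?_⟩
  obtain ⟨h1, h2, -⟩ := mem_rest.1 hj
  simp [h1, h2]

lemma sum_s_le {S : Finset (Fin (n + 1))} {p : ℝ} (h : ∀ j ∈ S, C.s j ≤ p * C.m j) :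
    ∑ j ∈ S, C.s j ≤ p * ∑ j ∈ S, C.m j := by
  rw [Finset.mul_sum]
  exact Finset.sum_le_sum h

/-- The third largest cell is large. -/
lemma muStar_lt_third (hE : EhrhardProp) (hH : HalfspaceProp) (hn : 3 ≤ n) {a b e : Fin (n + 1)}
    (hab : a ≠ b) (hae : a ≠ e) (hbe : b ≠ e) (h : ∀ j ∈ rest a b e, C.m j ≤ C.m e) :
    muStar < C.m e := by
  by_contra hc
  push Not at hc
  have hp : ∀ i, C.s i ≤ 0.2404 * C.m i + 0.0539 := by
    intro i
    have := C.m_nonneg i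
    rcases le_total (C.m i) muStar with h1 | h1
    · linarith [(C.feas hE hH hn i).le_rs h1]
    · linarith [(C.feas hE hH hn i).tan316 h1]
  have hs := C.sum_s_le fun j hj => (C.feas hE hH hn j).le_rs ((h j hj).trans hc)
  have he := (C.feas hE hH hn e).le_rs hc
  have h1 := C.total_gt
  have h2 := C.sum_m
  rw [split3 hab hae hbe] at h1 h2
  linarith [hp a, hp b]

lemma triQ_identity (sa sb se cab cae cbe : ℝ) :
    triQ sa sb se cab cae cbe =
      2.25 * (sa + sb + se) ^ 2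
        - 2.5 * (sa + sb + se) * ((sa - cab - cae) + (sb - cab - cbe) + (se - cae - cbe))
        + 0.75 * ((sa - cab - cae) + (sb - cab - cbe) + (se - cae - cbe)) ^ 2
        - 4.5 * (sa ^ 2 + sb ^ 2 + se ^ 2)
        + 6 * (sa * (sa - cab - cae) + sb * (sb - cab - cbe) + se * (se - cae - cbe))
        - 2 * ((sa - cab - cae) ^ 2 + (sb - cab - cbe) ^ 2 + (se - cae - cbe) ^ 2) := by
  unfold triQ
  ring

lemma sum_cross_le {a b e : Fin (n + 1)} (hab : a ≠ b) (hae : a ≠ e) (hbe : b ≠ e) :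
    0 ≤ C.s a - C.c a b - C.c a e ∧
      (C.s a - C.c a b - C.c a e) + (C.s b - C.c a b - C.c b e) + (C.s e - C.c a e - C.c b e) ≤
        ∑ j ∈ rest a b e, C.s j := by
  have key : ∀ x y w : Fin (n + 1), x ≠ y → x ≠ w → y ≠ w →
      C.s x = C.c x y + C.c x w + ∑ j ∈ rest x y w, C.c x j := by
    intro x y w hxy hxw hyw
    rw [← C.sum_c x, ← Finset.add_sum_erase _ _ (by simp [hxy.symm] : y ∈ Finset.univ.erase x),
      ← Finset.add_sum_erase _ _
        (by simp [hxw.symm, hyw.symm] : w ∈ (Finset.univ.erase x).erase y)]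
    simp only [rest]
    ring
  have e1 : rest b a e = rest a b e := by
    ext j
    simp only [mem_rest]
    tauto
  have e2 : rest e a b = rest a b e := by
    ext j
    simp only [mem_rest]
    tauto
  have ka := key a b e hab hae hbe
  have kb := key b a e hab.symm hbe hae
  have ke := key e a b hae.symm hbe.symm hab
  rw [e1, C.c_comm b a] at kb
  rw [e2, C.c_comm e a, C.c_comm e b] at ke
  have h0 : 0 ≤ ∑ j ∈ rest a b e, C.c a j :=
    Finset.sum_nonneg fun j hj => (C.c_pos (mem_rest.1 hj).1.symm).le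
  refine ⟨by linarith, ?_⟩
  have h1 : ∑ j ∈ rest a b e, (C.c a j + C.c b j + C.c e j) ≤ ∑ j ∈ rest a b e, C.s j := by
    refine Finset.sum_le_sum fun j hj => ?_
    obtain ⟨ja, jb, je⟩ := mem_rest.1 hj
    rw [← C.sum_c j]
    refine le_trans (le_of_eq ?_) (Finset.sum_le_sum_of_subset_of_nonneg
      (s := ({a, b, e} : Finset (Fin (n + 1)))) ?_ fun i hi _ =>
        (C.c_pos (Finset.ne_of_mem_erase hi).symm).le)
    · simp [hab, hae, hbe, C.c_comm j, add_assoc]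
    · intro i hi
      simp only [Finset.mem_insert, Finset.mem_singleton] at hi
      rcases hi with rfl | rfl | rfl <;> simp [Ne.symm ja, Ne.symm jb, Ne.symm je]
  simp only [Finset.sum_add_distrib] at h1
  linarith

/-- Lower bound for the centred triangle of three cells. -/
lemma triQ_ge {a b e : Fin (n + 1)} (hab : a ≠ b) (hae : a ≠ e) (hbe : b ≠ e) {l σ r : ℝ}
    (hla : l ≤ C.s a) (hlb : l ≤ C.s b) (hle : l ≤ C.s e)
    (hσ : C.s a ^ 2 + C.s b ^ 2 + C.s e ^ 2 ≤ σ) (hr : ∑ j ∈ rest a b e, C.s j ≤ r)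
    (hr1 : r ≤ 0.358098 / 2) (hbr : 0 ≤ 2.5 * (0.358098 - r) - 6 * l + 1.25 * r) :
    2.25 * (0.358098 - r) ^ 2 - r * (2.5 * (0.358098 - r) - 6 * l + 1.25 * r) - 4.5 * σ ≤
      triQ (C.s a) (C.s b) (C.s e) (C.c a b) (C.c a e) (C.c b e) := by
  obtain ⟨ha, hsum⟩ := C.sum_cross_le hab hae hbe
  have hb := (C.sum_cross_le hab.symm hbe hae).1
  have he := (C.sum_cross_le hae.symm hbe.symm hab).1
  rw [C.c_comm b a] at hb
  rw [C.c_comm e a, C.c_comm e b] at he
  have hF := C.total_gt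
  rw [split3 hab hae hbe] at hF
  rw [triQ_identity]
  set ea := C.s a - C.c a b - C.c a e
  set eb := C.s b - C.c a b - C.c b e
  set ee := C.s e - C.c a e - C.c b e
  set S := C.s a + C.s b + C.s e with hSdef
  set E := ea + eb + ee with hEdef
  have hE0 : 0 ≤ E := by positivity
  have hEr : E ≤ r := hsum.trans hr
  have h1 : l * E ≤ C.s a * ea + C.s b * eb + C.s e * ee := by
    have e1 := mul_le_mul_of_nonneg_right hla ha
    have e2 := mul_le_mul_of_nonneg_right hlb hb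
    have e3 := mul_le_mul_of_nonneg_right hle he
    rw [hEdef]
    linarith
  have h2 : ea ^ 2 + eb ^ 2 + ee ^ 2 ≤ E ^ 2 := by
    have e1 := mul_nonneg ha hb
    have e2 := mul_nonneg ha he
    have e3 := mul_nonneg hb he
    rw [hEdef]
    linarith
  have hS : 0.358098 - r ≤ S := by linarith
  have hr0 : 0 ≤ r := hE0.trans hEr
  have h3 : (0:ℝ) ≤ (S - (0.358098 - r)) * (2.25 * (S + (0.358098 - r)) - 2.5 * E) :=
    mul_nonneg (sub_nonneg.2 hS) (by linarith)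
  have h4 : E * (2.5 * (0.358098 - r) - 6 * l + 1.25 * E) ≤
      r * (2.5 * (0.358098 - r) - 6 * l + 1.25 * r) := by
    have e1 := mul_nonneg (sub_nonneg.2 hEr) hbr
    have e2 := mul_nonneg hE0 (sub_nonneg.2 hEr)
    linarith
  linarith

lemma tail_div_le {Q K q : ℝ} (hq0 : 0 < q) (hq : q ^ 2 ≤ Q) (hK0 : 0 ≤ K)
    (h : 27 ≤ 12.5663 * q * K) : 27 / (4 * Real.pi * Real.sqrt Q) ≤ K := by
  have h1 : q ≤ Real.sqrt Q := Real.le_sqrt_of_sq_le hq
  rw [div_le_iff₀ (mul_pos (by positivity) (hq0.trans_le h1))]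
  have h2 : 12.5663 * q ≤ 4 * Real.pi * Real.sqrt Q :=
    mul_le_mul (by nlinarith [Real.pi_gt_d6]) h1 hq0.le (by positivity)
  nlinarith

/-- Three cells with a quantitative triangle, for use with the small-rest test. -/
structure Tri (a b e : Fin (n + 1)) (K : ℝ) : Prop where
  ab : a ≠ b
  ae : a ≠ e
  be : b ≠ e
  test : ∀ S : Finset (Fin (n + 1)), S.Nonempty → a ∉ S → b ∉ S → e ∉ S → ∀ r, 0 ≤ r →
    r * (∑ i ∈ S, C.m i) - K * r ^ 3 / 3 ≤
      (5 / 6 - 1 / (2 * ((n:ℝ) + 1 - S.card))) * ∑ i ∈ S, C.s i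

lemma Tri.mk' (hB : BathtubProp) (hT : TriangleProp) {a b e : Fin (n + 1)} (hab : a ≠ b)
    (hae : a ≠ e) (hbe : b ≠ e) {Q K : ℝ} (hQ0 : 0 < Q)
    (hQ : Q ≤ triQ (C.s a) (C.s b) (C.s e) (C.c a b) (C.c a e) (C.c b e))
    (hK : 27 / (4 * Real.pi * Real.sqrt Q) ≤ K) : C.Tri a b e K :=
  ⟨hab, hae, hbe, fun S hS ha hb he r hr =>
    C.rest_test hB hT hab hae hbe S hS ha hb he hQ0 hQ hK hr⟩

/-- A set of cells in the rest cannot consist only of very small cells. -/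
lemma Tri.exists_gt (hE : EhrhardProp) (hH : HalfspaceProp) (hn : 3 ≤ n) {a b e : Fin (n + 1)}
    {K : ℝ} (t : C.Tri a b e K) {S : Finset (Fin (n + 1))} (hSn : S.Nonempty)
    (hS : S ⊆ rest a b e) (co u ρ q : ℝ) (hK : 0 < K)
    (hco : (5 / 6 - 1 / (2 * ((n:ℝ) + 1 - S.card))) ≤ co) (hco0 : 0 ≤ co) (hu : 0 ≤ u)
    (hu3 : 3 ≤ u ^ 2) (hρ : 0 ≤ ρ) (hg : 2 * gh u ≤ ρ * gQ u) (hq : q ≤ gQ u)
    (hnum : co ^ 2 * ρ ^ 2 * K < 4 / 9 * q) : ∃ i ∈ S, gQ u < C.m i := by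
  by_contra hc
  push Not at hc
  set δ := ∑ i ∈ S, C.m i
  have hδ : 0 < δ := Finset.sum_pos (fun i _ => C.m_pos (by omega) i) hSn
  have hsS : (∑ i ∈ S, C.s i) * Real.sqrt (gQ u) ≤ ρ * δ * Real.sqrt δ := by
    rw [Finset.sum_mul]
    calc ∑ i ∈ S, C.s i * Real.sqrt (gQ u) ≤ ∑ i ∈ S, ρ * (C.m i * Real.sqrt δ) := by
          refine Finset.sum_le_sum fun i hi =>
            ((C.feas hE hH hn i).le_tau hu hu3 hρ (hc i hi) hg).trans ?_
          refine mul_le_mul_of_nonneg_left (mul_le_mul_of_nonneg_left ?_ (C.m_nonneg i)) hρ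
          exact Real.sqrt_le_sqrt (Finset.single_le_sum (fun j _ => C.m_nonneg j) hi)
      _ = ρ * δ * Real.sqrt δ := by
          rw [← Finset.mul_sum, ← Finset.sum_mul]
          ring
  have h := t.test S hSn (fun h => (mem_rest.1 (hS h)).1 rfl) (fun h => (mem_rest.1 (hS h)).2.1 rfl)
    (fun h => (mem_rest.1 (hS h)).2.2 rfl) (Real.sqrt δ / Real.sqrt K) (by positivity)
  have hA : 0 < Real.sqrt K := Real.sqrt_pos.2 hK
  have hD : 0 < Real.sqrt δ := Real.sqrt_pos.2 hδ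
  have hG : 0 < Real.sqrt (gQ u) := Real.sqrt_pos.2 (gQ_pos u)
  have hid : Real.sqrt δ / Real.sqrt K * δ - K * (Real.sqrt δ / Real.sqrt K) ^ 3 / 3 =
      2 / 3 * (δ * Real.sqrt δ) / Real.sqrt K := by
    have e1 : Real.sqrt K ^ 3 = K * Real.sqrt K := by rw [pow_succ, Real.sq_sqrt hK.le]
    have e2 : Real.sqrt δ ^ 3 = δ * Real.sqrt δ := by rw [pow_succ, Real.sq_sqrt hδ.le]
    rw [div_pow, e1, e2]
    field_simp
    ring
  rw [hid, div_le_iff₀ hA] at h
  have hs0 : 0 ≤ ∑ i ∈ S, C.s i := Finset.sum_nonneg fun i _ => C.s_nonneg i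
  have h1 := h.trans (mul_le_mul_of_nonneg_right (mul_le_mul_of_nonneg_right hco hs0) hA.le)
  have h2 := mul_le_mul_of_nonneg_right h1 hG.le
  have h3 := mul_le_mul_of_nonneg_left hsS (mul_nonneg hco0 hA.le)
  have h4 : 2 / 3 * Real.sqrt (gQ u) ≤ co * ρ * Real.sqrt K := by
    refine le_of_mul_le_mul_left ?_ (mul_pos hδ hD)
    linarith
  have h5 := pow_le_pow_left₀ (by positivity) h4 2
  rw [mul_pow, mul_pow, mul_pow, Real.sq_sqrt (gQ_pos u).le, Real.sq_sqrt hK.le] at h5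
  linarith

/-- A set of cells in the rest of known total mass cannot consist only of cells below a node. -/
lemma Tri.exists_gt' (hE : EhrhardProp) (hH : HalfspaceProp) (hn : 3 ≤ n) {a b e : Fin (n + 1)}
    {K : ℝ} (t : C.Tri a b e K) {S : Finset (Fin (n + 1))} (hSn : S.Nonempty)
    (hS : S ⊆ rest a b e) (co u ρ r : ℝ) {δ₀ : ℝ} (hδ : δ₀ ≤ ∑ i ∈ S, C.m i)
    (hco : (5 / 6 - 1 / (2 * ((n:ℝ) + 1 - S.card))) ≤ co) (hco0 : 0 ≤ co) (hu : 0 ≤ u)
    (hρ : 0 ≤ ρ) (hg : 2 * gh u ≤ ρ * gQ u) (hr : 0 < r) (hKr : K * r ^ 2 ≤ δ₀)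
    (hnum : co * ρ < 2 / 3 * r) : ∃ i ∈ S, gQ u < C.m i := by
  by_contra hc
  push Not at hc
  set δ := ∑ i ∈ S, C.m i
  have hδp : 0 < δ := Finset.sum_pos (fun i _ => C.m_pos (by omega) i) hSn
  have hsS : ∑ i ∈ S, C.s i ≤ ρ * δ :=
    C.sum_s_le fun i hi => (C.feas hE hH hn i).le_rho hu hρ (hc i hi) hg
  have h := t.test S hSn (fun h => (mem_rest.1 (hS h)).1 rfl) (fun h => (mem_rest.1 (hS h)).2.1 rfl)
    (fun h => (mem_rest.1 (hS h)).2.2 rfl) r hr.le
  have hs0 : 0 ≤ ∑ i ∈ S, C.s i := Finset.sum_nonneg fun i _ => C.s_nonneg i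
  have h1 := h.trans (mul_le_mul_of_nonneg_right hco hs0)
  have h2 := mul_le_mul_of_nonneg_left hsS hco0
  have h3 := mul_le_mul_of_nonneg_left (hKr.trans hδ) hr.le
  have h4 := mul_lt_mul_of_pos_right hnum hδp
  nlinarith

end Vale.Agent.P226.Crit
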