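import Vale.Agent.P226.Gain

/-!
The small-rest test and the four-cell test.
-/

open MeasureTheory ProbabilityTheory Set Filter
open scoped RealInnerProductSpace

namespace Vale.Agent.P226

/-- Nine times the squared Gram determinant of a centred triangle, in the variables `s`, `c`. -/
def triQ (s₁ s₂ s₃ c₁₂ c₁₃ c₂₃ : ℝ) : ℝ :=
  s₁ * s₂ + s₁ * s₃ + s₂ * s₃ + 2 * (s₁ * c₂₃ + s₂ * c₁₃ + s₃ * c₁₂)
    + 2 * (c₁₂ * c₁₃ + c₁₂ * c₂₃ + c₁₃ * c₂₃) - (c₁₂ ^ 2 + c₁₃ ^ 2 + c₂₃ ^ 2)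

lemma triQ_eq {d : ℕ} (p q r : Eu d) :
    let b := (3:ℝ)⁻¹ • (p + q + r)
    ‖p - b‖ ^ 2 * ‖q - b‖ ^ 2 - ⟪p - b, q - b⟫ ^ 2 =
      triQ (‖p‖ ^ 2) (‖q‖ ^ 2) (‖r‖ ^ 2) (-⟪p, q⟫) (-⟪p, r⟫) (-⟪q, r⟫) / 9 := by
  intro b
  simp only [b, triQ, ← real_inner_self_eq_norm_sq, inner_sub_left, inner_sub_right,
    real_inner_smul_left, real_inner_smul_right, inner_add_left, inner_add_right]
  simp only [real_inner_comm q p, real_inner_comm r p, real_inner_comm r q]
  ring

namespace Crit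

variable {n : ℕ} (C : Crit n)

lemma norm_sum_sq_eq (S : Finset (Fin (n + 1))) :
    ‖∑ i ∈ S, C.z i‖ ^ 2 = ∑ i ∈ S, C.s i + ∑ i ∈ S, ∑ j ∈ S.erase i, ⟪C.z i, C.z j⟫ := by
  rw [← real_inner_self_eq_norm_sq]
  simp only [sum_inner, inner_sum]
  rw [← Finset.sum_add_distrib]
  refine Finset.sum_congr rfl fun i hi => ?_
  rw [← Finset.add_sum_erase _ _ hi, real_inner_self_eq_norm_sq]
  simp only [s]
  congr 1
  exact Finset.sum_congr rfl fun j _ => real_inner_comm _ _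

lemma norm_sum_sq_le (S : Finset (Fin (n + 1))) :
    ‖∑ i ∈ S, C.z i‖ ^ 2 ≤ ∑ i ∈ S, C.s i := by
  rw [C.norm_sum_sq_eq S]
  have : ∑ i ∈ S, ∑ j ∈ S.erase i, ⟪C.z i, C.z j⟫ ≤ 0 :=
    Finset.sum_nonpos fun i _ => Finset.sum_nonpos fun j hj =>
      (C.inner_neg_of_ne (Finset.ne_of_mem_erase hj).symm).le
  linarith

/-- The small-rest test: `S` is the rest, `a`, `b`, `e` three cells outside it. -/
theorem rest_test (hB : BathtubProp) (hT : TriangleProp) {a b e : Fin (n + 1)} (hab : a ≠ b)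
    (hae : a ≠ e) (hbe : b ≠ e) (S : Finset (Fin (n + 1))) (hSn : S.Nonempty) (ha : a ∉ S)
    (hb : b ∉ S) (he : e ∉ S) {Q K r : ℝ} (hQ0 : 0 < Q)
    (hQ : Q ≤ triQ (C.s a) (C.s b) (C.s e) (C.c a b) (C.c a e) (C.c b e))
    (hK : 27 / (4 * Real.pi * Real.sqrt Q) ≤ K) (hr : 0 ≤ r) :
    r * (∑ i ∈ S, C.m i) - K * r ^ 3 / 3 ≤
      (5 / 6 - 1 / (2 * ((n:ℝ) + 1 - S.card))) * ∑ i ∈ S, C.s i := by
  classical
  set B : Finset (Fin (n + 1)) := {a, b, e} with hBdef
  set R := Sᶜ with hRdef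
  have hBR : B ⊆ R := by
    intro x hx
    simp only [B, Finset.mem_insert, Finset.mem_singleton] at hx
    rcases hx with rfl | rfl | rfl <;> simpa [R]
  have hBne : B.Nonempty := ⟨a, by simp [B]⟩
  have hRne : R.Nonempty := ⟨a, hBR (by simp [B])⟩
  have hBcard : B.card = 3 := by
    simp [B, hab, hae, hbe]
  have hcard : (R.card : ℝ) = (n:ℝ) + 1 - S.card := by
    have : S.card + R.card = n + 1 := by
      rw [hRdef, Finset.card_add_card_compl, Fintype.card_fin]
    rw [eq_sub_iff_add_eq]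
    exact_mod_cast (by omega : R.card + S.card = n + 1)
  have hR3 : (3:ℝ) ≤ R.card := by
    exact_mod_cast hBcard ▸ Finset.card_le_card hBR
  have hRle : R.card ≤ n := by
    have h1 : 0 < S.card := Finset.card_pos.2 hSn
    have h2 : S.card + R.card = n + 1 := by
      rw [hRdef, Finset.card_add_card_compl, Fintype.card_fin]
    omega
  set v : Eu n := (3:ℝ)⁻¹ • (C.z a + C.z b + C.z e) with hv
  set w : Fin (n + 1) → Eu n := fun i => C.z i - v
  set Rf : Eu n → ℝ := gMax B hBne w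
  have hRf0 : ∀ x, 0 ≤ Rf x := by
    intro x
    have h1 := le_gMax (hR := hBne) (z := w) (by simp [B] : a ∈ B) x
    have h2 := le_gMax (hR := hBne) (z := w) (by simp [B] : b ∈ B) x
    have h3 := le_gMax (hR := hBne) (z := w) (by simp [B] : e ∈ B) x
    have hsum : ⟪w a, x⟫ + ⟪w b, x⟫ + ⟪w e, x⟫ = 0 := by
      simp only [w, v, inner_sub_left, real_inner_smul_left, inner_add_left]
      ring
    simp only [Rf]
    linarith
  have hgram : triQ (C.s a) (C.s b) (C.s e) (C.c a b) (C.c a e) (C.c b e) / 9 =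
      ‖w a‖ ^ 2 * ‖w b‖ ^ 2 - ⟪w a, w b⟫ ^ 2 := (triQ_eq (C.z a) (C.z b) (C.z e)).symm
  have hgpos : 0 < ‖w a‖ ^ 2 * ‖w b‖ ^ 2 - ⟪w a, w b⟫ ^ 2 := by
    rw [← hgram]
    linarith
  have hsmall : ∀ t, 0 ≤ t → (gam n).real {x | Rf x ≤ t} ≤ K * t ^ 2 := by
    intro t ht
    refine (measureReal_mono ?_).trans ((hT n (w a) (w b) t ht hgpos).trans ?_)
    · intro x (hx : Rf x ≤ t)
      have h1 := (le_gMax (hR := hBne) (z := w) (by simp [B] : a ∈ B) x).trans hx
      have h2 := (le_gMax (hR := hBne) (z := w) (by simp [B] : b ∈ B) x).trans hx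
      have h3 := (le_gMax (hR := hBne) (z := w) (by simp [B] : e ∈ B) x).trans hx
      refine ⟨h1, h2, ?_⟩
      have hsum : ⟪w a, x⟫ + ⟪w b, x⟫ + ⟪w e, x⟫ = 0 := by
        simp only [w, v, inner_sub_left, real_inner_smul_left, inner_add_left]
        ring
      linarith
    · refine le_trans ?_ (mul_le_mul_of_nonneg_right hK (sq_nonneg t))
      rw [← hgram, Real.sqrt_div' _ (by norm_num : (0:ℝ) ≤ 9),
        show Real.sqrt 9 = 3 by rw [show (9:ℝ) = 3 ^ 2 by norm_num]; exact Real.sqrt_sq (by norm_num)]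
      have hs := Real.sqrt_le_sqrt hQ
      have hs0 : 0 < Real.sqrt Q := Real.sqrt_pos.2 hQ0
      have hpi := Real.pi_pos
      calc 9 * t ^ 2 / (4 * Real.pi *
            (Real.sqrt (triQ (C.s a) (C.s b) (C.s e) (C.c a b) (C.c a e) (C.c b e)) / 3))
          ≤ 9 * t ^ 2 / (4 * Real.pi * (Real.sqrt Q / 3)) := by gcongr
        _ = 27 / (4 * Real.pi * Real.sqrt Q) * t ^ 2 := by field_simp; ring
  set A : Set (Eu n) := ⋃ i ∈ S, C.cell i
  have hAm : MeasurableSet A := Finset.measurableSet_biUnion _ fun i _ => C.measurable_cell i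
  have hpd : Set.PairwiseDisjoint (S : Set (Fin (n + 1))) C.cell :=
    fun i _ j _ hij => C.disjoint_cell hij
  have hrho := hB n A Rf K r hAm (integrable_gMax _ _ _) hRf0 hr hsmall
  rw [measureReal_biUnion_finset hpd (fun i _ => C.measurable_cell i),
    integral_biUnion_finset S (fun i _ => C.measurable_cell i) hpd
      fun i _ => (integrable_gMax _ _ _).integrableOn] at hrho
  have hmdef : ∀ i, (gam n).real (C.cell i) = C.m i := fun _ => rfl
  simp only [hmdef] at hrho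
  have hlow : ∑ i ∈ R, C.s i + ∑ i ∈ S, ((∫ x in C.cell i, Rf x ∂(gam n)) + ⟪v, C.z i⟫) ≤
      gPhi R hRne C.z := by
    have hsplit : gPhi R hRne C.z = ∑ i, ∫ x in C.cell i, gMax R hRne C.z x ∂(gam n) := by
      rw [gPhi, ← setIntegral_univ, ← C.iUnion_cell,
        integral_iUnion_fintype C.measurable_cell C.disjoint_cell
          fun i => (integrable_gMax _ _ _).integrableOn]
    rw [hsplit, ← Finset.sum_compl_add_sum S]
    refine add_le_add (Finset.sum_le_sum fun i hi => ?_) (Finset.sum_le_sum fun i _ => ?_)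
    · rw [show C.s i = ∫ x in C.cell i, ⟪C.z i, x⟫ ∂(gam n) by
        rw [C.setIntegral_inner_cell, real_inner_self_eq_norm_sq]; rfl]
      exact setIntegral_mono (integrable_inner_gam _).integrableOn
        (integrable_gMax _ _ _).integrableOn fun x => le_gMax hi x
    · rw [← C.setIntegral_inner_cell v i, ← integral_add (integrable_gMax _ _ _).integrableOn
        (integrable_inner_gam _).integrableOn]
      refine setIntegral_mono ((integrable_gMax _ _ _).add (integrable_inner_gam _)).integrableOn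
        (integrable_gMax _ _ _).integrableOn fun x => ?_
      obtain ⟨j, hj, hjeq⟩ := exists_gMax_eq B hBne w x
      simp only [Rf, Pi.add_apply, hjeq]
      have := le_gMax (hR := hRne) (z := C.z) (hBR hj) x
      simp only [w, inner_sub_left]
      linarith
  have hup := gPhi_le_of_bound R hRne (C.bound _ hRle) C.z ((R.card : ℝ)⁻¹ • ∑ i ∈ R, C.z i)
  set GS : Eu n := ∑ i ∈ S, C.z i
  have hRsum : ∑ i ∈ R, C.z i = -GS := by
    have h := C.sum_z
    rw [← Finset.sum_compl_add_sum S] at h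
    exact eq_neg_of_add_eq_zero_left h
  have hRpos : (0:ℝ) < R.card := by linarith
  have hY : ∑ i ∈ R, ‖C.z i - (R.card : ℝ)⁻¹ • ∑ i ∈ R, C.z i‖ ^ 2 =
      ∑ i ∈ R, C.s i - ‖GS‖ ^ 2 / R.card := by
    simp only [norm_sub_sq_real, Finset.sum_add_distrib, Finset.sum_sub_distrib, ← Finset.mul_sum,
      ← sum_inner, real_inner_smul_right, real_inner_self_eq_norm_sq, norm_smul, mul_pow,
      Finset.sum_const, nsmul_eq_mul, hRsum, norm_neg, norm_inv, Real.norm_natCast, s]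
    field_simp
    ring
  rw [hY] at hup
  set Y := ∑ i ∈ R, C.s i - ‖GS‖ ^ 2 / R.card
  have hY0 : 0 ≤ Y := hY ▸ Finset.sum_nonneg fun i _ => sq_nonneg _
  have ham : Real.sqrt c2 * Real.sqrt Y ≤ (c2 + Y) / 2 := by
    nlinarith [sq_nonneg (Real.sqrt c2 - Real.sqrt Y), Real.sq_sqrt c2_pos.le, Real.sq_sqrt hY0]
  have hvS : -(‖GS‖ ^ 2 / 3) ≤ ∑ i ∈ S, ⟪v, C.z i⟫ := by
    rw [← inner_sum]
    set T := (Finset.univ \ B) \ S
    have h1 : C.z a + C.z b + C.z e = ∑ i ∈ B, C.z i := by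
      simp [B, hab, hae, hbe, add_assoc]
    have hdis : Disjoint B S := by
      rw [Finset.disjoint_left]
      exact fun x hx hxS => Finset.mem_compl.1 (hBR hx) hxS
    have h2 : ∑ i ∈ B, C.z i + (GS + ∑ i ∈ T, C.z i) = 0 := by
      have hS' : S ⊆ Finset.univ \ B := fun x hx =>
        Finset.mem_sdiff.2 ⟨Finset.mem_univ x, fun hxB => Finset.disjoint_left.1 hdis hxB hx⟩
      have e1 := Finset.sum_sdiff (f := C.z) hS'
      have e2 := Finset.sum_sdiff (f := C.z) (Finset.subset_univ B)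
      rw [C.sum_z] at e2
      rw [← e2, ← e1]
      simp only [GS, T]
      abel
    have h3 : ⟪∑ i ∈ T, C.z i, GS⟫ ≤ 0 := by
      simp only [GS, sum_inner, inner_sum]
      refine Finset.sum_nonpos fun i hi => Finset.sum_nonpos fun j hj => ?_
      refine (C.inner_neg_of_ne fun h => ?_).le
      exact (Finset.mem_sdiff.1 hj).2 (h ▸ hi)
    have h4 : ∑ i ∈ B, C.z i = -GS - ∑ i ∈ T, C.z i := by
      rw [eq_neg_of_add_eq_zero_left h2]
      abel
    rw [hv, h1, h4, real_inner_smul_left, inner_sub_left, inner_neg_left,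
      real_inner_self_eq_norm_sq]
    linarith
  have hG := C.norm_sum_sq_le S
  have hF := C.gt
  have hFsplit : ∑ i, ‖C.z i‖ ^ 2 = ∑ i ∈ R, C.s i + ∑ i ∈ S, C.s i :=
    (Finset.sum_compl_add_sum S _).symm
  rw [Finset.sum_add_distrib] at hlow
  rw [← hcard]
  have hcoef : 0 ≤ 1 / 3 - 1 / (2 * (R.card : ℝ)) := by
    rw [sub_nonneg, div_le_div_iff₀ (by positivity) (by norm_num)]
    linarith
  have := mul_le_mul_of_nonneg_left hG hcoef
  have hid : ‖GS‖ ^ 2 / R.card = 2 * (1 / (2 * (R.card : ℝ))) * ‖GS‖ ^ 2 := by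
    field_simp
  simp only [Y] at ham hup
  nlinarith

/-- The four-cell test. -/
theorem four_test (C : Crit 3) (hD : TriconeProp) (i a b e : Fin 4) (hia : i ≠ a) (hib : i ≠ b)
    (hie : i ≠ e) (hab : a ≠ b) (hae : a ≠ e) (hbe : b ≠ e) :
    C.m i * (Real.pi * Real.sqrt (C.c a b * C.c a e + C.c a b * C.c b e + C.c a e * C.c b e)) ≤
      2 * C.s i := by
  set P := C.c a b * C.c a e + C.c a b * C.c b e + C.c a e * C.c b e with hPdef
  have c1 := C.c_pos hia
  have c2' := C.c_pos hib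
  have c3 := C.c_pos hie
  have c4 := C.c_pos hab
  have c5 := C.c_pos hae
  have c6 := C.c_pos hbe
  have hP : 0 < P := by positivity
  have huniv : (Finset.univ : Finset (Fin 4)) = {i, a, b, e} := by
    refine (Finset.eq_univ_of_card _ ?_).symm
    simp [hia, hib, hie, hab, hae, hbe]
  have hsum : C.z i + (C.z a + (C.z b + C.z e)) = 0 := by
    have h := C.sum_z
    rw [show ∑ j, C.z j = ∑ j ∈ ({i, a, b, e} : Finset (Fin 4)), C.z j by rw [← huniv]] at h
    simpa [hia, hib, hie, hab, hae, hbe] using h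
  have hs : ∀ p : Eu 3, ⟪C.z i, p⟫ + (⟪C.z a, p⟫ + (⟪C.z b, p⟫ + ⟪C.z e, p⟫)) = 0 := by
    intro p
    rw [← inner_add_left, ← inner_add_left, ← inner_add_left, hsum, inner_zero_left]
  have si : C.s i = C.c i a + C.c i b + C.c i e := by
    have := hs (C.z i)
    simp only [s, c, ← real_inner_self_eq_norm_sq, real_inner_comm (C.z i)] at this ⊢
    linarith
  have sa : ⟪C.z a, C.z a⟫ = C.c i a + C.c a b + C.c a e := by
    have := hs (C.z a)
    simp only [c, real_inner_comm (C.z a)] at this ⊢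
    linarith
  have sb : ⟪C.z b, C.z b⟫ = C.c i b + C.c a b + C.c b e := by
    have := hs (C.z b)
    simp only [c, real_inner_comm (C.z b)] at this ⊢
    linarith
  have se : ⟪C.z e, C.z e⟫ = C.c i e + C.c a e + C.c b e := by
    have := hs (C.z e)
    simp only [c, real_inner_comm (C.z e)] at this ⊢
    linarith
  set p := C.z i - C.z a
  set q := C.z i - C.z b
  set r := C.z i - C.z e
  set D2 := ‖p‖ ^ 2 * ‖q‖ ^ 2 * ‖r‖ ^ 2 + 2 * ⟪p, q⟫ * ⟪q, r⟫ * ⟪p, r⟫
      - ‖p‖ ^ 2 * ⟪q, r⟫ ^ 2 - ‖q‖ ^ 2 * ⟪p, r⟫ ^ 2 - ‖r‖ ^ 2 * ⟪p, q⟫ ^ 2 with hD2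
  have hD2eq : D2 = 16 * (C.s i * P +
      (C.c i a * C.c i b * (C.c a e + C.c b e) + C.c i a * C.c i e * (C.c a b + C.c b e) +
        C.c i b * C.c i e * (C.c a b + C.c a e)) + C.c i a * C.c i b * C.c i e) := by
    have hii : ⟪C.z i, C.z i⟫ = C.c i a + C.c i b + C.c i e := by
      rw [real_inner_self_eq_norm_sq]
      exact si
    have eia : ⟪C.z i, C.z a⟫ = -C.c i a := by simp [c]
    have eib : ⟪C.z i, C.z b⟫ = -C.c i b := by simp [c]
    have eie : ⟪C.z i, C.z e⟫ = -C.c i e := by simp [c]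
    have eab : ⟪C.z a, C.z b⟫ = -C.c a b := by simp [c]
    have eae : ⟪C.z a, C.z e⟫ = -C.c a e := by simp [c]
    have ebe : ⟪C.z b, C.z e⟫ = -C.c b e := by simp [c]
    simp only [D2, p, q, r, hPdef, si, ← real_inner_self_eq_norm_sq, inner_sub_left, inner_sub_right,
      real_inner_comm (C.z i) (C.z a), real_inner_comm (C.z i) (C.z b),
      real_inner_comm (C.z i) (C.z e), real_inner_comm (C.z a) (C.z b),
      real_inner_comm (C.z a) (C.z e), real_inner_comm (C.z b) (C.z e),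
      hii, sa, sb, se, eia, eib, eie, eab, eae, ebe]
    ring
  have hspos := C.s_pos (by norm_num) i
  have hD2ge : 16 * (C.s i * P) ≤ D2 := by
    rw [hD2eq]
    have : 0 ≤ C.c i a * C.c i b * (C.c a e + C.c b e) + C.c i a * C.c i e * (C.c a b + C.c b e) +
        C.c i b * C.c i e * (C.c a b + C.c a e) + C.c i a * C.c i b * C.c i e := by positivity
    linarith
  have hD2pos : 0 < D2 := lt_of_lt_of_le (by positivity) hD2ge
  have hpqr : p + q + r = (4:ℝ) • C.z i := by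
    have h1 : C.z a + C.z b + C.z e = -C.z i := by
      rw [eq_neg_of_add_eq_zero_left hsum]
      abel
    calc p + q + r = (3:ℝ) • C.z i - (C.z a + C.z b + C.z e) := by
          simp only [p, q, r]
          module
      _ = _ := by
          rw [h1]
          module
  have h := hD 3 p q r (Real.sqrt D2) (Real.sqrt_pos.2 hD2pos) (Real.sq_sqrt hD2pos.le)
  have hsub : C.cell i ⊆ {x | 0 ≤ ⟪p, x⟫ ∧ 0 ≤ ⟪q, x⟫ ∧ 0 ≤ ⟪r, x⟫} := by
    intro x hx
    simp only [Set.mem_ofPred_eq, p, q, r, inner_sub_left, sub_nonneg]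
    exact ⟨hx.1 a, hx.1 b, hx.1 e⟩
  have hm : C.m i ≤ ‖p + q + r‖ ^ 3 / (8 * Real.pi * Real.sqrt D2) :=
    (measureReal_mono hsub).trans h
  have hsq : 4 * (Real.sqrt (C.s i) * Real.sqrt P) ≤ Real.sqrt D2 := by
    rw [← Real.sqrt_mul hspos.le]
    have : Real.sqrt (16 * (C.s i * P)) = 4 * Real.sqrt (C.s i * P) := by
      rw [Real.sqrt_mul (by norm_num), show Real.sqrt 16 = 4 by
        rw [show (16:ℝ) = 4 ^ 2 by norm_num]; exact Real.sqrt_sq (by norm_num)]
    rw [← this]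
    exact Real.sqrt_le_sqrt hD2ge
  have hnorm : ‖p + q + r‖ = 4 * Real.sqrt (C.s i) := by
    rw [hpqr, norm_smul, s, Real.sqrt_sq (norm_nonneg _)]
    norm_num
  rw [hnorm] at hm
  set σ := Real.sqrt (C.s i)
  have hσ : 0 < σ := Real.sqrt_pos.2 hspos
  have hσ2 : σ * σ = C.s i := Real.mul_self_sqrt hspos.le
  have hm0 : 0 ≤ C.m i := measureReal_nonneg
  rw [le_div_iff₀ (mul_pos (mul_pos (by norm_num) Real.pi_pos) (Real.sqrt_pos.2 hD2pos))] at hm
  have h1 : C.m i * (8 * Real.pi * (4 * (σ * Real.sqrt P))) ≤ (4 * σ) ^ 3 :=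
    le_trans (mul_le_mul_of_nonneg_left (mul_le_mul_of_nonneg_left hsq (by positivity)) hm0) hm
  refine le_of_mul_le_mul_left ?_ (by positivity : (0:ℝ) < 32 * σ)
  calc 32 * σ * (C.m i * (Real.pi * Real.sqrt P))
      = C.m i * (8 * Real.pi * (4 * (σ * Real.sqrt P))) := by ring
    _ ≤ (4 * σ) ^ 3 := h1
    _ = 32 * σ * (2 * C.s i) := by rw [← hσ2]; ring

end Crit

end Vale.Agent.P226
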